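import Crest.Agent.N218.D3.Ev0

/-!
# Row 218, block D3 (helper37): pull-back of free problems and bordisms along a label map
-/

set_option autoImplicit false
set_option linter.unusedVariables false
set_option linter.unusedSectionVars false

open Set unitInterval

noncomputable section

namespace Crest.Agent.N218.D3
open K

namespace Cb
variable {A B N W : Type} [NormedAddCommGroup A] [NormedSpace ℝ A] [FiniteDimensional ℝ A]
  [NormedAddCommGroup B] [NormedSpace ℝ B] [FiniteDimensional ℝ B] [TopologicalSpace N]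
  [T2Space N] [TopologicalSpace W] {c : Pp A B} {Bx : Set B}

theorem con (h : Lab c Bx) : ContinuousOn (fun x : A × N => (c.2 x.1, x.2)) {x | x.1 ∈ c.1} :=
  (h.ok.ct.comp continuousOn_fst fun _ a => a).prodMk continuousOn_snd

theorem opn (h : Lab c Bx) {O : Set (B × N)} (hO : IsOpen O) :
    IsOpen {x : A × N | x.1 ∈ c.1 ∧ (c.2 x.1, x.2) ∈ O} :=
  (con h).isOpen_inter_preimage (h.ok.op.preimage continuous_fst) hO

theorem cpt (h : Lab c Bx) {Z : Set (B × N)} (hZ : IsCompact Z) (hB : ∀ x ∈ Z, x.1 ∈ Bx) :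
    IsCompact {x : A × N | x.1 ∈ c.1 ∧ (c.2 x.1, x.2) ∈ Z} := by
  have k := (h.pr (Prod.fst '' Z) (by rintro _ ⟨x, a, rfl⟩; exact hB x a)
    (hZ.image continuous_fst)).prod (hZ.image continuous_snd)
  convert k.of_isClosed_subset (((con h).mono fun x a => a.1.1).preimage_isClosed_of_isClosed
    k.isClosed hZ.isClosed) inter_subset_left using 1
  exact Set.ext fun x => ⟨fun a => ⟨⟨⟨a.1, _, a.2, rfl⟩, _, a.2, rfl⟩, a.2⟩, fun a => ⟨a.1.1.1, a.2⟩⟩

variable {Γ : Type} [Group Γ] [TopologicalSpace Γ] {M V : Rep Γ}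

theorem fr (h : Lab c Bx) {P : PB (XT B M).ls V} (hP : P.Fr) (hB : ∀ x ∈ P.O, x.1 ∈ Bx) :
    (cmp c P).Fr :=
  ⟨opn h hP.op, fun g x a => ⟨a.1, hP.inv g _ a.2⟩, hP.ct.comp ((con h).mono fun _ a => a.1)
    fun _ a => a.2, fun g x a => hP.eq g _ a.2,
    (congrArg IsCompact (Set.ext fun x => and_assoc)).mpr (cpt h hP.cp fun x a => hB x a.1),
    fun x a g e => hP.fr ⟨a.1.2, a.2⟩ g (Prod.ext rfl (congrArg Prod.snd e :))⟩
end Cb

open Cb in
theorem cbd : CBD := by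
  intro Γ _ _ A _ _ _ B _ _ _ M V c Bx h P hP hB
  refine ⟨fr h hP hB, fun P' H hP' e eH hH l0 l1 => ⟨fr h hP hB, fr h hP' (e ▸ hB),
    ⟨{x : (A × M.W) × I | x.1.1 ∈ c.1 ∧ ((c.2 x.1.1, x.1.2), x.2) ∈ H.O},
      fun x : (A × M.W) × I => H.f ((c.2 x.1.1, x.1.2), x.2)⟩, ?_,
    ⟨fun x a => ⟨a.1, l0.sub a.2⟩, fun x a => l0.eq _ a.2, fun x a => ⟨a.1.1, l0.z ⟨a.1.2, a.2⟩⟩⟩,
    ⟨fun x a => ⟨a.1, l1.sub a.2⟩, fun x a => l1.eq _ a.2, fun x a => ⟨a.1.1, l1.z ⟨a.1.2, a.2⟩⟩⟩⟩⟩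
  let a := Homeomorph.prodAssoc A M.W I
  let b := (Homeomorph.prodAssoc B M.W I).symm
  have ct : ContinuousOn (fun x : (A × M.W) × I => ((c.2 x.1.1, x.1.2), x.2)) {x | x.1.1 ∈ c.1} :=
    ((con h).comp continuousOn_fst fun _ a => a).prodMk continuousOn_snd
  refine ⟨(opn h (hH.op.preimage b.continuous)).preimage a.continuous,
    fun g x u => ⟨u.1, hH.inv g _ u.2⟩, hH.ct.comp (ct.mono fun _ u => u.1) fun _ u => u.2,
    fun g x u => hH.eq g _ u.2, ?_,
    fun x u g k => hH.fr ⟨u.1.2, u.2⟩ g (Prod.ext rfl (congrArg Prod.snd k :))⟩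
  exact (congrArg IsCompact (Set.ext fun x => and_assoc)).mpr (a.isCompact_preimage.2 (cpt h
    (b.isCompact_preimage.2 hH.cp) fun x u => hB (b x).1 (by have := u.1; rwa [eH] at this)))

end Crest.Agent.N218.D3

end
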