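import Crest.Agent.N218.D3.Geo

/-!
# Row 218, block D3 (helper86): the domain of the second sheet is a cell
-/

set_option autoImplicit false
set_option linter.unusedVariables false

open Set Module
open scoped RealInnerProductSpace

noncomputable section

namespace Crest.Agent.N218.D3
open K In Sh

namespace Ce

theorem cell_of {A B R A' F : Type} [NormedAddCommGroup A] [NormedSpace ℝ A] [FiniteDimensional ℝ A]
    [TopologicalSpace B] [NormedAddCommGroup R] [NormedSpace ℝ R] [FiniteDimensional ℝ R]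
    [NormedAddCommGroup A'] [NormedSpace ℝ A'] [FiniteDimensional ℝ A'] [NormedAddCommGroup F]
    [NormedSpace ℝ F] [FiniteDimensional ℝ F] (κ : A ≃ₜ B × R) {e : A' → B} {U U₁ : Set B}
    {e' : B → A'} (h : Oe e U e') (δ' : B → F) (δ : F → B)
    (hA : finrank ℝ A = finrank ℝ (A' × R)) (hF : finrank ℝ (F × R) + 2 ≤ finrank ℝ A)
    (sub : U ⊆ U₁) (c' : ContinuousOn δ' U₁) (c : Continuous δ) (li : ∀ a ∈ U₁ \ U, δ (δ' a) = a) :
    Cell {a | (κ a).1 ∈ U₁} := by
  let L : A ≃L[ℝ] A' × R := .ofFinrankEq hA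
  let M : (F × R) ≃L[ℝ] (Fin (finrank ℝ (F × R)) → ℝ) := .ofFinrankEq (by simp)
  have k : Continuous fun a => (κ a).1 := by fun_prop
  have k' : Continuous fun a => (κ a).2 := by fun_prop
  refine ⟨fun a => κ.symm (e (L a).1, (L a).2), {a | (κ a).1 ∈ U},
    fun a => L.symm (e' (κ a).1, (κ a).2), _, fun a => M (δ' (κ a).1, (κ a).2),
    fun b => κ.symm (δ (M.symm b).1, (M.symm b).2), ⟨by have := h.ct; fun_prop,
      h.op.preimage k, L.symm.continuous.comp_continuousOn
        ((h.ct'.comp k.continuousOn fun _ m => m).prodMk k'.continuousOn),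
      fun a => by simpa using h.mem _, fun a => by simp [h.li], fun a m => by simp [h.ri _ m]⟩,
    fun a m => sub m, hF, M.continuous.comp_continuousOn
      ((c'.comp k.continuousOn fun _ m => m).prodMk k'.continuousOn),
    Continuous.continuousOn (by fun_prop), fun a m => by simp [li _ m]⟩

section
variable {F : Type} [NormedAddCommGroup F] [NormedSpace ℝ F] {r : ℝ}

/-- the space onto the ball -/
def bl (r : ℝ) (v : F) : F := (r / (1 + ‖v‖)) • v
/-- the inverse -/
def bl' (r : ℝ) (v : F) : F := (1 / (r - ‖v‖)) • v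

theorem bl_cont : Continuous (bl r : F → F) :=
  (continuous_const.div (by fun_prop) fun v => by positivity).smul continuous_id

theorem bl'_cont {T : Type} [TopologicalSpace T] {f : T → F} {s : Set T} (hf : ContinuousOn f s)
    (h : ∀ x ∈ s, ‖f x‖ < r) : ContinuousOn (fun x => bl' r (f x)) s :=
  (continuousOn_const.div (continuousOn_const.sub hf.norm) fun x m => (sub_pos.2 (h x m)).ne').smul hf

theorem norm_bl (hr : 0 < r) (v : F) : ‖bl r v‖ = r - r / (1 + ‖v‖) := by
  rw [bl, norm_smul, Real.norm_of_nonneg (by positivity)]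
  field_simp; ring

theorem bl_lt (hr : 0 < r) (v : F) : ‖bl r v‖ < r := by
  rw [norm_bl hr]; exact sub_lt_self _ (by positivity)

theorem bl'_bl (hr : 0 < r) (v : F) : bl' r (bl r v) = v := by
  rw [bl', norm_bl hr, bl, smul_smul, sub_sub_cancel, one_div_mul_cancel (by positivity), one_smul]

theorem bl_bl' {v : F} (h : ‖v‖ < r) : bl r (bl' r v) = v := by
  have := sub_pos.2 h
  have hr := (norm_nonneg v).trans_lt h
  rw [bl, bl', norm_smul, Real.norm_of_nonneg (by positivity), smul_smul]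
  convert one_smul ℝ v
  field_simp; ring
end

/-- the pole -/
def p : E 3 := EuclideanSpace.single 0 1
theorem hp : ‖p‖ = 1 := by simp [p]
/-- the plane -/
abbrev KK : Type := (ℝ ∙ p)ᗮ
theorem rk : finrank ℝ KK = 2 :=
  haveI : Fact (finrank ℝ (E 3) = 2 + 1) := ⟨by simp⟩
  Submodule.finrank_orthogonal_span_singleton (norm_ne_zero_iff.1 (by rw [hp]; simp))

/-- the reflection that exchanges `x` and the pole -/
def hh (x v : E 3) : E 3 := v - (⟪x - p, v⟫ / (1 - ⟪p, x⟫)) • (x - p)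

section
variable {x : E 3} (h1 : ‖x‖ = 1) (h : ⟪p, x⟫ ≠ 1) (v : E 3)
include h

theorem p_hh : ⟪p, hh x v⟫ = ⟪x, v⟫ := by
  have := sub_ne_zero.2 h.symm
  rw [hh, inner_sub_right, real_inner_smul_right, inner_sub_right, inner_sub_left,
    real_inner_self_eq_norm_sq, hp]
  field_simp; ring

include h1

theorem x_hh : ⟪x, hh x v⟫ = ⟪p, v⟫ := by
  have := sub_ne_zero.2 h.symm
  rw [hh, inner_sub_right, real_inner_smul_right, inner_sub_right, inner_sub_left,
    real_inner_self_eq_norm_sq, h1, real_inner_comm p x]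
  field_simp; ring

theorem hh_hh : hh x (hh x v) = v := by
  rw [hh, inner_sub_left, p_hh h, x_hh h1 h, hh, inner_sub_left, sub_sub, ← add_smul, ← add_div]
  simp
end

theorem hh_cont {T : Type} [TopologicalSpace T] {f g : T → E 3} {s : Set T} (hf : ContinuousOn f s)
    (hg : ContinuousOn g s) (h : ∀ x ∈ s, ⟪p, f x⟫ ≠ 1) : ContinuousOn (fun x => hh (f x) (g x)) s :=
  hg.sub (((ContinuousOn.inner (𝕜 := ℝ) (hf.sub continuousOn_const) hg).div
    (continuousOn_const.sub (ContinuousOn.inner (𝕜 := ℝ) continuousOn_const hf))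
    fun x m => sub_ne_zero.2 (h x m).symm).smul (hf.sub continuousOn_const))

/-- the inverse stereographic projection -/
def sv (a : KK) : E 3 := stereoInvFun hp a
theorem sv_cont : Continuous sv := continuous_subtype_val.comp (continuous_stereoInvFun hp)
theorem sv_norm (a : KK) : ‖sv a‖ = 1 := norm_eq_of_mem_sphere _
theorem sv_ne (a : KK) : ⟪p, sv a⟫ ≠ 1 := fun e => stereoInvFun_ne_north_pole hp a
  (Subtype.ext ((inner_eq_one_iff_of_norm_eq_one hp (sv_norm a)).1 e).symm)
theorem sv_st {x : E 3} (h1 : ‖x‖ = 1) (h : ⟪p, x⟫ ≠ 1) : sv (stereoToFun p x) = x :=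
  congrArg Subtype.val (stereo_left_inv hp (x := ⟨x, mem_sphere_zero_iff_norm.2 h1⟩) fun e =>
    h ((inner_eq_one_iff_of_norm_eq_one hp h1).2 (Eq.symm e)))

/-- the projection -/
abbrev pj : E 3 →L[ℝ] KK := (ℝ ∙ p)ᗮ.orthogonalProjectionOnto
theorem pj_of {v : E 3} (h : ⟪p, v⟫ = 0) : (pj v : E 3) = v :=
  congrArg Subtype.val ((ℝ ∙ p)ᗮ.orthogonalProjectionOnto_mem_subspace_eq_self
    ⟨v, Submodule.mem_orthogonal_singleton_iff_inner_right.2 h⟩)
theorem p_K (b : KK) : ⟪p, (b : E 3)⟫ = 0 := Submodule.mem_orthogonal_singleton_iff_inner_right.1 b.2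

/-- rearrangement of the coordinates -/
def kp : (B0 × (ℂ × ℝ × ℝ) × VY) ≃ₜ ((ℝ × E 3) × ℝ) × ((E 8 × ℝ) × (ℂ × ℝ) × VY) where
  toFun z := ((z.1.1.1, z.2.1.2.1), (z.1.1.2, z.1.2), (z.2.1.1, z.2.1.2.2), z.2.2)
  invFun w := (((w.1.1, w.2.1.1), w.2.1.2), (w.2.2.1.1, w.1.2, w.2.2.1.2), w.2.2.2)
  left_inv _ := rfl
  right_inv _ := rfl
  continuous_toFun := by fun_prop
  continuous_invFun := by fun_prop

end Ce

open Ce

/-- **CEL** -/
theorem cel : CEL := fun Φ h t => by
  have r0 := t.S2.r0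
  have cW := t.S2.sW.continuousOn
  have cH := t.S2.sH.continuousOn
  have cΞ := t.cΞ
  let n : KK × KK → E 3 × E 3 := fun a => (sv a.1, bl t.S2.r (hh (sv a.1) a.2))
  have n0 : ∀ a, n a ∈ N0 := fun a => ⟨sv_norm _, by
    change ⟪sv a.1, _ • _⟫ = 0
    rw [real_inner_smul_right, x_hh (sv_norm _) (sv_ne _), p_K, mul_zero]⟩
  have cn : Continuous n := by
    have := sv_cont
    refine (sv_cont.comp continuous_fst).prodMk (bl_cont.comp (continuousOn_univ.1 ?_))
    exact hh_cont (by fun_prop) (by fun_prop) fun a _ => sv_ne _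
  have k := fun a : (KK × KK) × ℝ => t.r2 _ (n0 a.1) (bl_lt r0 _) _ (bl_lt r0 a.2)
  let U : Set ((ℝ × E 3) × ℝ) := t.S2.O ∩ (fun z => ⟪p, (t.S2.W z).1⟫) ⁻¹' {1}ᶜ
  have c1 : ContinuousOn (fun z => (t.S2.W z).1) U := cW.fst.mono inter_subset_left
  have oe : Oe (fun a : (KK × KK) × ℝ => t.Ξ (n a.1, bl t.S2.r a.2)) U fun z =>
      ((stereoToFun p (t.S2.W z).1, pj (hh (t.S2.W z).1 (bl' t.S2.r (t.S2.W z).2))),
        bl' t.S2.r (t.S2.H z)) := by
    refine ⟨cΞ.comp ((cn.comp continuous_fst).prodMk (bl_cont.comp continuous_snd)),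
      (ContinuousOn.inner (𝕜 := ℝ) continuousOn_const cW.fst).isOpen_inter_preimage t.S2.op isOpen_compl_singleton,
      ((continuousOn_stereoToFun.comp c1 fun z m => m.2).prodMk (pj.continuous.comp_continuousOn
        (hh_cont c1 (bl'_cont (cW.snd.mono inter_subset_left) fun z m => (t.S2.bd z m.1).1)
          fun z m => m.2))).prodMk
        (bl'_cont (cH.mono inter_subset_left) fun z m => (t.S2.bd z m.1).2),
      fun a => ⟨(k a).1, by rw [mem_preimage, (k a).2.1]; exact sv_ne _⟩, fun a => ?_, fun z m => ?_⟩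
    · rw [(k a).2.1, (k a).2.2]
      refine Prod.ext (Prod.ext (stereo_right_inv hp _) (Subtype.ext ?_)) (bl'_bl r0 _)
      simp only [n]
      rw [bl'_bl r0, hh_hh (sv_norm _) (sv_ne _), pj_of (p_K _)]
    · obtain ⟨-, ⟨a1, a2⟩, a3⟩ := t.l2 z m.1
      simp only [n]
      rw [sv_st a1 m.2, pj_of, hh_hh a1 m.2, bl_bl' (t.S2.bd z m.1).1, bl_bl' (t.S2.bd z m.1).2]
      · exact a3
      rw [p_hh m.2, bl', real_inner_smul_right, a2, mul_zero]
  refine cell_of kp oe (fun z => (pj (t.S2.W z).2, t.S2.H z)) (fun b => t.Ξ ((p, b.1), b.2)) ?_ ?_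
    inter_subset_left ((pj.continuous.comp_continuousOn cW.snd).prodMk cH) (by fun_prop)
    fun z m => ?_
  · simp only [finrank_prod, finrank_self, Complex.finrank_real_complex, finrank_euclideanSpace_fin, rk]
    omega
  · simp only [finrank_prod, finrank_self, Complex.finrank_real_complex, finrank_euclideanSpace_fin, rk]
    omega
  · obtain ⟨-, ⟨a1, a2⟩, a3⟩ := t.l2 z m.1
    have e : p = (t.S2.W z).1 :=
      (inner_eq_one_iff_of_norm_eq_one hp a1).1 (not_not.1 fun c => m.2 ⟨m.1, c⟩)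
    change t.Ξ ((p, (pj (t.S2.W z).2 : E 3)), t.S2.H z) = z
    rw [pj_of (by rw [e]; exact a2), e]
    exact a3

end Crest.Agent.N218.D3

end
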