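import Crest.Agent.N218.D3.Zl
import Crest.Agent.N218.D3.Esh

/-! Row 218, block D3, leaf CHB (helper14): from the orthogonal to the gnomonic chart. -/

set_option autoImplicit false
set_option linter.unusedVariables false

open Set unitInterval
open scoped RealInnerProductSpace

noncomputable section

namespace Crest.Agent.N218.D3
open K In Sh

namespace Chb

theorem fam {Γ : Type} [Group Γ] [TopologicalSpace Γ] {M V : Rep Γ} {A B : Type}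
    [NormedAddCommGroup A] [NormedSpace ℝ A] [FiniteDimensional ℝ A] [NormedAddCommGroup B]
    [NormedSpace ℝ B] [FiniteDimensional ℝ B] (c : ℝ → Pp A B)
    {P : PB ((Rep.triv Γ B).prod M).ls V} (hP : P.Fr)
    (op : IsOpen {x : A × I | x.1 ∈ (c x.2).1})
    (ct : ContinuousOn (fun x : A × I => (c x.2).2 x.1) {x | x.1 ∈ (c x.2).1})
    {T : Set (A × I)} (hT : IsCompact T) (sub : ∀ x ∈ T, x.1 ∈ (c x.2).1)
    (z : ∀ (x : A × I) (m : M.W), x.1 ∈ (c x.2).1 → ((c x.2).2 x.1, m) ∈ P.Z → x ∈ T) :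
    (cmp (c 0) P).Bd (cmp (c 1) P) := by
  have c1 : Continuous fun x : (A × M.W) × I => (x.1.1, x.2) := by fun_prop
  have cF : ContinuousOn (fun x : (A × M.W) × I => ((c x.2).2 x.1.1, x.1.2))
      {x | x.1.1 ∈ (c x.2).1} :=
    (ct.comp c1.continuousOn fun _ a => a).prodMk continuous_fst.snd.continuousOn
  refine PB.Ok.hb_sl (X := ((Rep.triv Γ A).prod M).ls) (V := V) (H := ⟨{x : (A × M.W) × I | x.1.1 ∈ (c x.2).1 ∧
      ((c x.2).2 x.1.1, x.1.2) ∈ P.O}, fun x : (A × M.W) × I => P.f ((c x.2).2 x.1.1, x.1.2)⟩)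
    ⟨cF.isOpen_inter_preimage (op.preimage c1) hP.op, fun g x u => ⟨u.1, hP.inv g _ u.2⟩,
      hP.ct.comp (cF.mono fun _ u => u.1) fun _ u => u.2, fun g x u => hP.eq g _ u.2, ?_,
      fun x u g k => hP.fr ⟨u.1.2, u.2⟩ g (Prod.ext rfl (congrArg Prod.snd k :))⟩
  have k := (hT.prod (hP.cp.image continuous_snd)).image
    (f := fun x : (A × I) × M.W => ((x.1.1, x.2), x.1.2)) (by fun_prop)
  have s : (fun x : (A × I) × M.W => ((x.1.1, x.2), x.1.2)) '' T ×ˢ (Prod.snd '' P.Z) ⊆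
      {x : (A × M.W) × I | x.1.1 ∈ (c x.2).1} := by
    rintro _ ⟨y, a, rfl⟩
    exact sub _ a.1
  refine (congrArg IsCompact (Set.ext fun x : (A × M.W) × I => ?_)).mpr (k.of_isClosed_subset
    ((cF.mono s).preimage_isClosed_of_isClosed k.isClosed hP.cp.isClosed) inter_subset_left)
  exact ⟨fun a => ⟨⟨((x.1.1, x.2), x.1.2), ⟨z _ x.1.2 a.1.1 ⟨a.1.2, a.2⟩, _, ⟨a.1.2, a.2⟩, rfl⟩, rfl⟩,
    a.1.2, a.2⟩, fun a => ⟨⟨s a.1, a.2.1⟩, a.2.2⟩⟩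

variable {Φ : A.Fam} (h : P.Shape Φ (2 ^ 30))

theorem in_le (p : A.Eu 11) : ⟪h.e', p⟫ ≤ ‖p‖ := by
  simpa [h.e1] using real_inner_le_norm h.e' p

theorem d_ge (l : I) (p : A.Eu 11) : ⟪h.e', p⟫ ≤ (1 - l) * ‖p‖ + l * ⟪h.e', p⟫ := by
  nlinarith [in_le h p, l.2.2]

theorem d_le (l : I) (p : A.Eu 11) : (1 - l) * ‖p‖ + l * ⟪h.e', p⟫ ≤ ‖p‖ := by
  nlinarith [in_le h p, l.2.1]

theorem ch_ct : ContinuousOn (fun x : A0 × I => (ch h x.2 x.1.1, x.1.2))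
    {x | 0 < ⟪h.e', x.1.1⟫} := by
  refine (ContinuousOn.smul (ContinuousOn.inv₀ (by fun_prop) fun x a =>
    (lt_of_lt_of_le a (d_ge h _ _)).ne') (by fun_prop)).prodMk (by fun_prop)

theorem half_le {l : I} {p : A.Eu 11} (a : 0 < ⟪h.e', p⟫) (n : ‖p‖ = 1)
    (s : ‖(ch h l p).1‖ ^ 2 + ‖(ch h l p).2‖ ^ 2 ≤ h.K ^ 2 / 4) : 1 / 2 ≤ ⟪h.e', p⟫ := by
  have d0 := a.trans_le (d_ge h l p)
  have d1 := d_le h l p
  have e := h.πn p
  simp only [ch, Prod.smul_fst, Prod.smul_snd, norm_smul, mul_pow, ← mul_add, e, norm_inv,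
    Real.norm_of_nonneg d0.le] at s
  generalize (1 - l : ℝ) * ‖p‖ + l * ⟪h.e', p⟫ = d at s d0 d1
  rw [n] at s d1
  rw [inv_pow, inv_mul_le_iff₀ (by positivity)] at s
  have K2 := pow_pos h.K0 2
  have d2 : d ^ 2 ≤ 1 := by nlinarith
  have : h.K ^ 2 * (1 ^ 2 - ⟪h.e', p⟫ ^ 2) ≤ h.K ^ 2 * (1 / 4) := by nlinarith
  have := le_of_mul_le_mul_left this K2
  nlinarith

theorem ari {e A r y : ℝ} (e0 : 0 < e) (A0 : 0 < A) (s : e * A * 2 ^ 30 ≤ r / 4)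
    (b : y ≤ A * 2 ^ 24) : e * y ≤ r / 2 := by
  nlinarith [mul_pos e0 A0, mul_le_mul_of_nonneg_left b e0.le]

variable (t : Tt h.S)

theorem zer {l : I} {p : A.Eu 11} {u : E 8} {ξ s ζ : ℝ} {η : VY} {y : P.Y} (a1 : 0 < ⟪h.e', p⟫)
    (a2 : (ch h l p, u) ∈ t.S1.O) (b1 : (t.S1.W (ch h l p, u), ξ) ∈ t.S2.O)
    (b2 : ‖t.S1.H (ch h l p, u)‖ < t.S2.r) (b3 : Pm.mn η ≠ 0) (c1 : Real.log ‖p‖ = 0)
    (c2 : eq0 (rl h (t.S2.W (t.S1.W (ch h l p, u), ξ))) s η = 0)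
    (c3 : h.j.symm ((t.S1.H (ch h l p, u), t.S2.H (t.S1.W (ch h l p, u), ξ)), ζ) - h.ε • y = 0)
    (hv : ∀ b, (∀ i, ‖η i‖ ≤ b) → ‖y‖ ≤ b) :
    (‖p‖ = 1 ∧ 1 / 2 ≤ ⟪h.e', p⟫) ∧ (ch h l p, u) ∈ t.S1.O ∧ ‖t.S1.W (ch h l p, u)‖ ≤ t.ρ ∧
      ‖t.S1.H (ch h l p, u)‖ ≤ t.S2.r / 2 := by
  have n : ‖p‖ = 1 := Real.eq_one_of_pos_of_log_eq_zero (lt_of_lt_of_le a1 (in_le h _)) c1
  obtain ⟨q1, q2, -⟩ := t.l2 _ b1
  obtain ⟨z1, z2⟩ := zl Φ h t _ q2 _ η b3 c2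
  have m : (ch h l p, u, ξ) ∈ h.S.O := by rw [t.hO]; exact ⟨a2, b2, b1⟩
  have e : h.S.H (ch h l p, u, ξ) = (h.j (h.ε • y)).1 := by
    rw [t.hH, ← sub_eq_zero.1 c3, h.j.apply_symm_apply]
  have bH : ‖h.S.H (ch h l p, u, ξ)‖ ≤ h.S.r / 2 := by
    have := hv _ z2
    rw [e]
    refine (Zl.j1_le h _).trans ?_
    rw [norm_smul, Real.norm_of_nonneg h.ε0.le]
    exact ari h.ε0 (Zl.A_pos h) h.small this
  have su := h.sup _ m (by rw [t.hW]; exact z1.le) bH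
  refine ⟨⟨n, half_le h a1 n su⟩, a2, q1.le, ?_⟩
  rw [t.hH, t.hr, Prod.norm_mk] at bH
  exact (max_le_iff.1 bH).1

/-- the compact set of labels -/
def TT : Set (A0 × I) := {x | (‖x.1.1‖ = 1 ∧ 1 / 2 ≤ ⟪h.e', x.1.1⟫) ∧
  (ch h x.2 x.1.1, x.1.2) ∈ t.S1.O ∧ ‖t.S1.W (ch h x.2 x.1.1, x.1.2)‖ ≤ t.ρ ∧
    ‖t.S1.H (ch h x.2 x.1.1, x.1.2)‖ ≤ t.S2.r / 2}

theorem TT_cp : IsCompact (TT h t) := by
  have r2 := t.S2.r0
  have C := t.S1.cpt t.ρ t.hρ (t.S2.r / 2) (by linarith [t.r21])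
  have cl : IsClosed {x : A0 × I | ‖x.1.1‖ = 1 ∧ 1 / 2 ≤ ⟪h.e', x.1.1⟫} :=
    (isClosed_eq (by fun_prop) continuous_const).inter
      (isClosed_le continuous_const (by fun_prop : Continuous fun x : A0 × I => ⟪h.e', x.1.1⟫))
  have pos : ∀ x : A0 × I, 1 / 2 ≤ ⟪h.e', x.1.1⟫ → 0 < ⟪h.e', x.1.1⟫ := fun x a => by linarith
  exact (((isCompact_sphere 0 1).prod (C.image continuous_snd)).prod
    isCompact_univ).of_isClosed_subset
      (((ch_ct h).mono fun x a => pos x a.2).preimage_isClosed_of_isClosed cl C.isClosed)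
      fun x a => ⟨⟨mem_sphere_zero_iff_norm.2 a.1.1, _, a.2, rfl⟩, trivial⟩

theorem cL_op : IsOpen {x : A0 × I | x.1 ∈ (cL h t x.2).1} :=
  (ch_ct h).isOpen_inter_preimage (isOpen_lt continuous_const
    (by fun_prop : Continuous fun x : A0 × I => ⟪h.e', x.1.1⟫)) t.S1.op

theorem cL_ct : ContinuousOn (fun x : A0 × I => (cL h t x.2).2 x.1) {x | x.1 ∈ (cL h t x.2).1} := by
  have cq : ContinuousOn (fun x : A0 × I => (ch h x.2 x.1.1, x.1.2)) {x | x.1 ∈ (cL h t x.2).1} :=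
    (ch_ct h).mono fun _ a => a.1
  exact ((t.S1.sW.continuousOn.comp cq fun _ a => a.2).prodMk
    (t.S1.sH.continuousOn.comp cq fun _ a => a.2)).prodMk (ContinuousOn.log
      continuous_fst.fst.norm.continuousOn fun x a => (lt_of_lt_of_le a.1 (in_le h _)).ne')

theorem main (v : VY →L[ℝ] P.Y) (hv : ∀ η b, (∀ i, ‖η i‖ ≤ b) → ‖v η‖ ≤ b)
    (hF : (Es.P1' h t v).Fr) :
    (cmp (cL h t 0) (Es.P1' h t v)).Bd (cmp (cL h t 1) (Es.P1' h t v)) :=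
  fam (cL h t) hF (cL_op h t) (cL_ct h t) (TT_cp h t)
    (fun x a => ⟨lt_of_lt_of_le one_half_pos a.1.2, a.2.1⟩) fun x m a b =>
      zer h t a.1 a.2 b.1.1 b.1.2.1 b.1.2.2 (congrArg (fun y => y.1.1.1) b.2)
        (congrArg (fun y => y.1.2) b.2) (congrArg (fun y => y.2) b.2) (hv _)

end Chb

/-- **change of the chart** -/
theorem chb (hF : PFR) : CHB := by
  intro Φ h t
  have f := hF Φ h t
  rw [Es.P1_eq] at f ⊢
  refine Chb.main h t _ (fun η b a => ?_) f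
  have := Zl.av_le (c := 0) (y := η) fun i => (sub_zero (η i)).symm ▸ a i
  rwa [sub_zero] at this

end Crest.Agent.N218.D3

end
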