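import Crest.Agent.N218.D3.Defs

/-!
# Row 218, block D3 (helper51): composition of a pointed fibre map with a problem
-/

set_option autoImplicit false
set_option linter.unusedVariables false

open Set Topology Filter OnePoint

noncomputable section

namespace Crest.Agent.N218.D3
open K

/-- extension by zero -/
def ez {P N : Type} (χ : P × N → ℝ) (z : P × OnePoint N) : ℝ :=
  OnePoint.rec 0 (fun n => χ (z.1, n)) z.2

theorem continuous_ez {P N : Type} [TopologicalSpace P] [TopologicalSpace N] [T2Space N]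
    {χ : P × N → ℝ} (ct : Continuous χ) (cp : IsCompact (tsupport χ)) : Continuous (ez χ) := by
  rw [continuous_iff_continuousAt]
  rintro ⟨p, w⟩
  induction w using OnePoint.rec with
  | coe w =>
    have e : IsOpenEmbedding (Prod.map id (↑) : P × N → P × OnePoint N) :=
      IsOpenEmbedding.id.prodMap isOpenEmbedding_coe
    exact (e.continuousAt_iff (x := (p, w))).1 ct.continuousAt
  | infty =>
    have k := cp.image continuous_snd
    have : ∀ᶠ z : P × OnePoint N in 𝓝 (p, ∞), z.2 ∈ (↑) '' (Prod.snd '' tsupport χ)ᶜ ∪ {∞} :=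
      continuous_snd.continuousAt.eventually (hasBasis_nhds_infty.mem_of_mem ⟨k.isClosed, k⟩)
    refine (continuousAt_const (y := (0 : ℝ))).congr ?_
    filter_upwards [this]
    rintro ⟨q, z⟩ (⟨w, hw, e⟩ | e)
    · obtain rfl : (w : OnePoint N) = z := e
      exact (image_eq_zero_of_notMem_tsupport fun m => hw ⟨_, m, rfl⟩).symm
    · obtain rfl : z = ∞ := e
      rfl

section
variable {Γ : Type} [Group Γ] [TopologicalSpace Γ] [CompactSpace Γ] {Y : GS Γ} {M N : LS Γ}
  {g : Y.Z × M.Z → OnePoint N.Z}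

theorem pm_cp (m : Pm Y M N g) {K : Set (Y.Z × N.Z)} (k : IsCompact K) :
    IsCompact {x : Y.Z × M.Z | ∃ n : N.Z, g x = n ∧ (x.1, n) ∈ K} := by
  obtain ⟨K', k', h⟩ := m.pr _ (k.image continuous_snd)
  have c : IsClosed ((Prod.map id (↑) : Y.Z × N.Z → Y.Z × OnePoint N.Z) '' K) :=
    (k.image (continuous_id.prodMap continuous_coe)).isClosed
  have e : {x : Y.Z × M.Z | ∃ n : N.Z, g x = n ∧ (x.1, n) ∈ K} =
      (fun x => (x.1, g x)) ⁻¹' (Prod.map id (↑) '' K) := by
    ext x
    constructor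
    · rintro ⟨n, a, b⟩
      exact ⟨_, b, Prod.ext rfl a.symm⟩
    · rintro ⟨⟨y, n⟩, b, a⟩
      obtain ⟨a1, a2⟩ := Prod.ext_iff.1 a
      obtain rfl : y = x.1 := a1
      exact ⟨n, a2.symm, b⟩
  refine (isCompact_univ.prod k').of_isClosed_subset
    (e ▸ c.preimage (continuous_fst.prodMk m.ct)) ?_
  rintro ⟨y, w⟩ ⟨n, a, b⟩
  refine ⟨trivial, ?_⟩
  by_contra o
  exact h y w n o a ⟨_, b, rfl⟩

end

theorem cmp' : CMP := by
  intro Γ _ _ _ Y M N W g F Q P m r q ho hf
  have em : IsOpenEmbedding (Prod.map id (↑) : Y.Z × N.Z → Y.Z × OnePoint N.Z) :=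
    IsOpenEmbedding.id.prodMap isOpenEmbedding_coe
  have cg : Continuous fun x : Y.Z × M.Z => (x.1, g x) := continuous_fst.prodMk m.ct
  have act : ∀ γ (x : Y.Z × M.Z) (n : N.Z), g x = n →
      g (Y.act γ x.1, M.act γ x.2) = (N.act γ n : N.Z) := fun γ x n a => by
    rw [m.eq γ x.1 x.2, show g (x.1, x.2) = n from a]; rfl
  have ok : P.Ok := by
    refine ⟨?_, fun γ x o => ?_, ?_, fun γ x o => ?_, ?_⟩
    · have e : P.O = (fun x => (x.1, g x)) ⁻¹' (Prod.map id (↑) '' Q.O) := by
        ext x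
        rw [ho]
        constructor
        · rintro ⟨n, a, b⟩
          exact ⟨_, b, Prod.ext rfl a.symm⟩
        · rintro ⟨⟨y, n⟩, b, a⟩
          obtain ⟨a1, a2⟩ := Prod.ext_iff.1 a
          obtain rfl : y = x.1 := a1
          exact ⟨n, a2.symm, b⟩
      rw [e]
      exact (em.isOpenMap _ q.op).preimage cg
    · obtain ⟨n, a, b⟩ := (ho x).1 o
      exact (ho _).2 ⟨_, act γ x n a, q.inv γ _ b⟩
    · rw [continuousOn_iff_continuous_domRestrict]
      choose n a b using fun x : P.O => (ho x).1 x.2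
      have c1 : Continuous fun x : P.O => (x.1.1, n x) := by
        rw [em.isInducing.continuous_iff]
        refine (cg.comp continuous_subtype_val).congr fun x => Prod.ext rfl (a x)
      exact (q.ct.comp_continuous c1 b).congr fun x => (hf x _ (a x) (b x)).symm
    · obtain ⟨n, a, b⟩ := (ho x).1 o
      rw [hf _ _ (act γ x n a) (q.inv γ _ b), hf x n a b]
      exact q.eq γ _ b
    · have e : {x ∈ P.O | P.f x = 0} =
          {x : Y.Z × M.Z | ∃ n : N.Z, g x = n ∧ (x.1, n) ∈ {z ∈ Q.O | Q.f z = 0}} := by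
        ext x
        constructor
        · rintro ⟨o, z⟩
          obtain ⟨n, a, b⟩ := (ho x).1 o
          exact ⟨n, a, b, (hf x n a b).symm.trans z⟩
        · rintro ⟨n, a, b, z⟩
          exact ⟨(ho x).2 ⟨n, a, b⟩, (hf x n a b).trans z⟩
      rw [e]
      exact pm_cp m q.cp
  refine ⟨ok, FP.Rp.ht_hm ok ?_⟩
  obtain ⟨χ, c, e⟩ := q.rp_hm
  have k := pm_cp m c.cp
  have ev : ∀ (x : Y.Z × M.Z) (n : N.Z), g x = n → ez χ (x.1, g x) = χ (x.1, n) := fun x n a => by
    rw [a]; rfl
  have s : tsupport (fun x : Y.Z × M.Z => ez χ (x.1, g x)) ⊆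
      {x : Y.Z × M.Z | ∃ n : N.Z, g x = n ∧ (x.1, n) ∈ tsupport χ} := by
    refine closure_minimal (fun x h => ?_) k.isClosed
    induction a : g x using OnePoint.rec with
    | infty => exact absurd (by change ez χ (x.1, g x) = 0; rw [a]; rfl) h
    | coe n => exact ⟨n, a, subset_tsupport _ fun z => h ((ev x n a).trans z)⟩
  refine ⟨fun x => ez χ (x.1, g x), ⟨(continuous_ez c.ct c.cp).comp cg, fun x => ?_,
    k.of_isClosed_subset (isClosed_tsupport _) s, fun x h => ?_, fun x o z => ?_,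
    fun γ x => ?_⟩, fun y w => ?_⟩
  · induction a : g x using OnePoint.rec with
    | infty => exact le_rfl
    | coe n => exact c.nn _
  · obtain ⟨n, a, b⟩ := s h
    exact (ho x).2 ⟨n, a, c.sub b⟩
  · obtain ⟨n, a, b⟩ := (ho x).1 o
    rw [ev x n a]
    exact c.pos _ b ((hf x n a b).symm.trans z)
  · induction a : g x using OnePoint.rec with
    | infty =>
      have : g (Y.act γ x.1, M.act γ x.2) = ∞ := by
        rw [m.eq γ x.1 x.2, show g (x.1, x.2) = ∞ from a]; rfl
      simp only [this]; rfl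
    | coe n =>
      simp only [act γ x n a]
      exact c.inv γ (x.1, n)
  · refine (Rg.cm r e y w).trans (congrArg _ ?_)
    rw [FP.col_eq]
    change opx (Q.col χ) (y, g (y, w)) = sc (E := W.W) (ez χ (y, g (y, w)), _)
    induction a : g (y, w) using OnePoint.rec with
    | infty => exact (sc_zero (E := W.W) _).symm
    | coe n =>
      change Q.col χ (y, n) = sc (E := W.W) (χ (y, n), _)
      rw [FP.col_eq]
      by_cases z : χ (y, n) = 0
      · rw [z, sc_zero, sc_zero]
      · rw [hf (y, w) n a (c.mem z)]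

end Crest.Agent.N218.D3

end
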