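import Crest.Agent.N218.K.St
import Crest.Agent.N218.K.Cy
import Crest.Agent.N218.K.Prod
import Crest.Agent.N218.A.Sh

/-!
# Row 218, block D3 (helper76): plain problems, degree, Hopf class, product formula (FROZEN)
-/

set_option autoImplicit false
set_option linter.unusedVariables false

open Set Module

noncomputable section

namespace Crest.Agent.N218.D3
open K

/-- the point -/
abbrev P0 : GS Unit := GS.triv Unit Unit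
/-- a vector space with the trivial group -/
abbrev tv (A : Type) [NormedAddCommGroup A] [NormedSpace ℝ A] [FiniteDimensional ℝ A] : LS Unit :=
  (Rep.triv Unit A).ls
/-- its sphere -/
abbrev sp (A : Type) [NormedAddCommGroup A] [NormedSpace ℝ A] [FiniteDimensional ℝ A] : Ex P0.Q :=
  Sb P0 (tv A)
/-- plain problems -/
abbrev Pp (A B : Type) : Type := Set A × (A → B)

/-- admissible plain problems -/
structure Okp {A B : Type} [TopologicalSpace A] [TopologicalSpace B] [Zero B] (p : Pp A B) :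
    Prop where
  op : IsOpen p.1
  ct : ContinuousOn p.2 p.1
  cp : IsCompact {a | a ∈ p.1 ∧ p.2 a = 0}

/-- pull-back along `e` on `U` -/
def cm {A A' B : Type} (p : Pp A B) (U : Set A') (e : A' → A) : Pp A' B :=
  ({a | a ∈ U ∧ e a ∈ p.1}, fun a => p.2 (e a))
/-- stabilisation -/
def st {A B : Type} (p : Pp A B) (C : Type) : Pp (A × C) (B × C) :=
  ({z | z.1 ∈ p.1}, fun z => (p.2 z.1, z.2))
/-- change of the target -/
def tg {A B B' : Type} (p : Pp A B) (L : B → B') : Pp A B' := (p.1, fun a => L (p.2 a))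

/-- `e` is a homeomorphism of the whole space onto the open set `U`, with inverse `e'` -/
structure Oe {A A' : Type} [TopologicalSpace A] [TopologicalSpace A'] (e : A' → A) (U : Set A)
    (e' : A → A') : Prop where
  ct : Continuous e
  op : IsOpen U
  ct' : ContinuousOn e' U
  mem : ∀ a, e a ∈ U
  li : ∀ a, e' (e a) = a
  ri : ∀ a ∈ U, e (e' a) = a

section plain
variable {A B : Type} [NormedAddCommGroup A] [NormedSpace ℝ A] [FiniteDimensional ℝ A]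
  [NormedAddCommGroup B] [NormedSpace ℝ B] [FiniteDimensional ℝ B]

/-- the fibrewise problem over the point -/
def fp (p : Pp A B) : FP P0 (tv A) (Rep.triv Unit B) := ⟨{z | z.2 ∈ p.1}, fun z => p.2 z.2⟩

/-- the degree, up to sign -/
def Dg0 (p : Pp A B) (n : ℤ) : Prop :=
  ∃ g g', (sp B).Th g ∧ (sp A).Th g' ∧ (fp p).pb g = n • g'

/-- the `e`-invariant of `p` in the `7`-stem is odd -/
def Nu (p : Pp A B) : Prop :=
  ∃ (k : ℕ) (g : KX (sp B).E) (t : KS P0 (tv A).xr) (ν : ℤ), (sp B).Th g ∧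
    (Sb P0 (tv A).xr).Th t ∧ Odd ν ∧ ps _ t = (3 : ℤ) ^ (k + 4) • t ∧
    Ecl (fp p).hm (sd P0 (tv A)) g (3 ^ k) (ν • t)
end plain

set_option hygiene false in
/-- quantify over finite-dimensional spaces -/
local macro "∀V " A:ident ", " t:term : term =>
  `(∀ {$A : Type} [NormedAddCommGroup $A] [NormedSpace ℝ $A] [FiniteDimensional ℝ $A], $t)
set_option hygiene false in
/-- quantify over finite groups with a character -/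
local macro "∀G " χ:ident ", " t:term : term =>
  `(∀ {Γ : Type} [Group Γ] [Fintype Γ] [TopologicalSpace Γ] [DiscreteTopology Γ]
    ($χ : Γ →* Circle), $t)

/-! ## spheres and degree -/

/-- K-theory of even spheres -/
def SPH : Prop := ∀V A, ∀ k : ℕ, finrank ℝ A = 2 * k → ∃ g, (sp A).Th g ∧
  ps _ g = (3 : ℤ) ^ k • g ∧ (∀ x, (sp A).Rd x → ∃ n : ℤ, x = n • g) ∧
  (∀ n : ℤ, n • g = 0 → n = 0) ∧ ∀ g', (sp A).Th g' ↔ (g' = g ∨ g' = -g)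
/-- chains of homotopies -/
def HBT : Prop := ∀V A, ∀V B, ∀ p q : Pp A B, Relation.ReflTransGen Sh.Hb p q → Okp p → Okp q →
  (fp p).hm.Ht (fp q).hm
/-- composition of a pointed fibre map with a problem -/
def CMP : Prop := ∀ {Γ : Type} [Group Γ] [TopologicalSpace Γ] [CompactSpace Γ] (Y : GS Γ)
  (M N : LS Γ) (W : Rep Γ) (g : Y.Z × M.Z → OnePoint N.Z) (F : H1 (Sb Y M) (Sb Y N))
  (Q : FP Y N W) (P : FP Y M W), Pm Y M N g → Rg F g → Q.Ok →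
  (∀ x, x ∈ P.O ↔ ∃ n : N.Z, g x = n ∧ (x.1, n) ∈ Q.O) →
  (∀ x (n : N.Z), g x = n → (x.1, n) ∈ Q.O → P.f x = Q.f (x.1, n)) →
  P.Ok ∧ P.hm.Ht (F.cm Q.hm)
/-- the collapse along an open embedding preserves Thom classes -/
def OPN : Prop := ∀V A, ∀V A', ∀ (e : A' → A) (U : Set A) (e' : A → A'), Oe e U e' →
  finrank ℝ A' = finrank ℝ A → ∃ (g : P0.Z × (tv A).Z → OnePoint (tv A').Z) (F : H1 (sp A) (sp A'))
    (F' : H1 (Sb P0 (tv A).xr) (Sb P0 (tv A').xr)), Pm P0 (tv A) (tv A') g ∧ Rg F g ∧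
    (∀ x (n : A'), g x = OnePoint.some n ↔ x.2 ∈ U ∧ e' x.2 = n) ∧
    (∀ z t, F'.f ((sd P0 (tv A)).c (z, t)) = (sd P0 (tv A')).c (F.f z, t)) ∧
    (Even (finrank ℝ A) → ∀ l, (sp A').Th l → (sp A).Th (pull F.f l)) ∧
    (Odd (finrank ℝ A) → ∀ l, (Sb P0 (tv A').xr).Th l → (Sb P0 (tv A).xr).Th (pull F'.f l))
/-- the degree kit -/
structure DEG : Prop where
  ex : ∀V A, ∀V B, ∀ p : Pp A B, Even (finrank ℝ A) → Even (finrank ℝ B) → ∃ n, Dg0 p n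
  un : ∀V A, ∀V B, ∀ (p : Pp A B) n n', Even (finrank ℝ A) → Even (finrank ℝ B) → Dg0 p n →
    Dg0 p n' → n' = n ∨ n' = -n
  hb : ∀V A, ∀V B, ∀ (p q : Pp A B) n, Okp p → Okp q → Sh.Hb p q → Dg0 p n → Dg0 q n
  emb : ∀V A, ∀V A', ∀V B, ∀ (e : A' → A) (U : Set A) (e' : A → A') (p : Pp A B) n, Oe e U e' →
    finrank ℝ A' = finrank ℝ A → Even (finrank ℝ A) → Okp p → (∀ a ∈ p.1, p.2 a = 0 → a ∈ U) →
    Dg0 (cm p univ e) n → Dg0 p n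
  st : ∀V A, ∀V B, ∀V C, ∀ (p : Pp A B) n, Even (finrank ℝ A) → Even (finrank ℝ B) →
    Even (finrank ℝ C) → Okp p → Dg0 p n → Dg0 (st p C) n
  tg : ∀V A, ∀V B, ∀V B', ∀ (L : B ≃L[ℝ] B') (p : Pp A B) n, Okp p → Dg0 p n → Dg0 (tg p L) n
/-- pushing the zeros off a thin set -/
def PERT : Prop := ∀V A, ∀V B, ∀V E, ∀ (p : Pp A B) (U : Set A) (δ' : A → E) (δ : E → A),
  finrank ℝ E < finrank ℝ B → Okp p → IsOpen U → ContinuousOn δ' p.1 →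
  ContinuousOn δ (δ' '' (p.1 \ U)) → (∀ a ∈ p.1 \ U, δ (δ' a) = a) →
  ∃ (f : A → B) (K : Set A), IsCompact K ∧ K ⊆ p.1 ∧ ContinuousOn f p.1 ∧
    (∀ a ∈ p.1, p.2 a = 0 → a ∈ K) ∧ (∀ a ∉ K, f a = p.2 a) ∧ ∀ a ∈ p.1, f a = 0 → a ∈ U

/-! ## the Hopf class -/

/-- the Hopf invariant one theorem for the suspended Hopf construction -/
def HOPF : Prop := ∀ m : Sh.E 8 →L[ℝ] Sh.E 8 →L[ℝ] Sh.E 8, (∀ s x, ‖m s x‖ = ‖s‖ * ‖x‖) →
  Nu (Sh.hopf m)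
/-- the kit for `Nu` -/
structure NUK : Prop where
  hb : ∀V A, ∀V B, ∀ p q : Pp A B, Relation.ReflTransGen Sh.Hb p q → Okp p → Okp q → (Nu p ↔ Nu q)
  emb : ∀V A, ∀V A', ∀V B, ∀ (e : A' → A) (U : Set A) (e' : A → A') (p : Pp A' B), Oe e U e' →
    finrank ℝ A' = finrank ℝ A → Odd (finrank ℝ A) → Okp p → Nu p → Nu (cm p U e')
  st : ∀V A, ∀V B, ∀V C, ∀ p : Pp A B, Odd (finrank ℝ A) → Even (finrank ℝ B) →
    Even (finrank ℝ C) → Okp p → Nu p → Nu (st p C)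
  tg : ∀V A, ∀V B, ∀V B', ∀ (L : B ≃L[ℝ] B') (p : Pp A B), Okp p → Nu p → Nu (tg p L)

/-! ## the invariants -/

/-- the specification of the `e`-invariant -/
def SE (J : AI 12) : Prop := ∀G χ, ∀ X V : Rep Γ, Gq χ → Adm 12 X V → Cx V.ls →
  ∀ o : OE χ (cc χ) X.ls V, ∃ s : ℤˣ, ∀ P φ, EV χ (cc χ) o P φ → J.ν χ X V P = s • φ
/-- the specification of the `d`-invariant -/
def SD5 (J : AI 5) : Prop := ∀G χ, ∀ X V : Rep Γ, Gq χ → Adm 5 X V → Cx V.ls →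
  ∀ o : OD χ (cc χ) X.ls V, ∃ s : ℤˣ, ∀ P φ, DV χ (cc χ) o P φ → J.ν χ X V P = s • φ

section eqv
variable {Γ : Type} [Group Γ] [TopologicalSpace Γ]

/-- composition of a problem with a plain label map -/
def cmp {A B : Type} [NormedAddCommGroup A] [NormedSpace ℝ A] [FiniteDimensional ℝ A]
    [NormedAddCommGroup B] [NormedSpace ℝ B] [FiniteDimensional ℝ B] {M V : Rep Γ} (c : Pp A B)
    (P : PB ((Rep.triv Γ B).prod M).ls V) : PB ((Rep.triv Γ A).prod M).ls V :=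
  ⟨{x | x.1 ∈ c.1 ∧ (c.2 x.1, x.2) ∈ P.O}, fun x => P.f (c.2 x.1, x.2)⟩

/-- the plain problem of a cycle at one point of the sphere -/
def th {X V : Rep Γ} (P : PB X.ls V) (k : X.W → Fin 3 → ℂ) (u : Fin 3 → ℂ) :
    Pp (X.W × ℝ) (V.W × (Fin 3 → ℂ)) :=
  ({z | z.1 ∈ P.O}, fun z => (P.f z.1, k z.1 - Real.exp z.2 • u))

/-- transport data -/
structure Tp (X₁ V₁ Z X₂ V₂ : Rep Γ) where
  U₁ : Set X₁.W
  U₂ : Set X₂.W
  i : X₂.W → X₁.W × Z.W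
  j : X₁.W × Z.W → X₂.W
  G : X₁.W → (V₁.W × Z.W →L[ℝ] V₂.W)
  o₂ : IsOpen U₂
  ci : ContinuousOn i U₂
  cj : ContinuousOn j (U₁ ×ˢ univ)
  cG : ContinuousOn G U₁
  mi : ∀ x ∈ U₂, (i x).1 ∈ U₁ ∧ j (i x) = x
  mj : ∀ z : X₁.W × Z.W, z.1 ∈ U₁ → j z ∈ U₂ ∧ i (j z) = z
  ei : ∀ g, ∀ x ∈ U₂, X₂.ρ g x ∈ U₂ ∧ i (X₂.ρ g x) = (X₁.ρ g (i x).1, Z.ρ g (i x).2)
  eG : ∀ g, ∀ x ∈ U₁, ∀ v z, G (X₁.ρ g x) (V₁.ρ g v, Z.ρ g z) = V₂.ρ g (G x (v, z))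
  bG : ∀ x ∈ U₁, Function.Bijective (G x)

/-- the transported problem -/
def Tp.tr {X₁ V₁ Z X₂ V₂ : Rep Γ} (T : Tp X₁ V₁ Z X₂ V₂) (P : PB X₁.ls V₁) : PB X₂.ls V₂ :=
  ⟨{x | x ∈ T.U₂ ∧ (T.i x).1 ∈ P.O}, fun x => T.G (T.i x).1 (P.f (T.i x).1, (T.i x).2)⟩
end eqv

/-- `U₁` is a cell `U` up to a set of codimension two -/
def Cell {A : Type} [NormedAddCommGroup A] [NormedSpace ℝ A] (U₁ : Set A) : Prop :=
  ∃ (e : A → A) (U : Set A) (e' : A → A) (n : ℕ) (δ' : A → Fin n → ℝ) (δ : (Fin n → ℝ) → A),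
    Oe e U e' ∧ U ⊆ U₁ ∧ n + 2 ≤ finrank ℝ A ∧ ContinuousOn δ' U₁ ∧
    ContinuousOn δ (δ' '' (U₁ \ U)) ∧ ∀ a ∈ U₁ \ U, δ (δ' a) = a

/-- the unit of the `d`-values -/
def c4 : QQ := ((Al.ph (Al.r ^ 7 * Al.t ^ 4) : ℚ) : QQ)

/-- the `d`-value is a degree -/
def DVAL : Prop := ∀ J : AI 5, SD5 J → ∀G χ, ∀ X V : Rep Γ, Gq χ → Adm 5 X V → Cx V.ls →
  ∀ (P : PB X.ls V) (k : X.W → Fin 3 → ℂ) (u : US 3) (n : ℤ), P.Fr → P.Lift (UU χ (cc χ) 3) k →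
    Dg0 (th P k u.1) n → J.ν χ X V P = n • c4 ∨ J.ν χ X V P = -(n • c4)

/-- **push-forward** -/
def PUSH : Prop := ∀ J : AI 5, SD5 J → ∀G χ, ∀ X₁ V₁ Z X₂ V₂ : Rep Γ, Gq χ → Adm 5 X₁ V₁ →
  Adm 5 X₂ V₂ → Cx V₁.ls → Cx V₂.ls → Even (finrank ℝ V₁.W) → Even (finrank ℝ Z.W) →
  ∀ T : Tp X₁ V₁ Z X₂ V₂, Cell T.U₁ →
  ∀ P : PB X₁.ls V₁, P.Fr → P.O ⊆ T.U₁ → (T.tr P).Fr ∧
    (J.ν χ X₂ V₂ (T.tr P) = J.ν χ X₁ V₁ P ∨ J.ν χ X₂ V₂ (T.tr P) = -J.ν χ X₁ V₁ P)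

/-- **product formula** -/
def EVD : Prop := ∀ (I : AI 12) (J : AI 5), SE I → SD5 J → ∀G χ, ∀V A, ∀V B, ∀ M V : Rep Γ, Gq χ →
  Adm 12 ((Rep.triv Γ A).prod M) V → Adm 5 ((Rep.triv Γ B).prod M) V → Cx V.ls →
  Even (finrank ℝ A) → ∀ (c : Pp A B) (Bx : Set B), Okp c → StarConvex ℝ 0 Bx →
  (∀ K ⊆ Bx, IsCompact K → IsCompact {a | a ∈ c.1 ∧ c.2 a ∈ K}) → Nu (st c ℝ) →
  ∀ P : PB ((Rep.triv Γ B).prod M).ls V, P.Fr → (∀ x ∈ P.O, x.1 ∈ Bx) → (cmp c P).Fr ∧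
    ∃ ν : ℤ, Odd ν ∧ (3 : ℤ) ^ 14 • I.ν χ _ V (cmp c P) = ν • J.ν χ _ V P

end Crest.Agent.N218.D3

end
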