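import Crest.Agent.N218.D3.Geo

/-! Row 218, block D3 (helper83): linear bookkeeping for the piece (`DIS`). -/

set_option autoImplicit false
set_option linter.unusedVariables false
set_option maxHeartbeats 400000

open Set Module

noncomputable section

namespace Crest.Agent.N218.D3
open K In

namespace Ds
variable {Γ : Type} [Group Γ] [TopologicalSpace Γ]

/-- change of the source coordinates -/
theorem fr_iso {X X' : LS Γ} {V : Rep Γ} {P : PB X V} (h : P.Fr) (A : X'.Iso X) :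
    (P.iso A ⟨.refl ℝ _, fun _ _ => rfl⟩).Fr := by
  refine ⟨h.op.preimage A.e.continuous, fun g x a => ?_,
    h.ct.comp A.e.continuous.continuousOn fun _ a => a, fun g x a => ?_,
    A.e.isCompact_preimage.2 h.cp, fun x a g b => h.fr (a := A.e x) a g ?_⟩
  · exact (congrArg (· ∈ P.O) (A.eq g x)).mpr (h.inv g _ a)
  · exact (congrArg P.f (A.eq g x)).trans (h.eq g _ a)
  · rw [← A.eq, b]

/-- shear by an invariant map -/
def shr (X : Rep Γ) (E : Type) [NormedAddCommGroup E] [NormedSpace ℝ E] [FiniteDimensional ℝ E]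
    (c : X.W → E) (hc : Continuous c) (e : ∀ g x, c (X.ρ g x) = c x) :
    (X.prod (Rep.triv Γ E)).ls.Iso (X.prod (Rep.triv Γ E)).ls :=
  ⟨{ toFun := fun z : X.W × E => (z.1, z.2 - c z.1)
     invFun := fun z : X.W × E => (z.1, z.2 + c z.1)
     left_inv := fun z => Prod.ext rfl (sub_add_cancel _ _)
     right_inv := fun z => Prod.ext rfl (add_sub_cancel_right _ _)
     continuous_toFun := show Continuous fun z : X.W × E => (z.1, z.2 - c z.1) from
       continuous_fst.prodMk (continuous_snd.sub (hc.comp continuous_fst))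
     continuous_invFun := show Continuous fun z : X.W × E => (z.1, z.2 + c z.1) from
       continuous_fst.prodMk (continuous_snd.add (hc.comp continuous_fst)) },
    fun g z => Prod.ext rfl (congrArg (z.2 - ·) (e g z.1))⟩

/-- a difference -/
def sb {E : Type} [NormedAddCommGroup E] [NormedSpace ℝ E] (a : E) (ε : ℝ) (v : E) : E := a - ε • v

theorem sb_eq (a : P.Y) (ε : ℝ) (v : P.Y) : a - ε • v = sb a ε v := rfl

/-- the difference to the average -/
def avs {k : ℕ} {E : Type} [NormedAddCommGroup E] [NormedSpace ℝ E] (ε : ℝ) (a : E)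
    (y : Pm.V k E) : E := sb a ε (Pm.av k E y)

theorem avs_eq (ε : ℝ) (a : P.Y) (y : VY) : a - ε • Pm.av 21 P.Y y = avs ε a y := sb_eq _ _ _

/-- the average as a new variable -/
theorem key {m : ℕ} (J : AI m) {Y B C : Type} [TopologicalSpace Y] [T2Space Y]
    [NormedAddCommGroup B] [NormedSpace ℝ B] [FiniteDimensional ℝ B] [NormedAddCommGroup C]
    [NormedSpace ℝ C] [FiniteDimensional ℝ C] (e : Emb Y B C) (d : finrank ℝ B = m + finrank ℝ C)
    {k : ℕ} (hk : 16 ≤ k) {E : Type} [NormedAddCommGroup E] [NormedSpace ℝ E]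
    [FiniteDimensional ℝ E] {P : Pm.Pb Y k E} (hP : P.Ok) (ε : ℝ)
    (Q : PB ((XX B k E).prod (Rep.triv (Gk k) (E × ℝ))).ls
      ((XX C k E).prod (Rep.triv (Gk k) (E × ℝ))))
    (hO : Q.O = {z : (B × Pm.V k E) × E × ℝ | z.1 ∈ (e.pb P).O})
    (hf : Q.f = fun z : (B × Pm.V k E) × E × ℝ =>
      ((e.pb P).f z.1, avs ε z.2.1 z.1.2, z.2.2)) :
    Q.Fr ∧ Pm.Pe (J.ν (ck k) _ _ Q) (e.inv J k (Pm.sp E) P) := by
  have q := gq hk
  have a := adm d k E
  have f := e.pb_fr hP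
  have c : Continuous fun z : B × Pm.V k E => (ε • Pm.av k E z.2, (0 : ℝ)) := by fun_prop
  let A := shr (XX B k E) (E × ℝ) (fun z : B × Pm.V k E => (ε • Pm.av k E z.2, (0 : ℝ))) c
    fun (g : Gk k) (z : B × Pm.V k E) =>
      congrArg (fun v : E => (ε • v, (0 : ℝ))) (Pm.av_add z.2 g.toAdd)
  have e' : ((e.pb P).st (Rep.triv (Gk k) (E × ℝ))).iso A ⟨.refl ℝ _, fun _ _ => rfl⟩ = Q := by
    obtain ⟨O, F⟩ := Q
    obtain rfl : O = _ := hO
    obtain rfl : F = _ := hf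
    exact congrArg₂ PB.mk (Set.ext fun _ => and_iff_left trivial)
      (funext fun z => Prod.ext rfl (Prod.ext rfl (sub_zero _)))
  obtain ⟨u, h1⟩ := J.stb _ _ _ (Rep.triv (Gk k) (E × ℝ)) q a
  obtain ⟨u', h2⟩ := J.iso _ _ _ _ _ q (Gn.adm_prod a (Rep.triv (Gk k) (E × ℝ)))
    (Gn.adm_prod a (Rep.triv (Gk k) (E × ℝ))) A ⟨.refl ℝ _, fun _ _ => rfl⟩
  have k1 := h2 _ (Gn.fr_st f _)
  have k2 := fr_iso (Gn.fr_st f _) A
  rw [e'] at k1 k2
  exact ⟨k2, Gn.pe_two u' u k1 (h1 _ f)⟩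
end Ds

namespace Ds
variable {Φ : A.Fam} (h : P.Shape Φ (2 ^ 30)) (z : (((E3 × E3) × ℂ) × VY) × P.Y × ℝ)

theorem f1 : ((D1 h).f z).1 = (e22.line.pb (h.pc 21)).f z.1 := rfl
theorem f2 : ((D1 h).f z).2.2 = z.2.2 := rfl
theorem f3 : ((D1 h).f z).2.1 = z.2.1 - h.ε • Pm.av 21 _ z.1.2 := rfl
theorem f4 : ((D1 h).f z).2.1 = avs h.ε z.2.1 z.1.2 := (f3 h z).trans (avs_eq _ _ _)
theorem f_eq : (D1 h).f = fun z : (((E3 × E3) × ℂ) × VY) × P.Y × ℝ =>
    ((e22.line.pb (h.pc 21)).f z.1, avs h.ε z.2.1 z.1.2, z.2.2) :=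
  funext fun z => Prod.ext (f1 h z) (Prod.ext (f4 h z) (f2 h z))

theorem pa_eq (g : GEN) (p : PAN) (s : CST) (J : AI 5) (k : ℕ) (S : Pm.Sp)
    (Q : Pm.Pb (Sk.X22 × ℝ) k S.E) : (i22 g p s J).pa k S Q = e22.line.inv J k S Q := rfl

theorem main (o : (h.pc 21).Ok) (J : AI 5) : (D1 h).Fr ∧
    Pm.Pe (J.ν (ck 21) X2 V2 (D1 h)) (e22.line.inv J 21 (Pm.sp P.Y) (h.pc 21)) :=
  key J e22.line (by simp) (k := 21) (by norm_num) o h.ε (D1 h) rfl (f_eq h)
end Ds

theorem dis (hX : OKX) : DIS := fun g p s J Φ h t =>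
  have k := Ds.main h (hX Φ h t) J
  ⟨k.1, (congrArg (Pm.Pe _) (Ds.pa_eq @g @p @s J 21 (Pm.sp P.Y) (h.pc 21))).mpr k.2⟩

end Crest.Agent.N218.D3

end
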