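import Crest.Agent.N218.D3.Defs

/-!
# Row 218, block D3 (helper59): chains of homotopies of plain problems
-/

set_option autoImplicit false

open Set

noncomputable section

namespace Crest.Agent.N218.D3
open K

variable {A B : Type} [NormedAddCommGroup A] [NormedSpace ℝ A] [FiniteDimensional ℝ A]
  [NormedAddCommGroup B] [NormedSpace ℝ B] [FiniteDimensional ℝ B] {p q r : Pp A B}

theorem Okp.fp (h : Okp p) : (fp p).Ok where
  op := h.op.preimage continuous_snd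
  inv _ _ k := k
  ct := h.ct.comp continuous_snd.continuousOn fun _ k => k
  eq _ _ _ := rfl
  cp := (isCompact_univ.prod h.cp).of_isClosed_subset
    (by
      have : {x ∈ (D3.fp p).O | (D3.fp p).f x = 0} = Prod.snd ⁻¹' {a | a ∈ p.1 ∧ p.2 a = 0} := rfl
      rw [this]; exact h.cp.isClosed.preimage continuous_snd) fun _ k => ⟨trivial, k⟩

/-- `p` is a shrinking of `q` -/
structure Shr (p q : Pp A B) : Prop where
  sub : ∀ a ∈ p.1, a ∈ q.1 ∧ p.2 a = q.2 a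
  z : ∀ a ∈ q.1, q.2 a = 0 → a ∈ p.1

theorem Shr.ht (h : Shr p q) (hp : Okp p) (hq : Okp q) : (fp q).hm.Ht (fp p).hm :=
  hq.fp.exc hp.fp (fun _ k => (h.sub _ k).1) (fun _ k => (h.sub _ k).2) fun _ k => h.z _ k

theorem Shr.ht2 (h : Shr p r) (h' : Shr q r) (hp : Okp p) (hq : Okp q) :
    (fp p).hm.Ht (fp q).hm := by
  have a : Shr (p.1 ∩ q.1, p.2) p := ⟨fun _ k => ⟨k.1, rfl⟩, fun a k e =>
    ⟨k, h'.z a (h.sub a k).1 ((h.sub a k).2.symm.trans e)⟩⟩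
  have b : Shr (p.1 ∩ q.1, p.2) q := ⟨fun a k => ⟨k.2, (h.sub a k.1).2.trans (h'.sub a k.2).2.symm⟩,
    fun a k e => ⟨h.z a (h'.sub a k).1 ((h'.sub a k).2.symm.trans e), k⟩⟩
  have c : Okp (p.1 ∩ q.1, p.2) := ⟨hp.op.inter hq.op, hp.ct.mono inter_subset_left, by
    convert hp.cp using 1
    exact Set.ext fun x => ⟨fun k => ⟨k.1.1, k.2⟩, fun k => ⟨a.z x k.1 k.2, k.2⟩⟩⟩
  exact (a.ht c hp).tr (b.ht c hq).sy

theorem hb_step (h : Sh.Hb p q) : ∃ p' q' : Pp A B, Okp p' ∧ Okp q' ∧ Shr p' p ∧ Shr q' q ∧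
    (fp p').hm.Ht (fp q').hm := by
  obtain ⟨U, f, op, ct, cp, a0, b0, a1, b1⟩ := h
  have ok : ∀ t ∈ Icc (0 : ℝ) 1, Okp ({a | (t, a) ∈ U}, fun a => f (t, a)) := fun t ht =>
    ⟨op.preimage (by fun_prop), ct.comp (by fun_prop) fun _ k => k,
      (cp.image continuous_snd).of_isClosed_subset (by
        convert cp.isClosed.preimage (by fun_prop : Continuous fun a : A => (t, a)) using 1
        exact Set.ext fun a => ⟨fun k => ⟨k.1, ht, k.2⟩, fun k => ⟨k.1, k.2.2⟩⟩)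
        fun a k => ⟨(t, a), ⟨k.1, ht, k.2⟩, rfl⟩⟩
  let j : unitInterval × (P0.Z × (tv A).Z) → ℝ × A := fun z => (z.1, z.2.2)
  have c : Continuous j :=
    (continuous_subtype_val.comp continuous_fst).prodMk continuous_snd.snd
  refine ⟨_, _, ok 0 (by simp), ok 1 (by simp), ⟨a0, b0⟩, ⟨a1, b1⟩,
    (FP.ht_of _ _ (j ⁻¹' U) (fun z => f (j z)) (op.preimage c)
      (fun _ _ _ k => k) (ct.comp c.continuousOn fun _ k => k) (fun _ _ _ _ => rfl) ?_
      (fun _ => Iff.rfl) (fun _ _ => rfl) (fun _ => Iff.rfl) fun _ _ => rfl).2.2⟩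
  refine (isCompact_univ.prod (isCompact_univ.prod (cp.image continuous_snd))).of_isClosed_subset
    ?_ fun z k => ⟨trivial, trivial, j z, ⟨k.1, z.1.2, k.2⟩, rfl⟩
  exact (Set.ext fun z => ⟨fun k => ⟨k.1, k.2.2⟩, fun k => ⟨k.1, z.1.2, k.2⟩⟩ :
    j ⁻¹' {z | z ∈ U ∧ z.1 ∈ Icc (0 : ℝ) 1 ∧ f z = 0} = {z | z ∈ j ⁻¹' U ∧ f (j z) = 0}) ▸
    cp.isClosed.preimage c

theorem hbt : HBT := fun p q h hp hq => by
  have key : ∃ q', Okp q' ∧ Shr q' q ∧ (fp p).hm.Ht (fp q').hm := by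
    clear hq
    induction h with
    | refl => exact ⟨p, hp, ⟨fun _ k => ⟨k, rfl⟩, fun _ k _ => k⟩, .rfl' _⟩
    | tail _ k ih =>
      obtain ⟨q', a, b, c⟩ := ih
      obtain ⟨u, v, d, e, f, g, i⟩ := hb_step k
      exact ⟨v, e, g, (c.tr (b.ht2 f a d)).tr i⟩
  obtain ⟨q', a, b, c⟩ := key
  exact c.tr (b.ht a hq).sy

end Crest.Agent.N218.D3

end
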