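import Crest.Agent.N218.D3.Sph
import Crest.Agent.N218.D3.Hbt
import Crest.Agent.N218.K.Cx1
import Crest.Agent.N218.K.Clu
import Crest.Agent.N218.K.Unit

/-! # Row 218, block D3 (helper54): the `d`-value of a cycle in `S(3 χ)` is a degree -/

set_option autoImplicit false
set_option linter.unusedSectionVars false

open Set Module OnePoint Polynomial

noncomputable section

namespace Crest.Agent.N218.D3
open K

namespace Dv

theorem th_pm {A : Ex P0.Q} {g g' : KX A.E} (h : A.Th g) (h' : A.Th g') :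
    ∃ s : ℤ, (s = 1 ∨ s = -1) ∧ g' = s • g := by
  obtain ⟨u, v, a, rfl, -⟩ := h.unit h'
  obtain ⟨m, rfl⟩ : ∃ n : ℤ, (n : KX P0.Q) = u := kx_pt.2 u
  obtain ⟨n, rfl⟩ : ∃ n : ℤ, (n : KX P0.Q) = v := kx_pt.2 v
  exact ⟨m, Int.eq_one_or_neg_one_of_mul_eq_one (kx_pt (W := P0.Q).1
    (show ((m * n : ℤ) : KX P0.Q) = (1 : ℤ) by push_cast; exact a)), sm_int _ _ _⟩

theorem mid {A : Type} [TopologicalSpace A] (w : OnePoint A) :
    OnePoint.map (Homeomorph.refl A) w = w := by induction w using OnePoint.rec <;> rfl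

theorem dg_un {A B : Type} [NormedAddCommGroup A] [NormedSpace ℝ A] [FiniteDimensional ℝ A]
    [NormedAddCommGroup B] [NormedSpace ℝ B] [FiniteDimensional ℝ B] {p : Pp A B} {n m : ℤ}
    (h : Dg0 p n) (h' : Dg0 p m) : m = n ∨ m = -n := by
  obtain ⟨g, k, a, b, e⟩ := h
  obtain ⟨g', k', a', b', e'⟩ := h'
  obtain ⟨s, hs, rfl⟩ := th_pm a a'
  obtain ⟨t, ht, rfl⟩ := th_pm b b'
  rw [map_zsmul, e, smul_smul, smul_smul, ← sm_int, ← sm_int] at e'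
  have : s * n = m * t := kx_pt (W := P0.Q).1 (b.inj e')
  rcases hs with rfl | rfl <;> rcases ht with rfl | rfl <;> omega

theorem val (p : ℤ[X]) : ((Al.ph (Al.r ^ 7 * iS ((1 - X) ^ 4 * p)) : ℚ) : QQ) = p.eval 1 • c4 := by
  obtain ⟨d, e⟩ := X_sub_C_dvd_sub_C_eval (p := p) (a := 1)
  have e1 : iS (1 - X) = Al.t := by simp [iS, Al.L]
  have e2 : iS p = PowerSeries.C ((p.eval 1 : ℤ) : ℚ) - Al.t * iS d := by
    have := congrArg iS e
    rw [map_sub, map_mul, C_1, ← neg_sub 1, map_neg, e1] at this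
    rw [eq_add_of_sub_eq this]
    simp [iS, add_comm, sub_eq_add_neg]
  have e3 : Al.r ^ 7 * iS ((1 - X) ^ 4 * p) = PowerSeries.C ((p.eval 1 : ℤ) : ℚ) *
      (Al.r ^ 7 * Al.t ^ 4) - Al.t ^ 5 * (Al.r ^ 7 * iS d) := by
    rw [map_mul, map_pow, e1, e2]; ring
  rw [e3, map_sub, Al.ph_C, QuotientAddGroup.mk_sub, (QuotientAddGroup.eq_zero_iff (Al.ph (Al.t ^ 5 * _))).2
    (Al.ph_t5 (Al.OS.mul_mem (Al.OS.pow_mem Al.r_mem 7) (Ut.iS_mem d))), sub_zero, c4,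
    ← QuotientAddGroup.mk_zsmul, zsmul_eq_mul]

variable {Γ : Type} [Group Γ] [Fintype Γ] [TopologicalSpace Γ] [DiscreteTopology Γ]
  {χ : Γ →* Circle}

theorem gd (h : Function.Injective χ) (r : ℕ) : Gd (Sp χ (cc χ) r) := fun ψ _ => by
  have : IsCyclic Γ := isCyclic_of_injective_ringHom (R := ℂ) (Circle.coeHom.comp χ)
    (Circle.coe_injective.comp h)
  obtain ⟨g, hg⟩ := IsCyclic.exists_monoid_generator (α := Γ)
  have : ψ g ∈ χ.range := by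
    rw [range_eq_ker h]
    change ψ g ^ _ = 1
    rw [← map_pow, pow_card_eq_one, map_one]
  obtain ⟨a, ha⟩ := this
  obtain ⟨m, rfl⟩ := hg a
  obtain rfl : ψ = χ ^ m := MonoidHom.ext fun x => by
    obtain ⟨j, rfl⟩ := hg x
    simp only [MonoidHom.pow_apply, map_pow] at ha ⊢
    rw [← ha, ← pow_mul, mul_comm, pow_mul]
  exact sec_pow ⟨Cp.spS0 _ _ _⟩ m

theorem unit_ev (hK : KLN) (h : Function.Injective χ) {r : ℕ} (hr : 0 < r) {u : ℤ[X]}
    (hu : IsUnit (ev χ (cc χ) r u)) : u.eval 1 = 1 ∨ u.eval 1 = -1 := by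
  obtain ⟨s, k, -⟩ := hK χ r h hr
  obtain ⟨v, e⟩ := hu.exists_right_inv
  obtain ⟨v, rfl⟩ := s v
  obtain ⟨a, b, e⟩ := Ideal.mem_span_pair.1 ((k (u * v - 1)).1 (by rw [map_sub, map_mul, e, map_one, sub_self]))
  have := congrArg (eval 1) e
  simp [hr.ne'] at this
  exact Int.eq_one_or_neg_one_of_mul_eq_one (sub_eq_zero.1 this.symm)

/-- the point `u` of the sphere -/
def jp (χ : Γ →* Circle) {r : ℕ} (u : US r) : C(P0.Z, (Sp χ (cc χ) r).Z) := .const _ u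

theorem fib (T : THOM1) (h : Function.Injective χ) {r : ℕ} (u : US r) {M : LS Γ} (hM : Cx M)
    {A : Type} [NormedAddCommGroup A] [NormedSpace ℝ A] [FiniteDimensional ℝ A] (e : A ≃ₜ M.Z) :
    ∃ G : C((sp A).E, (Sb (Sp χ (cc χ) r) M).E), Mp (jp χ u) (.map e) G ∧
      ∀ l, (Sb _ M).Th l → (sp A).Th (pull G l) := by
  have q : Eqv (1 : Unit →* Γ) (jp χ u) := fun _ _ => ((Sp χ (cc χ) r).one u).symm
  let I : (tv A).Iso (M.res 1 continuous_const) := ⟨e, fun _ x => (M.one (e x)).symm⟩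
  refine ⟨(q.eqm continuous_const M).hm.f.comp (I.h1 P0).f, fun _ _ => rfl, fun l t => ?_⟩
  rw [pull_cm]
  exact th_iso I (I.mp P0) ((ut_of_th T (gd h r) hM t).2 Unit 1 continuous_const P0 _ q _
    (q.mp continuous_const M))

theorem deg (T : THOM1) (h : Function.Injective χ) {X V : Rep Γ} (hX : Cx X.ls.xr) (hV : Cx V.ls)
    {P : PB X.ls V} {k : X.W → Fin 3 → ℂ} (u : US 3) (f : P.Fr) (l : P.Lift (UU χ (cc χ) 3) k)
    {lS lT} (tS : (Sb _ _).Th lS) (tT : (Sb _ _).Th lT) {a : ℤ[X]}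
    (e : pull (Tc χ (cc χ) 3 P k).hm.f lT = (Sb _ _).sm (ev χ (cc χ) 3 a) lS) :
    Dg0 (th P k u.1) (a.eval 1) := by
  obtain ⟨G, mG, tG⟩ := fib T h u hX (A := X.W × ℝ) (.refl _)
  obtain ⟨H, mH, tH⟩ := fib T h u (cx_tt χ (cc χ) 3 hV) (A := V.W × (Fin 3 → ℂ)) (.refl _)
  have ok := Tc_ok χ (cc χ) 3 f l
  obtain ⟨c, cut, rp⟩ := ok.rp_hm
  have ce : Topology.IsClosedEmbedding fun z : P0.Z × (X.W × ℝ) => ((u, z.2) : US 3 × (X.W × ℝ)) :=
    Function.LeftInverse.isClosedEmbedding (f := fun z => ((), z.2)) (fun _ => rfl) (by fun_prop)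
      (by fun_prop)
  have ok' : (fp (th P k u.1)).Ok := ⟨ok.op.preimage ce.continuous, fun _ _ m => m,
    ok.ct.comp ce.continuous.continuousOn fun _ m => m, fun _ _ _ => rfl,
    ce.isCompact_preimage ok.cp⟩
  have sub := tsupport_comp_subset_preimage c ce.continuous
  have cut' : (fp (th P k u.1)).Cut fun z => c (u, z.2) := ⟨cut.ct.comp ce.continuous,
    fun _ => cut.nn _, (ce.isCompact_preimage cut.cp).of_isClosed_subset (isClosed_tsupport _) sub,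
    fun _ m => cut.sub (sub m), fun _ m z => cut.pos _ m z, fun _ _ => rfl⟩
  obtain ⟨F, rg, rp'⟩ := cut'.rp ok'
  have sq : ∀ x, H (F.f x) = (Tc χ (cc χ) 3 P k).hm.f (G x) := fun x => by
    refine sb_ind (P := fun x => H (F.f x) = (Tc χ (cc χ) 3 P k).hm.f (G x)) (fun y => ?_)
      (fun y w => ?_) x
    · rw [Hm.f_inf, mH, mG]; exact (Hm.f_inf _ _).symm
    · rw [rg, mG]
      refine (mH y _).trans (Eq.trans (congrArg (pt (Sp χ (cc χ) 3) (TT χ (cc χ) 3 V) u) ?_) (rp u w).symm)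
      exact mid _
  refine ⟨_, _, tH _ tT, tG _ tS, ?_⟩
  have b : pull (bse G) (ev χ (cc χ) 3 a) = (a.eval 1 : ℤ) := by
    have : pull (bse G) (LL χ (cc χ) 3) = 1 := by
      rw [show LL χ (cc χ) 3 = Lc _ χ from (Lc_eq (Cp.spS0 _ _ _)).symm,
        pull_Lc ⟨Cp.spS0 _ _ _⟩ (f := jp χ u) (χ' := 1)
          (fun _ _ => ⟨1, ((Sp χ (cc χ) 3).one u).symm, map_one _⟩) _ mG.bse, Lc_one]
    rw [ev, ← RingHom.toIntAlgHom_apply, ← aeval_algHom_apply, RingHom.toIntAlgHom_apply, this,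
      ← map_one (algebraMap ℤ _), aeval_algebraMap_apply_eq_algebraMap_eval]
    rfl
  rw [FP.pb, (FP.Rp.ht_hm ok' rp').pull_eq, pull_sq _ _ _ _ sq, e]
  exact ((mG.hm rfl _ mG.bse).pull_sm _ _).trans (by rw [b, sm_int]; rfl)

end Dv

open Dv in
theorem dval (T : THOM1) (hK : KLN) (hD : DENL) (hO : OEX) : DVAL := by
  intro J hJ Γ _ _ _ _ χ X V g a c P k u n f l d
  have hX : Cx X.ls.xr := Adm.cx_odd (m := 2) a c
  obtain ⟨o⟩ := ((hO χ X V g c).2 a).1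
  obtain ⟨s, hs⟩ := hJ χ X V g a c o
  have ex : ∀ r, ∃ lS lT, (Sb (Sp χ (cc χ) r) X.ls.xr).Th lS ∧
      (Sb (Sp χ (cc χ) r) (TT χ (cc χ) r V)).Th lT := fun r =>
    let ⟨_, a⟩ := hX.ut T (gd g.inj r); let ⟨_, b⟩ := (cx_tt χ (cc χ) r c).ut T (gd g.inj r)
    ⟨_, _, a.th, b.th⟩
  choose lS lT tS tT using ex
  obtain ⟨b, e⟩ := (tS 3).ex ((tT 3).1.hm (Tc χ (cc χ) 3 P k).hm)
  obtain ⟨b, rfl⟩ := (hK χ 3 g.inj (by omega)).1 b
  have d0 := dg_un d (deg T g.inj hX c u f l (tS 3) (tT 3) e)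
  obtain ⟨u1, i1, h1⟩ := hD χ 3 X V g.inj (by omega) hX c _ _ _ _ (tS 3) (tT 3) (tS 4) (tT 4)
  obtain ⟨u2, i2, h2⟩ := hD χ 4 X V g.inj (by omega) hX c _ _ _ _ (tS 4) (tT 4) (tS 5) (tT 5)
  obtain ⟨u3, i3, h3⟩ := hD χ 5 X V g.inj (by omega) hX c _ _ _ _ (tS 5) (tT 5) (tS 6) (tT 6)
  obtain ⟨u4, i4, h4⟩ := hD χ 6 X V g.inj (by omega) hX c _ _ _ _ (tS 6) (tT 6) o.tS o.tT
  have k7 := h4 P _ (h3 P _ (h2 P _ (h1 P b ⟨_, cl_hm f.hb l, e⟩)))
  rw [hs P _ ⟨_, k7, rfl⟩, show (1 - Polynomial.X) * ((1 - Polynomial.X) * ((1 - Polynomial.X) *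
    ((1 - Polynomial.X) * b * u1) * u2) * u3) * u4 =
      (1 - Polynomial.X) ^ 4 * (b * u1 * u2 * u3 * u4) by ring, val]
  simp only [eval_mul]
  rcases Int.units_eq_one_or s with rfl | rfl <;> rcases d0 with e0 | e0 <;>
    rcases unit_ev hK g.inj (by omega) i1 with e1 | e1 <;>
    rcases unit_ev hK g.inj (by omega) i2 with e2 | e2 <;>
    rcases unit_ev hK g.inj (by omega) i3 with e3 | e3 <;>
    rcases unit_ev hK g.inj (by omega) i4 with e4 | e4 <;> simp [e0, e1, e2, e3, e4]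

end Crest.Agent.N218.D3

end
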