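import Crest.Agent.N218.D3.Geo

/-!
# Row 218, block D3 (helper89): linear bookkeeping
-/

set_option autoImplicit false
set_option linter.unusedVariables false
set_option linter.unusedSectionVars false

open Set Module

noncomputable section

namespace Crest.Agent.N218.D3
open K In Sh

namespace Ei

theorem fr_iso {Γ : Type} [Group Γ] [TopologicalSpace Γ] {X X' : LS Γ} {V V' : Rep Γ} {P : PB X V}
    (h : P.Fr) (A : X'.Iso X) (B : V.Iso V') : (P.iso A B).Fr := by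
  refine ⟨h.op.preimage A.e.continuous, fun g x a => ?_,
    B.e.continuous.comp_continuousOn (h.ct.comp A.e.continuous.continuousOn fun _ a => a),
    fun g x a => ?_, ?_, fun x a g b => h.fr ⟨a.1, B.e.map_eq_zero_iff.1 a.2⟩ g ?_⟩
  · change A.e _ ∈ P.O
    rw [A.eq]; exact h.inv g _ a
  · change B.e (P.f (A.e _)) = _
    rw [A.eq, h.eq g _ a, B.eq]; rfl
  · have : (P.iso A B).Z = A.e ⁻¹' P.Z :=
      Set.ext fun x => and_congr_right fun _ => B.e.map_eq_zero_iff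
    rw [this]
    exact A.e.isCompact_preimage.2 h.cp
  · rw [← A.eq, b]

variable {A B C D Y Y' : Type} [NormedAddCommGroup A] [NormedSpace ℝ A] [FiniteDimensional ℝ A]
  [NormedAddCommGroup B] [NormedSpace ℝ B] [FiniteDimensional ℝ B]
  [NormedAddCommGroup C] [NormedSpace ℝ C] [FiniteDimensional ℝ C]
  [NormedAddCommGroup D] [NormedSpace ℝ D] [FiniteDimensional ℝ D]
  [NormedAddCommGroup Y] [NormedSpace ℝ Y] [FiniteDimensional ℝ Y]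
  [NormedAddCommGroup Y'] [NormedSpace ℝ Y'] [FiniteDimensional ℝ Y'] (k : ℕ)

/-- invariant continuous maps -/
structure Iv (c : Pm.V k Y → Y) : Prop where
  ct : Continuous c
  inv : ∀ y g, c (fun i => y (i + g)) = c y

theorem iv_av (ε : ℝ) : Iv k fun y => ε • Pm.av k Y y :=
  ⟨(Pm.av k Y).continuous.const_smul ε, fun y g => congrArg (ε • ·) (Pm.av_add y g)⟩

variable {k} {c : Pm.V k Y → Y}

variable (B D) in
/-- the shear by the average -/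
def aD (hc : Iv k c) : ((XX B k Y).prod (Rep.triv (Gk k) (Y × D))).ls.Iso
    ((XX B k Y).prod (Rep.triv (Gk k) (Y × D))).ls where
  e := { toFun := fun z : (B × Pm.V k Y) × Y × D => (z.1, z.2.1 - c z.1.2, z.2.2)
         invFun := fun z : (B × Pm.V k Y) × Y × D => (z.1, z.2.1 + c z.1.2, z.2.2)
         left_inv := fun z => Prod.ext rfl (Prod.ext (sub_add_cancel _ _) rfl)
         right_inv := fun z => Prod.ext rfl (Prod.ext (add_sub_cancel_right _ _) rfl)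
         continuous_toFun := show Continuous fun z : (B × Pm.V k Y) × Y × D =>
           (z.1, z.2.1 - c z.1.2, z.2.2) by have := hc.ct; fun_prop
         continuous_invFun := show Continuous fun z : (B × Pm.V k Y) × Y × D =>
           (z.1, z.2.1 + c z.1.2, z.2.2) by have := hc.ct; fun_prop }
  eq g z := Prod.ext rfl (Prod.ext (congrArg (fun a => z.2.1 - a) (hc.inv z.1.2 g.toAdd)) rfl)

variable (A) in
/-- the average as a new variable -/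
def aE (hc : Iv k c) (j : Y ≃L[ℝ] (B × ℝ) × ℝ) (κ : Y ≃L[ℝ] Y') :
    ((Rep.triv (Gk k) (A × B)).prod (XX (ℂ × ℝ × ℝ) k Y)).ls.Iso
      ((XX (A × ℂ) k Y').prod (Rep.triv (Gk k) Y)).ls where
  e := { toFun := fun z : (A × B) × (ℂ × ℝ × ℝ) × Pm.V k Y => (((z.1.1, z.2.1.1), fun i => κ (z.2.2 i)),
           j.symm ((z.1.2, z.2.1.2.1), z.2.1.2.2) - c z.2.2)
         invFun := fun z : ((A × ℂ) × Pm.V k Y') × Y =>
           ((z.1.1.1, (j (z.2 + c fun i => κ.symm (z.1.2 i))).1.1),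
             (z.1.1.2, (j (z.2 + c fun i => κ.symm (z.1.2 i))).1.2,
               (j (z.2 + c fun i => κ.symm (z.1.2 i))).2), fun i => κ.symm (z.1.2 i))
         left_inv := fun z : (A × B) × (ℂ × ℝ × ℝ) × Pm.V k Y => by
           simp only [ContinuousLinearEquiv.symm_apply_apply, sub_add_cancel,
             ContinuousLinearEquiv.apply_symm_apply]
           rfl
         right_inv := fun z : ((A × ℂ) × Pm.V k Y') × Y => by
           simp only [ContinuousLinearEquiv.symm_apply_apply, add_sub_cancel_right,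
             ContinuousLinearEquiv.apply_symm_apply, Prod.mk.eta]
         continuous_toFun := show Continuous fun z : (A × B) × (ℂ × ℝ × ℝ) × Pm.V k Y =>
           (((z.1.1, z.2.1.1), fun i => κ (z.2.2 i)),
             j.symm ((z.1.2, z.2.1.2.1), z.2.1.2.2) - c z.2.2) by have := hc.ct; fun_prop
         continuous_invFun := show Continuous fun z : ((A × ℂ) × Pm.V k Y') × Y =>
           ((z.1.1.1, (j (z.2 + c fun i => κ.symm (z.1.2 i))).1.1),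
             (z.1.1.2, (j (z.2 + c fun i => κ.symm (z.1.2 i))).1.2,
               (j (z.2 + c fun i => κ.symm (z.1.2 i))).2), fun i => κ.symm (z.1.2 i))
           by have := hc.ct; fun_prop }
  eq g z := Prod.ext rfl (congrArg (fun a => j.symm ((z.1.2, z.2.1.2.1), z.2.1.2.2) - a)
    (hc.inv z.2.2 g.toAdd))

variable (C D k) in
/-- the change of the fibre in the target -/
def bE (κ : Y ≃L[ℝ] Y') : ((XX C k Y').prod (Rep.triv (Gk k) D)).Iso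
    ((XX C k Y).prod (Rep.triv (Gk k) D)) :=
  ⟨((ContinuousLinearEquiv.refl ℝ C).prodCongr
    (ContinuousLinearEquiv.piCongrRight fun _ : Pm.Ix k => κ.symm)).prodCongr (.refl ℝ D),
    fun _ _ => rfl⟩

/-- rescaled coordinates -/
def ka {ε : ℝ} (h : ε ≠ 0) (i : Y ≃ₗᵢ[ℝ] Y') : Y ≃L[ℝ] Y' :=
  (LinearEquiv.smulOfNeZero ℝ Y ε h).toContinuousLinearEquiv.trans i.toContinuousLinearEquiv

theorem ka_apply {ε : ℝ} (h : ε ≠ 0) (i : Y ≃ₗᵢ[ℝ] Y') (y : Y) : ka h i y = i (ε • y) := rfl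

theorem ka_symm {ε : ℝ} (h : ε ≠ 0) (i : Y ≃ₗᵢ[ℝ] Y') (y : Y') :
    (ka h i).symm y = ε⁻¹ • i.symm y := by
  rw [ContinuousLinearEquiv.symm_apply_eq, ka_apply, smul_inv_smul₀ h, i.apply_symm_apply]

theorem mn_ka {k : ℕ} (κ : Y ≃L[ℝ] Y') (y : Pm.V k Y) (i : Pm.Ix k) :
    Pm.mn (fun i => κ (y i)) i = κ (Pm.mn y i) := by simp [Pm.mn]

theorem mn_ne {k : ℕ} (κ : Y ≃L[ℝ] Y') (y : Pm.V k Y) :
    Pm.mn (fun i => κ (y i)) ≠ 0 ↔ Pm.mn y ≠ 0 :=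
  not_congr ⟨fun a => funext fun i => κ.map_eq_zero_iff.1 ((mn_ka κ y i).symm.trans (congrFun a i)),
    fun a => funext fun i => by rw [mn_ka, a]; exact map_zero κ⟩

open Gn

/-- the problem with the average as a new variable -/
def pD (c : Pm.V k Y → Y) (D : Type) [NormedAddCommGroup D] [NormedSpace ℝ D] [FiniteDimensional ℝ D]
    (P : PB (XX B k Y).ls (XX C k Y)) : PB ((XX B k Y).prod (Rep.triv (Gk k) (Y × D))).ls
      ((XX C k Y).prod (Rep.triv (Gk k) (Y × D))) :=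
  ⟨{z : (B × Pm.V k Y) × Y × D | z.1 ∈ P.O},
    fun z : (B × Pm.V k Y) × Y × D => (P.f z.1, z.2.1 - c z.1.2, z.2.2)⟩

theorem dis0 {m : ℕ} (J : AI m) (hk : 16 ≤ k) (hc : Iv k c) (a : Adm m (XX B k Y) (XX C k Y))
    {P : PB (XX B k Y).ls (XX C k Y)} (f : P.Fr) :
    (pD c D P).Fr ∧ Pm.Pe (J.ν (ck k) _ _ (pD c D P)) (J.ν (ck k) _ _ P) := by
  have e : pD c D P = (P.st (Rep.triv (Gk k) (Y × D))).iso (aD B D hc)
      ⟨.refl ℝ _, fun _ _ => rfl⟩ :=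
    congrArg (PB.mk · _) (Set.ext fun _ => (and_iff_left trivial).symm)
  obtain ⟨s1, h1⟩ := J.stb _ _ _ (Rep.triv (Gk k) (Y × D)) (gq hk) a
  obtain ⟨s2, h2⟩ := J.iso _ _ _ _ _ (gq hk) (adm_prod a _) (adm_prod a _) (aD B D hc)
    ⟨.refl ℝ _, fun _ _ => rfl⟩
  rw [e]
  exact ⟨fr_iso (fr_st f _) _ _, pe_two s2 s1 (h2 _ (fr_st f _)) (h1 _ f)⟩

/-- the rescaled total problem -/
def pE (c : Pm.V k Y → Y) (ε : ℝ) (j : Y ≃L[ℝ] (B × ℝ) × ℝ) (i : Y ≃ₗᵢ[ℝ] Y') (r : A × Y' → Y') :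
    PB ((Rep.triv (Gk k) (A × B)).prod (XX (ℂ × ℝ × ℝ) k Y)).ls
      ((XX (ℝ × ℝ) k Y).prod (Rep.triv (Gk k) Y)) :=
  ⟨{z : (A × B) × (ℂ × ℝ × ℝ) × Pm.V k Y | z.1.1 ≠ 0 ∧ Pm.mn z.2.2 ≠ 0},
    fun z : (A × B) × (ℂ × ℝ × ℝ) × Pm.V k Y =>
      (((Real.log ‖z.1.1‖, z.2.1.1.im), ε⁻¹ • ((fun a => (ε • z.2.2) a -
          i.symm (r (‖z.1.1‖⁻¹ • z.1.1, i ((ε • z.2.2) (a - 1))))) +
          Real.exp z.2.1.1.re • Pm.mn (ε • z.2.2))),
        j.symm ((z.1.2, z.2.1.2.1), z.2.1.2.2) - c z.2.2)⟩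

theorem eis0 [Nontrivial A] {m : ℕ} (J : AI m) (hk : 16 ≤ k) (hc : Iv k c) {ε : ℝ} (hε : ε ≠ 0)
    (j : Y ≃L[ℝ] (B × ℝ) × ℝ) (i : Y ≃ₗᵢ[ℝ] Y') (r : A × Y' → Y')
    (a : Adm m (XX (A × ℂ) k Y') (XX (ℝ × ℝ) k Y'))
    (a' : Adm m ((Rep.triv (Gk k) (A × B)).prod (XX (ℂ × ℝ × ℝ) k Y))
      ((XX (ℝ × ℝ) k Y).prod (Rep.triv (Gk k) Y)))
    (o : (Pm.Ec k univ fun p : Metric.sphere (0 : A) 1 × Y' => r (p.1, p.2)).Ok) :
    (pE c ε j i r).Fr ∧ Pm.Pe (J.ν (ck k) _ _ (pE c ε j i r)) ((Emb.sph A).line.inv J k (Pm.sp Y')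
      (Pm.Ec k univ fun p : Metric.sphere (0 : A) 1 × Y' => r (p.1, p.2))) := by
  have f := (Emb.sph A).line.pb_fr o
  obtain ⟨s1, h1⟩ := J.stb _ _ _ (Rep.triv (Gk k) Y) (gq hk) a
  obtain ⟨s2, h2⟩ := J.iso _ _ _ _ _ (gq hk) (adm_prod a _) a' (aE A hc j (ka hε i))
    (bE (ℝ × ℝ) Y k (ka hε i))
  have f' := fr_iso (fr_st f (Rep.triv (Gk k) Y)) (aE A hc j (ka hε i)) (bE (ℝ × ℝ) Y k (ka hε i))
  have eO : (pE c ε j i r).O = ((((Emb.sph A).line.pb (Pm.Ec k univ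
      fun p : Metric.sphere (0 : A) 1 × Y' => r (p.1, p.2))).st (Rep.triv (Gk k) Y)).iso
      (aE A hc j (ka hε i)) (bE (ℝ × ℝ) Y k (ka hε i))).O :=
    Set.ext fun z => ⟨fun u => ⟨⟨⟨u.1, trivial⟩, (mn_ne _ _).2 u.2, fun _ => trivial⟩, trivial⟩,
      fun u => ⟨u.1.1.1, (mn_ne _ _).1 u.1.2.1⟩⟩
  have l : (pE c ε j i r).Le _ := ⟨eO.subset, fun z u => ?_, fun z u => eO ▸ u.1⟩
  · have f2 := l.ok f' (eO ▸ f'.op) (eO ▸ f'.inv)
    exact ⟨f2, pe_two s2 s1 ((J.bd _ _ _ (gq hk) a' _ _ (l.hb f2 f')).trans (h2 _ (fr_st f _)))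
      (h1 _ f)⟩
  · obtain ⟨⟨p, b⟩, ⟨w, c⟩, y⟩ := z
    refine Prod.ext (Prod.ext rfl (funext fun n => ?_)) rfl
    change ε⁻¹ • ((ε • y n - i.symm (r (‖p‖⁻¹ • p, i (ε • y (n - 1))))) +
      Real.exp w.re • Pm.mn (ε • y) n) = (ka hε i).symm ((ka hε i (y n) -
        r (Emb.rad A p, ka hε i (y (n - 1)))) + Real.exp w.re • Pm.mn (fun n => ka hε i (y n)) n)
    rw [Emb.rad_coe u.1, mn_ka, ka_symm]
    simp [ka_apply, Pm.mn, smul_sub, smul_comm ε]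
    rfl

end Ei

theorem Ei.aux1 (c : VY → P.Y) (Q : PB (XX ((E3 × E3) × ℂ) 21 P.Y).ls (XX ((ℝ × ℝ) × ℝ) 21 P.Y)) :
    (⟨{z : (((E3 × E3) × ℂ) × VY) × P.Y × ℝ | z.1 ∈ Q.O},
      fun z : (((E3 × E3) × ℂ) × VY) × P.Y × ℝ => (Q.f z.1, z.2.1 - c z.1.2, z.2.2)⟩ :
      PB X2.ls V2) = Ei.pD c ℝ Q := by
  unfold Ei.pD
  with_reducible rfl

theorem Ei.D1_eq {Φ : A.Fam} (h : P.Shape Φ (2 ^ 30)) :
    D1 h = Ei.pD (fun y => h.ε • Pm.av 21 _ y) ℝ (e22.line.pb (h.pc 21)) := by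
  unfold D1
  exact Ei.aux1 (fun y => h.ε • Pm.av 21 _ y) _

theorem Ei.aux2 {Φ : A.Fam} (h : P.Shape Φ (2 ^ 30)) (c : VY → P.Y) :
    (⟨{z : A0 × (ℂ × ℝ × ℝ) × VY | z.1.1 ≠ 0 ∧ Pm.mn z.2.2 ≠ 0},
    fun z : A0 × (ℂ × ℝ × ℝ) × VY =>
      (((Real.log ‖z.1.1‖, z.2.1.1.im),
        h.ε⁻¹ • eq0 (rE h (‖z.1.1‖⁻¹ • z.1.1)) z.2.1.1.re (h.ε • z.2.2)),
        h.j.symm ((z.1.2, z.2.1.2.1), z.2.1.2.2) - c z.2.2)⟩ : PB XE.ls VV) =
      Ei.pE c h.ε h.j h.i Φ.r := by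
  unfold Ei.pE eq0 rE
  with_reducible rfl

theorem Ei.E1_eq {Φ : A.Fam} (h : P.Shape Φ (2 ^ 30)) :
    E1 h = Ei.pE (fun y => h.ε • Pm.av 21 _ y) h.ε h.j h.i Φ.r := by
  unfold E1
  exact Ei.aux2 h fun y => h.ε • Pm.av 21 _ y

theorem Ei.dis (hX : OKX) : DIS := by
  intro g p s J Φ h t
  rw [Ei.D1_eq, i22_pa g p s J]
  exact Ei.dis0 J (by norm_num) (Ei.iv_av 21 h.ε) (adm (by simp) _ _) (e22.line.pb_fr (hX Φ h t))

theorem eis (hR : REP) (hE : OKE) : EIS := by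
  intro g p s I Φ h t
  rw [Ei.E1_eq, Sk.ev, i11_pa g p s I]
  exact Ei.eis0 I (by norm_num) (Ei.iv_av 21 h.ε) h.ε0.ne' h.j h.i Φ.r (adm (by simp) _ _) hR.1
    (hE Φ)

end Crest.Agent.N218.D3

end
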