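import Crest.Agent.N218.D3.Defs
import Crest.Agent.N218.K.Clu

/-!
# Row 218, block D3 (helper76): the cut of `EVD` (FROZEN)
-/

set_option autoImplicit false
set_option linter.unusedVariables false

open Set Module OnePoint

noncomputable section

namespace Crest.Agent.N218.D3
open K

section
variable {Γ : Type} [Group Γ] [TopologicalSpace Γ] {A B : Type} [NormedAddCommGroup A]
  [NormedSpace ℝ A] [FiniteDimensional ℝ A] [NormedAddCommGroup B] [NormedSpace ℝ B]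
  [FiniteDimensional ℝ B]

variable (A) in
/-- `A × M` -/
abbrev XT (M : Rep Γ) : Rep Γ := (Rep.triv Γ A).prod M

/-- the collapse of `st c ℝ` with the cut `χ`, times the identity of `M` -/
def gC (Y : GS Γ) (M : Rep Γ) (c : Pp A B) (χ : P0.Z × (tv (A × ℝ)).Z → ℝ)
    (z : Y.Z × (XT A M).ls.xr.Z) : OnePoint (XT B M).ls.xr.Z :=
  OnePoint.map (fun w : (B × ℝ) × M.W => ((w.1.1, w.2), w.1.2))
    (wdg ((fp (st c ℝ)).col χ ((), (z.2.1.1, z.2.2)), (z.2.1.2 : OnePoint M.W)))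

/-- the hypotheses on the label map -/
structure Lab (c : Pp A B) (Bx : Set B) : Prop where
  ok : Okp c
  sc : StarConvex ℝ 0 Bx
  pr : ∀ K ⊆ Bx, IsCompact K → IsCompact {a | a ∈ c.1 ∧ c.2 a ∈ K}
end

set_option hygiene false in
/-- quantify over finite-dimensional spaces -/
local macro "∀V " A:ident ", " t:term : term =>
  `(∀ {$A : Type} [NormedAddCommGroup $A] [NormedSpace ℝ $A] [FiniteDimensional ℝ $A], $t)

/-- pull-back of free problems and of bordisms -/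
def CBD : Prop := ∀ {Γ : Type} [Group Γ] [TopologicalSpace Γ], ∀V A, ∀V B, ∀ (M V : Rep Γ)
  (c : Pp A B) (Bx : Set B), Lab c Bx → ∀ P : PB (XT B M).ls V, P.Fr → (∀ x ∈ P.O, x.1 ∈ Bx) →
  (cmp c P).Fr ∧ ∀ (P' : PB (XT B M).ls V) (H : PB (XT B M).ls.cy V), P'.Fr → P'.O = P.O →
    H.O = Prod.fst ⁻¹' P.O → H.Ok (Prod.fst ⁻¹' (XT B M).ls.fr) → (H.sl 0).Le P → (H.sl 1).Le P' →
    (cmp c P).Bd (cmp c P')

/-- the classifying map of the pull-back is a composite -/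
def HTP : Prop := ∀ {Γ : Type} [Group Γ] [TopologicalSpace Γ] [CompactSpace Γ] (χ : Γ →* Circle)
  (hχ : Continuous χ) (r : ℕ), ∀V A, ∀V B, ∀ (M V : Rep Γ) (c : Pp A B) (Bx : Set B), Lab c Bx →
  ∀ (P : PB (XT B M).ls V) (k : (XT B M).W → Fin r → ℂ), P.Fr → (∀ x ∈ P.O, x.1 ∈ Bx) →
  (cmp c P).Fr → P.Lift (UU χ hχ r) k → ∃ (ξ : P0.Z × (tv (A × ℝ)).Z → ℝ)
    (C : H1 (Sb (Sp χ hχ r) (XT A M).ls.xr) (Sb (Sp χ hχ r) (XT B M).ls.xr)),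
    (fp (st c ℝ)).Cut ξ ∧ Rg C (gC (Sp χ hχ r) M c ξ) ∧
    (cmp c P).Lift (UU χ hχ r) (fun x => k (c.2 x.1, x.2)) ∧
    (Tc χ hχ r (cmp c P) fun x => k (c.2 x.1, x.2)).hm.Ht (C.cm (Tc χ hχ r P k).hm)

/-- the Hopf class over `Y`, stabilised by `M` -/
def PLB : Prop := ∀ {Γ : Type} [Group Γ] [TopologicalSpace Γ] [CompactSpace Γ] (Y : GS Γ),
  ∀V A, ∀V B, ∀ (M : Rep Γ) (c : Pp A B), Even (finrank ℝ A) → Odd (finrank ℝ B) → Okp c →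
  Nu (st c ℝ) → ∀ (ξ : P0.Z × (tv (A × ℝ)).Z → ℝ)
    (C : H1 (Sb Y (XT A M).ls.xr) (Sb Y (XT B M).ls.xr)), (fp (st c ℝ)).Cut ξ →
  Rg C (gC Y M c ξ) → ∀ (l : KS Y (XT B M).ls.xr) (ρ : KX Y.Q), (Sb _ _).Th l →
  ps _ l = (Sb _ _).sm ρ l → ∃ (k : ℕ) (ν : ℤ) (l' : KS Y (XT A M).ls.xr.xr) (σ : KX Y.Q),
    Odd ν ∧ (Sb _ _).Th l' ∧ ρ = 3 ^ k * σ ∧ ps _ l' = (Sb _ _).sm (3 ^ (k + 4) * σ) l' ∧
    pull C.f l = 0 ∧ Ecl C (sd _ _) l ρ ((Sb _ _).sm (ν * σ) l')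

end Crest.Agent.N218.D3

end
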