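import Crest.Agent.N218.Hf.Nu0

/-!
# Row 218, block D3, leaf HOPF (helper39): Hopf invariant one
-/

set_option autoImplicit false
set_option linter.unusedVariables false
set_option linter.unusedSectionVars false

open Set Function Metric Module

noncomputable section

namespace Crest.Agent.N218.Hf

open K D3 Sh

section ok
variable {A A' B B' C : Type} [TopologicalSpace A] [TopologicalSpace A'] [NormedAddCommGroup B]
  [NormedSpace ℝ B] [NormedAddCommGroup B'] [NormedSpace ℝ B'] [NormedAddCommGroup C]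

theorem ok_st {p : Pp A B} (h : Okp p) : Okp (st p C) := by
  refine ⟨h.op.preimage continuous_fst, (h.ct.comp continuous_fst.continuousOn fun _ o => o).prodMk
    continuous_snd.continuousOn, ?_⟩
  have e : {a | a ∈ (st p C).1 ∧ (st p C).2 a = 0} = {a | a ∈ p.1 ∧ p.2 a = 0} ×ˢ {(0 : C)} :=
    Set.ext fun z => ⟨fun o => ⟨⟨o.1, congrArg Prod.fst o.2⟩, congrArg Prod.snd o.2⟩,
      fun o => ⟨o.1.1, Prod.ext o.1.2 o.2⟩⟩
  rw [e]
  exact h.cp.prod isCompact_singleton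

theorem ok_tg {p : Pp A B} (h : Okp p) (L : B ≃L[ℝ] B') : Okp (tg p L) := by
  refine ⟨h.op, L.continuous.comp_continuousOn h.ct, ?_⟩
  have e : {a | a ∈ (tg p L).1 ∧ (tg p L).2 a = 0} = {a | a ∈ p.1 ∧ p.2 a = 0} :=
    Set.ext fun z => and_congr Iff.rfl L.map_eq_zero_iff
  rw [e]
  exact h.cp

theorem ok_cm {p : Pp A B} (h : Okp p) (e : A' ≃ₜ A) : Okp (cm p univ e) := by
  refine ⟨isOpen_univ.inter (h.op.preimage e.continuous),
    h.ct.comp e.continuous.continuousOn fun _ o => o.2, ?_⟩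
  have k : {a | a ∈ (cm p univ e).1 ∧ (cm p univ e).2 a = 0} = e ⁻¹' {a | a ∈ p.1 ∧ p.2 a = 0} :=
    Set.ext fun z => ⟨fun o => ⟨o.1.2, o.2⟩, fun o => ⟨⟨trivial, o.1⟩, o.2⟩⟩
  rw [k]
  exact e.isClosedEmbedding.isCompact_preimage h.cp
end ok

variable (L : (ℝ × E 7) ≃L[ℝ] E 8)

/-- the change of coordinates -/
def chg : ((E 8 × E 3) × E 8) ≃ₜ ((E 8 × E 7) × (ℝ × E 3)) where
  toFun a := ((a.2, (L.symm a.1.1).2), (-(L.symm a.1.1).1, a.1.2))
  invFun z := ((L (-z.2.1, z.1.2), z.2.2), z.1.1)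
  left_inv a := by simp
  right_inv z := by simp
  continuous_toFun := by fun_prop
  continuous_invFun := by fun_prop

/-- the rotation -/
def rot (m : E 8 →L[ℝ] E 8 →L[ℝ] E 8) (z : ℝ × ((E 8 × E 3) × E 8)) : (ℝ × E 3) × E 8 :=
  (((1 - z.1) * -(L.symm z.2.1.1).1 + z.1 * (‖z.2.2‖ - 1), z.2.1.2),
    ((1 - z.1) * (‖z.2.2‖ ^ 2 / (1 + ‖z.2.2‖))⁻¹ + z.1) • m z.2.2
      (L ((1 - z.1) * (‖z.2.2‖ - 1) + z.1 * (L.symm z.2.1.1).1, (L.symm z.2.1.1).2)))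

variable {m : E 8 →L[ℝ] E 8 →L[ℝ] E 8} (hm : ∀ s x, ‖m s x‖ = ‖s‖ * ‖x‖)
include hm

theorem rot_cp : IsCompact {z : ℝ × ((E 8 × E 3) × E 8) | z ∈ {z | z.2.2 ≠ 0} ∧
    z.1 ∈ Icc (0 : ℝ) 1 ∧ rot L m z = 0} := by
  convert (isCompact_Icc (a := (0 : ℝ)) (b := 1)).prod
    ((isCompact_singleton (x := (0 : E 8 × E 3))).prod (isCompact_sphere (0 : E 8) 1)) using 1
  ext ⟨s, ⟨x, u⟩, y⟩
  obtain ⟨⟨a, x⟩, rfl⟩ := L.surjective x
  simp only [rot, mem_ofPred_eq, L.symm_apply_apply, Prod.mk_eq_zero, mem_prod, mem_singleton_iff,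
    mem_sphere_zero_iff_norm, L.map_eq_zero_iff]
  refine ⟨fun ⟨h1, h2, ⟨h3, h4⟩, h5⟩ => ?_, fun ⟨h1, ⟨⟨h2, h3⟩, h4⟩, h5⟩ => ?_⟩
  · have := norm_pos_iff.2 h1
    have c : 0 < (‖y‖ ^ 2 / (1 + ‖y‖))⁻¹ := by positivity
    have c' : 0 < (1 - s) * (‖y‖ ^ 2 / (1 + ‖y‖))⁻¹ + s := by
      rcases h2.1.eq_or_lt with k | k
      · rw [← k]; simpa using c
      · exact add_pos_of_nonneg_of_pos (mul_nonneg (sub_nonneg.2 h2.2) c.le) k
    have h6 := m_zero hm h1 ((smul_eq_zero.1 h5).resolve_left c'.ne')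
    rw [L.map_eq_zero_iff, Prod.mk_eq_zero] at h6
    have d : 0 < (1 - s) ^ 2 + s ^ 2 := by nlinarith [sq_nonneg (1 - 2 * s)]
    have e1 : ((1 - s) ^ 2 + s ^ 2) * a = 0 := by linear_combination s * h6.1 - (1 - s) * h3
    have e2 : ((1 - s) ^ 2 + s ^ 2) * (‖y‖ - 1) = 0 := by
      linear_combination (1 - s) * h6.1 + s * h3
    exact ⟨h2, ⟨⟨(mul_eq_zero.1 e1).resolve_left d.ne', h6.2⟩, h4⟩,
      sub_eq_zero.1 ((mul_eq_zero.1 e2).resolve_left d.ne')⟩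
  · refine ⟨norm_ne_zero_iff.1 (by rw [h5]; exact one_ne_zero), h1, ⟨by simp [h2, h5], h4⟩, ?_⟩
    simp [h2, h3, h5, Prod.mk_zero_zero]

theorem rot_ct : ContinuousOn (rot L m) {z | z.2.2 ≠ 0} := by
  have c : ContinuousOn (fun z : ℝ × ((E 8 × E 3) × E 8) => (‖z.2.2‖ ^ 2 / (1 + ‖z.2.2‖))⁻¹)
      {z | z.2.2 ≠ 0} := ContinuousOn.inv₀ (Continuous.continuousOn
        (Continuous.div (by fun_prop) (by fun_prop) fun w => by positivity)) fun w hw => by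
    have := norm_pos_iff.2 hw
    positivity
  unfold rot
  fun_prop

theorem ok_hopf : Okp (hopf m) := by
  refine ⟨isOpen_ne_fun continuous_snd continuous_const, by unfold hopf; fun_prop, ?_⟩
  convert (isCompact_singleton (x := (0 : E 8 × E 3))).prod (isCompact_sphere (0 : E 8) 1) using 1
  ext ⟨⟨x, u⟩, y⟩
  simp only [hopf, mem_ofPred_eq, Prod.mk_eq_zero, mem_prod, mem_singleton_iff,
    mem_sphere_zero_iff_norm]
  exact ⟨fun ⟨h1, ⟨h2, h3⟩, h4⟩ => ⟨⟨m_zero hm h1 h4, h3⟩, sub_eq_zero.1 h2⟩,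
    fun ⟨⟨h1, h2⟩, h3⟩ => ⟨norm_ne_zero_iff.1 (by rw [h3]; exact one_ne_zero),
      ⟨sub_eq_zero.2 h3, h2⟩, by rw [h1, map_zero]⟩⟩

theorem rot_hb : Hb (cm (tg (st (p0 L m) (ℝ × E 3)) (ContinuousLinearEquiv.prodComm ℝ _ _)) univ
    (chg L)) (hopf m) :=
  ⟨{z | z.2.2 ≠ 0}, rot L m, isOpen_ne_fun (by fun_prop) continuous_const, rot_ct L hm,
    rot_cp L hm, fun a o => ⟨⟨trivial, o⟩, by simp [rot, cm, tg, st, p0, chg]⟩,
    fun a o _ => o.2, fun a o => ⟨o, by simp [rot, hopf]⟩, fun a o _ => o⟩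

end Crest.Agent.N218.Hf

namespace Crest.Agent.N218.D3
open K Hf Sh

/-- **HOPF** -/
theorem hopf (hS : SPH) (hE : EHT) (hN : NUK) : HOPF := by
  intro m hm
  let L : (ℝ × E 7) ≃L[ℝ] E 8 := ContinuousLinearEquiv.ofFinrankEq (by simp)
  have o0 := ok_p0 L hm
  have n0 := nu_p0 L hm (e := EuclideanSpace.single 0 1) (by simp) hS hE (by simp) (by simp)
  have o1 := ok_st (C := ℝ × E 3) o0
  have n1 := hN.st (C := ℝ × E 3) _ (by simp; decide) (by simp; decide) (by simp; decide) o0 n0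
  have o2 := ok_tg o1 (ContinuousLinearEquiv.prodComm ℝ _ _)
  have n2 := hN.tg (ContinuousLinearEquiv.prodComm ℝ _ _) _ o1 n1
  have n3 := hN.emb (chg L).symm univ (chg L) _ ⟨(chg L).symm.continuous, isOpen_univ,
    (chg L).continuous.continuousOn, fun _ => trivial, (chg L).apply_symm_apply,
    fun a _ => (chg L).symm_apply_apply a⟩ (by simp) (by simp; decide) o2 n2
  exact (hN.hb _ _ (.single (rot_hb L hm)) (ok_cm o2 (chg L)) (ok_hopf hm)).1 n3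

end Crest.Agent.N218.D3
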