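import Crest.Agent.N218.D3.Geo
import Crest.Agent.N218.D3.Hopf

/-!
# Row 218, block D3, leaf LBL (helper51): the label map
-/

set_option autoImplicit false
set_option linter.unusedVariables false
set_option linter.unusedSectionVars false

open Set Module
open scoped RealInnerProductSpace

noncomputable section

namespace Crest.Agent.N218.D3
open K In Sh

namespace Lb
section top
variable {A A' B D D' : Type} [TopologicalSpace A] [TopologicalSpace A'] [TopologicalSpace B]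
  [TopologicalSpace D] [TopologicalSpace D'] {U : Set A}

theorem cp {e : A' → A} {e' : A → A'} (h : Oe e U e') {K : Set A'} (hK : IsCompact K) :
    IsCompact {a | a ∈ U ∧ e' a ∈ K} := by
  convert hK.image h.ct using 1
  exact Set.ext fun a => ⟨fun o => ⟨_, o.2, h.ri a o.1⟩, fun ⟨b, o, q⟩ => q ▸
    ⟨h.mem b, (h.li b).symm ▸ o⟩⟩

theorem ok [Zero B] {e : A' → A} {e' : A → A'} (h : Oe e U e') {p : Pp A' B} (o : Okp p) :
    Okp (cm p U e') :=
  ⟨h.ct'.isOpen_inter_preimage h.op o.op, o.ct.comp (h.ct'.mono fun _ a => a.1) fun _ a => a.2,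
    (congrArg IsCompact (Set.ext fun x => and_assoc)).mpr (cp h o.cp)⟩

theorem mid {e : A' × D → A} {e' : A → A' × D} (h : Oe e U e') (B : Type) [TopologicalSpace B] :
    Oe (fun z : (A' × B) × D => (e (z.1.1, z.2), z.1.2)) {a | a.1 ∈ U}
      fun a => (((e' a.1).1, a.2), (e' a.1).2) := by
  have c := h.ct
  have c' : ContinuousOn (fun a : A × B => e' a.1) {a | a.1 ∈ U} :=
    h.ct'.comp continuousOn_fst fun _ a => a
  exact ⟨by fun_prop, h.op.preimage continuous_fst, (c'.fst.prodMk continuousOn_snd).prodMk c'.snd,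
    fun a => h.mem _, fun a => by simp only [h.li], fun a o => Prod.ext (h.ri _ o) rfl⟩

theorem asc {e : A' × D → A} {e' : A → A' × D} (h : Oe e U e') (B : Type) [TopologicalSpace B] :
    Oe (fun z : A' × (D × B) => (e (z.1, z.2.1), z.2.2)) {a | a.1 ∈ U}
      fun a => ((e' a.1).1, (e' a.1).2, a.2) := by
  have c := h.ct
  have c' : ContinuousOn (fun a : A × B => e' a.1) {a | a.1 ∈ U} :=
    h.ct'.comp continuousOn_fst fun _ a => a
  exact ⟨by fun_prop, h.op.preimage continuous_fst, c'.fst.prodMk (c'.snd.prodMk continuousOn_snd),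
    fun a => h.mem _, fun a => by simp only [h.li], fun a o => Prod.ext (h.ri _ o) rfl⟩
end top

section gn
variable {X C : Type} [NormedAddCommGroup X] [NormedSpace ℝ X] [NormedAddCommGroup C]
  [NormedSpace ℝ C] (L : X ≃L[ℝ] C × ℝ)

/-- the gnomonic chart -/
def gn (p : X) : C × ℝ := ((L p).2⁻¹ • (L p).1, Real.log ‖p‖)
/-- its inverse -/
def gi (c : C × ℝ) : X := (Real.exp c.2 * ‖L.symm (c.1, 1)‖⁻¹) • L.symm (c.1, 1)

theorem pos (c : C) : 0 < ‖L.symm (c, 1)‖ :=
  norm_pos_iff.2 fun e => one_ne_zero (congrArg Prod.snd (L.symm.map_eq_zero_iff.1 e) :)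

theorem oe : Oe (gi L) {p | 0 < (L p).2} (gn L) := by
  have n : ∀ p : X, 0 < (L p).2 → 0 < ‖p‖ := fun p o => norm_pos_iff.2 fun e => by simp [e] at o
  refine ⟨?_, isOpen_lt continuous_const (by fun_prop), ?_, fun c => ?_, fun c => ?_,
    fun p o => ?_⟩
  · exact ((Real.continuous_exp.comp continuous_snd).mul (Continuous.inv₀ (by fun_prop)
      fun c => (pos L c.1).ne')).smul (by fun_prop)
  · exact ((ContinuousOn.inv₀ (by fun_prop) fun p o => ne_of_gt o).smul (by fun_prop)).prodMk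
      (continuous_norm.continuousOn.log fun p o => (n p o).ne')
  · have := pos L c.1
    simp only [gi, mem_ofPred_eq, map_smul, L.apply_symm_apply, Prod.smul_snd, smul_eq_mul, mul_one]
    positivity
  · have := pos L c.1
    have a : 0 < Real.exp c.2 * ‖L.symm (c.1, 1)‖⁻¹ := by positivity
    refine Prod.ext ?_ ?_
    · simp only [gn, gi, map_smul, L.apply_symm_apply, Prod.smul_snd, Prod.smul_fst, smul_eq_mul,
        mul_one]
      exact inv_smul_smul₀ a.ne' _
    · simp only [gn, gi]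
      rw [norm_smul, Real.norm_of_nonneg a.le, mul_assoc, inv_mul_cancel₀ this.ne', mul_one,
        Real.log_exp]
  · have o' : 0 < (L p).2 := o
    have e : L.symm ((L p).2⁻¹ • (L p).1, 1) = (L p).2⁻¹ • p := by
      rw [L.symm_apply_eq, map_smul]
      exact Prod.ext rfl (inv_mul_cancel₀ o'.ne').symm
    have := n p o
    simp only [gn, gi]
    rw [e, Real.exp_log this, norm_smul, Real.norm_of_nonneg (inv_pos.2 o').le, smul_smul]
    rw [show ‖p‖ * ((L p).2⁻¹ * ‖p‖)⁻¹ * (L p).2⁻¹ = 1 by field_simp, one_smul]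
end gn

variable {Φ : A.Fam} (h : P.Shape Φ (2 ^ 30)) (t : Tt h.S)

theorem exL : ∃ L : A.Eu 11 ≃L[ℝ] (E 8 × E 3) × ℝ, ∀ p, L p = (h.π p, ⟪h.e', p⟫) := by
  let f : A.Eu 11 →ₗ[ℝ] (E 8 × E 3) × ℝ := (h.π.prod (innerSL ℝ h.e')).toLinearMap
  have i : Function.Injective f := (injective_iff_map_eq_zero f).2 fun x e => by
    have e1 : h.π x = 0 := congrArg Prod.fst e
    have e2 : ⟪h.e', x⟫ = 0 := congrArg Prod.snd e
    have := h.πn x
    have k := h.K0
    rw [e1, e2] at this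
    simpa [k.ne'] using this
  exact ⟨(f.linearEquivOfInjective i (by simp)).toContinuousLinearEquiv, fun p => rfl⟩

section sh
variable {X Y Z : Type} [NormedAddCommGroup X] [NormedSpace ℝ X] [NormedAddCommGroup Y]
  [NormedSpace ℝ Y] [NormedAddCommGroup Z] [NormedSpace ℝ Z] (S : Sheet X Y Z norm)

/-- the problem of a sheet -/
def p1 : Pp (X × Y) (Z × Y) := (S.O, fun z => (S.W z, S.H z))

theorem ok1 : Okp (p1 S) := by
  refine ⟨S.op, S.sW.continuousOn.prodMk S.sH.continuousOn, ?_⟩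
  convert S.cpt 0 S.r0 0 S.r0 using 1
  ext z
  simp [p1]

theorem cp1 {K : Set ((Z × Y) × ℝ)} (s : K ⊆ {b | ‖b.1.1‖ < S.r ∧ ‖b.1.2‖ < S.r})
    (c : IsCompact K) : IsCompact {a | a ∈ (st (p1 S) ℝ).1 ∧ (st (p1 S) ℝ).2 a ∈ K} := by
  rcases K.eq_empty_or_nonempty with rfl | n
  · simp
  obtain ⟨a, ha, ma⟩ := c.exists_isMaxOn n (f := fun b => ‖b.1.1‖) (by fun_prop)
  obtain ⟨b, hb, mb⟩ := c.exists_isMaxOn n (f := fun b => ‖b.1.2‖) (by fun_prop)
  have k := (S.cpt _ (s ha).1 _ (s hb).2).prod (c.image continuous_snd)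
  convert k.of_isClosed_subset (((Hf.ok_st (C := ℝ) (ok1 S)).ct.mono
    fun x a => a.1.1).preimage_isClosed_of_isClosed k.isClosed c.isClosed) inter_subset_left using 1
  exact Set.ext fun x => ⟨fun o => ⟨⟨⟨o.1, ma o.2, mb o.2⟩, _, o.2, rfl⟩, o.2⟩,
    fun o => ⟨o.1.1.1, o.2⟩⟩
end sh

section nu
variable {A A' B : Type} [NormedAddCommGroup A] [NormedSpace ℝ A] [FiniteDimensional ℝ A]
  [NormedAddCommGroup A'] [NormedSpace ℝ A'] [FiniteDimensional ℝ A']
  [NormedAddCommGroup B] [NormedSpace ℝ B] [FiniteDimensional ℝ B]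

theorem nu (hN : NUK) {e : A' × ℝ → A} {U : Set A} {e' : A → A' × ℝ} (o : Oe e U e')
    {p : Pp A' B} (o1 : Okp p) (n1 : Nu p) (d : finrank ℝ A = finrank ℝ A' + 1)
    (a : Odd (finrank ℝ A')) (b : Even (finrank ℝ B)) : Nu (st (cm (st p ℝ) U e') ℝ) := by
  have o2 := Hf.ok_st (C := ℝ × ℝ) o1
  have n2 := hN.st (C := ℝ × ℝ) _ a b (by simp) o1 n1
  have n3 := hN.emb _ _ _ _ (asc o ℝ) (by simp [d]) (by
    rw [finrank_prod, finrank_self, d]; exact a.add_one.add_one) o2 n2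
  have n4 := hN.tg (ContinuousLinearEquiv.prodAssoc ℝ B ℝ ℝ).symm _ (ok (asc o ℝ) o2) n3
  convert n4 using 1
  exact Prod.ext (Set.ext fun z => Iff.rfl) (funext fun z => rfl)
end nu

theorem cL_eq {L : A.Eu 11 ≃L[ℝ] (E 8 × E 3) × ℝ} (e : ∀ p, L p = (h.π p, ⟪h.e', p⟫)) :
    cL h t 1 = cm (st (p1 t.S1) ℝ) {a : A0 | 0 < (L a.1).2}
      fun a => (((gn L a.1).1, a.2), (gn L a.1).2) := by
  have c : ∀ p, ch h 1 p = (gn L p).1 := fun p => by simp [ch, gn, e]
  unfold cL cm st p1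
  simp only [c, e]
  rfl
end Lb

open Lb in
/-- **LBL** -/
theorem lbl (hH : HOPF) (hN : NUK) : LBL := by
  intro Φ h t
  obtain ⟨L, e⟩ := exL h
  have o := mid (oe L) (E 8)
  have o1 := ok1 t.S1
  rw [cL_eq h t e]
  exact ⟨ok o (Hf.ok_st o1), fun K s c =>
    (congrArg IsCompact (Set.ext fun x => and_assoc)).mpr (cp o (cp1 t.S1 s c)),
    nu hN o o1 ((hN.hb _ _ t.hb o1 (Hf.ok_hopf t.hm)).2 (hH t.m t.hm)) (by simp)
      (by simp; decide) (by simp; decide)⟩

end Crest.Agent.N218.D3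

end
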