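import Crest.Agent.N218.D3.Fin1
import Crest.Agent.N218.D3.Lbl
import Crest.Agent.N218.D3.Chb
import Crest.Agent.N218.D3.Eis

/-!
# Row 218, block D3 (helper76): the block is complete
-/

set_option autoImplicit false

namespace Crest.Agent.N218.D3

/-- **block D3** -/
theorem d3t : D3T := d31 (lbl hopf0 nuk0) (chb (pfr okx zl)) (eis rep oke)

end Crest.Agent.N218.D3
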