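import Crest.Agent.N218.K.Cx1

/-!
# Row 218, block D3 (helper12): stabilisation of the `ψ³`-defect
-/

set_option autoImplicit false
set_option linter.unusedVariables false

open Set OnePoint

noncomputable section

namespace Crest.Agent.N218.D3
open K

section ex
variable {X : Type} [TopologicalSpace X] {A B U SA SB S S' SS : Ex X} {DA : SmD A U SA}
  {DB : SmD B U SB} {F : H1 A B} {F' : H1 SA SB}

/-- the inclusion of the suspension commutes with stabilisation -/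
theorem inc_stab (T : Stab DA DB F F') (D : SD A S) (D' : SD SA S') (DS : SmD S U SS)
    (D'' : SD DA.P DS.P) (R : H1 S' SS) (h1 : ∀ z t, DS.q (D''.c (z, t)) = D.c (DA.q z, t))
    (h3 : ∀ z t, DS.c (D''.c (z, t)) = R.f (D'.c (DA.c z, t))) {x : KX S.E} {y : KX U.E}
    (hx : S.Rd x) (hy : U.Rd y) :
    KA (Cn.inc F' D') (pull R.f (DS.mul x y)) = T.pd.mul (KA (Cn.inc F D) x) y := by
  have k : (Cn.ev F).comp (Cn.inc F D) = cR S.s := AlgHom.ext fun a =>
    ContinuousMap.ext fun z => congrArg a (congrArg S.s (B.ps z))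
  have hx' : KA (A := Cn F) (Cn.ev F) (KA (B := Cn F) (Cn.inc F D) x) = 0 := by
    rw [← ka_comp, k, ← pull_ka]; exact hx
  have := DS.pd.natural T.pd (Cn.inc F D) (AlgHom.id ℂ _) (Cn.inc T.G D'')
    ((Cn.inc F' D').comp (cR R.f))
    (fun b => Cn.ext' (fun z t => congrArg b (h1 z t))
      fun e => congrArg b ((DS.qs _).trans (congrArg S.s (DB.pq e).symm)))
    (fun b => Cn.ext' (fun z t => congrArg b (D''.hp (z, t))) fun e => congrArg b (DS.P.ps _))
    (fun s => Cn.ext' (fun z t => congrArg s (h3 z t)) fun e => congrArg s ((DS.cs _).trans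
      ((congrArg SS.s ((DB.pc e).trans (DB.pq e)).symm).trans (R.hs _).symm)))
    hx hy hx' ((congrArg _ (ka_id y)).trans hy)
  rw [ka_id, ka_comp] at this
  exact this

/-- **stabilisation of the defect**, abstract form -/
theorem ecl_stab0 (T : Stab DA DB F F') (D : SD A S) (D' : SD SA S') (DS : SmD S U SS)
    (D'' : SD DA.P DS.P) (R : H1 S' SS) (h1 : ∀ z t, DS.q (D''.c (z, t)) = D.c (DA.q z, t))
    (h3 : ∀ z t, DS.c (D''.c (z, t)) = R.f (D'.c (DA.c z, t))) {l : KX B.E} {ρ ρ' : KX X}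
    {x : KX S.E} {y : KX U.E} (k : Ecl F D l ρ x) (hl : B.Rd l) (hy : U.Rd y)
    (e : ps _ y = U.sm ρ' y) :
    Ecl F' D' (DB.mul l y) (ρ * ρ') (pull R.f (DS.mul x (ps _ y))) := by
  obtain ⟨hx, μ, e1, e2⟩ := k
  have hμ : KA (Cn.ev F) μ = 0 := (ka_comp _ _ _).trans ((congrArg _ e1).trans hl)
  refine ⟨(DS.rd_mul _ _).hm R, T.pd.mul μ y, by rw [T.res_mul hμ hy, e1], ?_⟩
  have a : ps _ (T.pd.mul μ y) = T.pd.mul (ps _ μ) (ps _ y) := T.pd.psi_mul 3 μ y
  have b : T.pd.mul (KA (Cn.bas F) ρ * μ) (U.sm ρ' y) =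
      KA (Cn.bas F') ρ * T.pd.mul μ (U.sm ρ' y) := T.pd.smul_mul ρ μ _
  have c : T.pd.mul μ (U.sm ρ' y) = KA (Cn.bas F') ρ' * T.pd.mul μ y := T.pd.mul_smul ρ' μ y
  rw [inc_stab T D D' DS D'' R h1 h3 hx hy.ps, ← e2, T.pd.sub_mul, a, e, b, c, map_mul, mul_assoc]

end ex

variable {Γ : Type} [Group Γ] [TopologicalSpace Γ] [CompactSpace Γ] {Y : GS Γ} {M N : LS Γ}

theorem wdg_rc {A B C : Type} (f : (A × B) × C → (A × C) × B) (hf : ∀ a b c, f ((a, b), c) = ((a, c), b))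
    (a : OnePoint A) (b : OnePoint B) (c : OnePoint C) :
    OnePoint.map f (wdg (wdg (a, b), c)) = wdg (wdg (a, c), b) := by
  induction a using OnePoint.rec <;> induction b using OnePoint.rec <;>
    induction c using OnePoint.rec <;> first | rfl | exact congrArg OnePoint.some (hf _ _ _)

/-- the reordering `(M × U) × ℝ → (M × ℝ) × U` -/
abbrev rord (Y : GS Γ) (M U : LS Γ) : H1 (Sb Y (M.prod U).xr) (Sb Y (M.xr.prod U)) :=
  (rcomm M U (LS.triv Γ ℝ)).h1 Y

/-- **stabilisation of the defect** for sphere bundles -/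
theorem ecl_stab (U : LS Γ) (E : EqM Y M Y N id (.id _)) (F : H1 (Sb Y M) (Sb Y N))
    (hF : ∀ y w, F.f (pt Y M y w) = pt Y N y (E.f (y, w)))
    (F' : H1 (Sb Y (M.prod U)) (Sb Y (N.prod U)))
    (hF' : ∀ y w u, F'.f (pt Y _ y (wdg (w, u))) = pt Y _ y (wdg (E.f (y, w), u)))
    {l : KS Y N} {ρ ρ' : KX Y.Q} {x : KS Y M.xr} {y : KS Y U} (k : Ecl F (sd Y M) l ρ x)
    (hl : (Sb Y N).Rd l) (hy : (Sb Y U).Rd y) (e : ps _ y = (Sb Y U).sm ρ' y) :
    Ecl F' (sd Y (M.prod U)) (xm l y) (ρ * ρ') (pull (rord Y M U).f (xm x (ps _ y))) :=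
  ecl_stab0 (stab U E F hF F' hF') (sd Y M) (sd Y (M.prod U)) (smd Y M.xr U)
    (sd (Y.prod U.sph) M) (rord Y M U)
    (fun z t => by obtain ⟨⟨y, u⟩, w, rfl⟩ := pt_surj z; rfl)
    (fun z t => by
      obtain ⟨⟨y, u⟩, w, rfl⟩ := pt_surj z
      exact congrArg (pt Y (M.xr.prod U) y) (wdg_rc _ (fun _ _ _ => rfl) w u (thI t)).symm)
    k hl hy e

/-- the fibrewise map of a pointed fibre map -/
def Pm.eqm {g : Y.Z × M.Z → OnePoint N.Z} (h : Pm Y M N g) : EqM Y M Y N id (.id _) where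
  f := ⟨opx g, continuous_opx h.ct h.pr⟩
  hg _ _ := rfl
  hf γ y w := by
    induction w using OnePoint.rec with
    | infty => rfl
    | coe w => exact h.eq γ y w
  hi _ := rfl

/-- the stabilisation of a pointed fibre map -/
def stg (U : LS Γ) (g : Y.Z × M.Z → OnePoint N.Z) (x : Y.Z × (M.prod U).Z) :
    OnePoint (N.prod U).Z := wdg (g (x.1, x.2.1), (x.2.2 : OnePoint U.Z))

theorem pm_stg (U : LS Γ) {g : Y.Z × M.Z → OnePoint N.Z} (h : Pm Y M N g) :
    Pm Y (M.prod U) (N.prod U) (stg U g) := by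
  refine ⟨continuous_wdg.comp ((h.ct.comp (continuous_fst.prodMk continuous_snd.fst)).prodMk
    (continuous_coe.comp continuous_snd.snd)), fun K' k' => ?_, fun γ y w => ?_⟩
  · obtain ⟨K, k, hK⟩ := h.pr _ (k'.image continuous_fst)
    refine ⟨K ×ˢ (Prod.snd '' K'), k.prod (k'.image continuous_snd), fun p w w' n e i => ?_⟩
    obtain ⟨a, b⟩ := wdg_eq_coe e
    refine hK p w.1 w'.1 (fun j => n ⟨j, w', i, ?_⟩) a ⟨w', i, rfl⟩
    exact (coe_injective b).symm
  · refine Eq.trans ?_ (wdg_act2 N U γ _ _).symm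
    exact congrArg (fun a => wdg (a, _)) (h.eq γ y w.1)

theorem rg_stg (U : LS Γ) {g : Y.Z × M.Z → OnePoint N.Z}
    {F' : H1 (Sb Y (M.prod U)) (Sb Y (N.prod U))} (r : Rg F' (stg U g)) (y : Y.Z)
    (w : OnePoint M.Z) (u : OnePoint U.Z) :
    F'.f (pt Y _ y (wdg (w, u))) = pt Y _ y (wdg (opx g (y, w), u)) := by
  induction u using OnePoint.rec with
  | infty => rw [wdg_r, wdg_r]; exact F'.f_inf y
  | coe u =>
    induction w using OnePoint.rec with
    | infty => exact F'.f_inf y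
    | coe w => exact r y (w, u)

/-- **stabilisation of the defect** for pointed fibre maps -/
theorem ecl_stg (U : LS Γ) {g : Y.Z × M.Z → OnePoint N.Z} (h : Pm Y M N g)
    {F : H1 (Sb Y M) (Sb Y N)} (r : Rg F g) {F' : H1 (Sb Y (M.prod U)) (Sb Y (N.prod U))}
    (r' : Rg F' (stg U g)) {l : KS Y N} {ρ ρ' : KX Y.Q} {x : KS Y M.xr} {y : KS Y U}
    (k : Ecl F (sd Y M) l ρ x) (hl : (Sb Y N).Rd l) (hy : (Sb Y U).Rd y)
    (e : ps _ y = (Sb Y U).sm ρ' y) :
    Ecl F' (sd Y (M.prod U)) (xm l y) (ρ * ρ') (pull (rord Y M U).f (xm x (ps _ y))) :=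
  ecl_stab U (Pm.eqm h) F r.opx F' (rg_stg U r') k hl hy e

end Crest.Agent.N218.D3

end
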