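import Crest.Agent.N218.D3.Deg
import Crest.Agent.N218.D3.Stb
import Crest.Agent.N218.D7.Orb

/-!
# Row 218, block D3 (helper12): the kit for odd `e`-invariants
-/

set_option autoImplicit false
set_option linter.unusedVariables false

open Set Module OnePoint

noncomputable section

namespace Crest.Agent.N218.D3
open K Dgk

namespace Nk

theorem sm_z {X : Type} [TopologicalSpace X] (A : Ex X) (n : ℤ) (x : KX A.E) :
    n • x = A.sm n x := by rw [Ex.sm, map_intCast, zsmul_eq_mul]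

theorem xm_zsmul' {Γ : Type} [Group Γ] [TopologicalSpace Γ] [CompactSpace Γ] {Y : GS Γ}
    {V U : LS Γ} (n : ℤ) (x : KS Y V) (y : KS Y U) : xm x (n • y) = n • xm x y := by
  rw [sm_z, sm_z]; exact (smd Y V U).mul_sm _ _ _

/-- the identity -/
def idm {X : Type} [TopologicalSpace X] (A : Ex X) : H1 A A := ⟨.id _, fun _ => rfl, fun _ => rfl⟩

/-- naturality over the identity -/
theorem ecl_h1 {X : Type} [TopologicalSpace X] {A B S A' B' S' : Ex X} (a : H1 A' A) (b : H1 B' B)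
    (c : H1 S' S) {F : H1 A B} {F' : H1 A' B'} (h : ∀ e, b.f (F'.f e) = F.f (a.f e)) {D : SD A S}
    {D' : SD A' S'} (hD : ∀ e t, c.f (D'.c (e, t)) = D.c (a.f e, t)) {l : KX B.E} {ρ : KX X}
    {x : KX S.E} (k : Ecl F D l ρ x) : Ecl F' D' (pull b.f l) ρ (pull c.f x) := by
  have := Orb.ecl_pull a b c h hD k
  rwa [pull_id] at this

/-- isomorphisms commute with the suspension coordinate -/
theorem iso_sd {Γ : Type} [Group Γ] [TopologicalSpace Γ] [CompactSpace Γ] {Y : GS Γ}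
    {V W : LS Γ} (I : V.Iso W) (e : (Sb Y V).E) (t : unitInterval) :
    ((I.prod (.refl (LS.triv Γ ℝ))).h1 Y).f ((sd Y V).c (e, t)) = (sd Y W).c ((I.h1 Y).f e, t) := by
  obtain ⟨y, w, rfl⟩ := pt_surj e
  refine congrArg (pt Y W.xr y) ((wdg_map I.e id w (thI t)).trans ?_)
  induction thI t using OnePoint.rec <;> rfl

end Nk

open Nk in
/-- **the kit for `Nu`** -/
theorem nuk (T : THOM1) (hS : SPH) (hH : HBT) (hC : CMP) (hO : OPN) (hE : EHT) : NUK where
  hb := fun {A} _ _ _ {B} _ _ _ p q h hp hq =>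
    ⟨fun ⟨k, g, t, ν, a, b, c, d, e⟩ => ⟨k, g, t, ν, a, b, c, d, hE _ _ _ _ _ _ (hH p q h hp hq) e⟩,
      fun ⟨k, g, t, ν, a, b, c, d, e⟩ =>
        ⟨k, g, t, ν, a, b, c, d, hE _ _ _ _ _ _ (hH p q h hp hq).sy e⟩⟩
  emb := fun {A} _ _ _ {A'} _ _ _ {B} _ _ _ e U e' p o hd he hp ⟨k, g, t, ν, a, b, c, d, x⟩ => by
    obtain ⟨γ, F, F', m, r, hc, hD, -, th⟩ := hO e U e' o hd
    obtain ⟨-, H⟩ := hC P0 (tv A) (tv A') (Rep.triv Unit B) γ F (fp p) (fp (cm p U e')) m r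
      (fp_ok hp)
      (fun x => ⟨fun h => ⟨e' x.2, (hc x _).2 ⟨h.1, rfl⟩, h.2⟩, fun ⟨a, h1, h2⟩ => by
        obtain ⟨u, rfl⟩ := (hc x a).1 h1
        exact ⟨u, h2⟩⟩)
      (fun x a h1 h2 => by
        obtain ⟨u, rfl⟩ := (hc x a).1 h1
        rfl)
    have z := ecl_h1 F (idm _) F' (F' := F.cm (fp p).hm) (fun _ => rfl) hD x
    rw [map_zsmul, show pull (idm (sp B)).f g = g from pull_id g] at z
    exact ⟨k, g, pull F'.f t, ν, a, th he t b, c, by rw [ps_pull, d, map_zsmul],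
      hE _ _ _ _ _ _ H.sy z⟩
  st := fun {A} _ _ _ {B} _ _ _ {C} _ _ _ p hA hB ⟨n, hn⟩ hp ⟨k, g, t, ν, a, b, c, d, x⟩ => by
    obtain ⟨y, u, ey, -⟩ := hS (A := C) n (by omega)
    obtain ⟨l, ul, -⟩ := ut_even T P0 C n (by omega)
    obtain ⟨E, F', e1, e2, H⟩ := st_ht (C := C) hp
    let G := ((pis (A := A) (C := C)).symm.h1 P0).cm (F'.cm ((pis (A := B) (C := C)).h1 P0))
    have z := ecl_stab (tv C) E (fp p).hm e1 G (fun y w u => by
      have a : ∀ {S : Type} (z : OnePoint S), OnePoint.map id z = z := fun z => by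
        induction z using OnePoint.rec <;> rfl
      exact (congrArg (fun z => ((pis (A := B) (C := C)).h1 P0).f (F'.f (pt P0 (tv (A × C)) y z)))
        (a _)).trans ((congrArg ((pis (A := B) (C := C)).h1 P0).f (e2 y w u)).trans
          (congrArg (pt P0 _ y) (a _)))) (ρ' := 3 ^ n) x a.1 u.1
        (by rw [ey, sm_z]; push_cast; rfl)
    have z' := ecl_h1 ((pis (A := A) (C := C)).h1 P0) ((pis (A := B) (C := C)).h1 P0)
      (((pis (A := A) (C := C)).prod (.refl (LS.triv Unit ℝ))).h1 P0) (F' := F')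
      (fun e => congrArg (fun z => ((pis (A := B) (C := C)).h1 P0).f (F'.f z))
        ((pis (A := A) (C := C)).h1_symm e).symm) (iso_sd _) z
    rw [ey, xm_zsmul, xm_zsmul', ← mul_smul, map_zsmul, map_zsmul, ← pow_add] at z'
    refine ⟨k + n, xp g y, _, ν * 3 ^ n, th_xp T ⟨n, hn⟩ a u, th_iso _ (LS.Iso.mp _ P0)
      (th_iso _ (LS.Iso.mp _ P0) ((ul.of_th u).th_r b)), c.mul (Odd.pow (by decide)), ?_,
      hE _ _ _ _ _ _ H.sy z'⟩
    have w : ps _ (xm t y) = xm (ps _ t) (ps _ y) := (smd P0 _ _).ps_mul t y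
    rw [ps_pull, ps_pull, w, d, ey, xm_zsmul, xm_zsmul', ← mul_smul, map_zsmul, map_zsmul,
      ← pow_add, show k + 4 + n = k + n + 4 by ring]
  tg := fun {A} _ _ _ {B} _ _ _ {B'} _ _ _ L p hp ⟨k, g, t, ν, a, b, c, d, x⟩ => by
    have z := ecl_h1 (idm _) ((lis L).symm.h1 P0) (idm _) (F' := (fp p).hm.cm ((lis L).h1 P0))
      (fun e => (lis L).h1_symm _) (D' := sd P0 (tv A)) (fun _ _ => rfl) x
    rw [show pull (idm (Sb P0 (tv A).xr)).f (ν • t) = ν • t from pull_id _] at z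
    exact ⟨k, _, t, ν, th_iso (lis L).symm (fun _ _ => rfl) a, b, c, d,
      hE _ _ _ _ _ _ (tg_ht hp L).sy z⟩

end Crest.Agent.N218.D3

end
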