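import Crest.Agent.N218.D3.Defs

/-!
# Row 218, block D3 (helper51): the collapse along an open embedding preserves Thom classes
-/

set_option autoImplicit false
set_option linter.unusedVariables false
set_option linter.unusedSectionVars false

open Set Topology Filter OnePoint Module unitInterval Metric

noncomputable section

namespace Crest.Agent.N218.D3
open K

section oc
variable {A A' : Type} [TopologicalSpace A] [TopologicalSpace A'] {e : A' → A} {U : Set A}
  {e' : A → A'}

open Classical in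
/-- the collapse onto an open set -/
def oc (U : Set A) (e' : A → A') (a : A) : OnePoint A' := if a ∈ U then (e' a : A') else ∞

theorem oc_in {a : A} (h : a ∈ U) : oc U e' a = (e' a : A') := if_pos h
theorem oc_out {a : A} (h : a ∉ U) : oc U e' a = ∞ := if_neg h
theorem oc_eq {a : A} {n : A'} : oc U e' a = n ↔ a ∈ U ∧ e' a = n := by
  by_cases h : a ∈ U
  · simp [oc_in h, h]
  · simp [oc_out h, h]

theorem Oe.oc_ct [T2Space A] (h : Oe e U e') : Continuous (oc U e') := by
  rw [continuous_iff_continuousAt]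
  intro a
  by_cases o : a ∈ U
  · refine (continuous_coe.continuousAt.comp (h.ct'.continuousAt (h.op.mem_nhds o))).congr ?_
    filter_upwards [h.op.mem_nhds o] with b hb
    exact (oc_in hb).symm
  · rw [ContinuousAt, oc_out o, hasBasis_nhds_infty.tendsto_right_iff]
    rintro K ⟨-, k⟩
    have n : a ∉ e '' K := by rintro ⟨b, -, rfl⟩; exact o (h.mem b)
    filter_upwards [(k.image h.ct).isClosed.isOpen_compl.mem_nhds n] with b hb
    by_cases p : b ∈ U
    · exact .inl ⟨e' b, fun m => hb ⟨_, m, h.ri b p⟩, (oc_in p).symm⟩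
    · exact .inr (oc_out p)

theorem Oe.prod (h : Oe e U e') (C : Type) [TopologicalSpace C] :
    Oe (Prod.map e id : A' × C → A × C) (Prod.fst ⁻¹' U) (Prod.map e' id) :=
  ⟨h.ct.prodMap continuous_id, h.op.preimage continuous_fst,
    (h.ct'.comp continuous_fst.continuousOn fun _ o => o).prodMk continuous_snd.continuousOn,
    fun a => h.mem a.1, fun a => Prod.ext (h.li a.1) rfl, fun a o => Prod.ext (h.ri a.1 o) rfl⟩
end oc

variable {A A' : Type} [NormedAddCommGroup A] [NormedSpace ℝ A] [FiniteDimensional ℝ A]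
  [NormedAddCommGroup A'] [NormedSpace ℝ A'] [FiniteDimensional ℝ A'] {e : A' → A} {U : Set A}
  {e' : A → A'}

theorem sph_triv (γ : Unit) (w : OnePoint (tv A).Z) : (tv A).sph.act γ w = w := (tv A).sph.one w

theorem Oe.pm (h : Oe e U e') : Pm P0 (tv A) (tv A') fun x => oc U e' x.2 :=
  ⟨h.oc_ct.comp continuous_snd, fun K k => ⟨e '' K, k.image h.ct, fun p w w' n a m =>
    n ⟨w', m, by obtain ⟨o, rfl⟩ := oc_eq.1 a; exact h.ri w o⟩⟩,
    fun γ y w => (sph_triv γ _).symm⟩

/-- shrinking a ball -/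
def shr (a0 : A) (r t : ℝ) (a : A) : OnePoint A :=
  sc (max 0 ((1 - t) * (r - ‖a - (1 - t) • a0‖) + t), ((a - (1 - t) • a0 : A) : OnePoint A))

theorem shr_ct (a0 : A) {r : ℝ} (hr : 0 < r) : Continuous fun z : I × A => shr a0 r z.1 z.2 := by
  have : ProperSpace A := FiniteDimensional.proper_real _
  refine continuous_iff_continuousAt.2 fun z => (sc_at (E := A) fun c n => ?_).comp'
    (Continuous.continuousAt (Continuous.prodMk (by fun_prop)
      (continuous_coe.comp (by fun_prop))))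
  have n' := coe_injective n
  simp only [n', norm_zero, sub_zero] at c
  have t0 := z.1.2.1
  have t1 := z.1.2.2
  have := le_max_right 0 ((1 - (z.1 : ℝ)) * r + z.1)
  nlinarith [mul_nonneg (sub_nonneg.2 t1) hr.le]

theorem shr_one (a0 : A) (r : ℝ) (a : A) : shr a0 r 1 a = a := by simp [shr, sc_one]

theorem shr_pr (a0 : A) {ρ : ℝ} (hρ : 0 < ρ) :
    Prp fun z : (I × Unit) × A => shr a0 ρ z.1.1 z.2 := by
  have : ProperSpace A := FiniteDimensional.proper_real _
  intro K k
  obtain ⟨C, hC⟩ := k.isBounded.exists_norm_le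
  refine ⟨closedBall (0 : A) (‖a0‖ + (ρ + 1) * C), isCompact_closedBall _ _,
    fun p w w' n a i => n ?_⟩
  have e1 := coe_injective (sc_eq (E := A) a).2
  have t0 := p.1.2.1
  have t1 := p.1.2.2
  have c1 := hC w' i
  have c0 := (norm_nonneg _).trans c1
  have e2 : w = (1 - (p.1 : ℝ)) • a0 + _ := (sub_eq_iff_eq_add'.1 e1)
  have m1 : max 0 ((1 - (p.1 : ℝ)) * (ρ - ‖w - (1 - (p.1 : ℝ)) • a0‖) + p.1) ≤
      ρ + 1 := max_le (by linarith) (by
    nlinarith [norm_nonneg (w - (1 - (p.1 : ℝ)) • a0),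
      mul_nonneg (sub_nonneg.2 t1) (norm_nonneg (w - (1 - (p.1 : ℝ)) • a0))])
  rw [mem_closedBall_zero_iff, e2]
  refine (norm_add_le _ _).trans (add_le_add ?_ ?_)
  · rw [norm_smul, Real.norm_of_nonneg (sub_nonneg.2 t1)]
    nlinarith [norm_nonneg a0]
  · rw [norm_smul, Real.norm_of_nonneg (le_max_left _ _)]
    exact mul_le_mul m1 c1 (norm_nonneg _) (by linarith)

theorem Oe.th (S : SPH) (h : Oe e U e') (hd : finrank ℝ A' = finrank ℝ A)
    (he : Even (finrank ℝ A)) {F : H1 (sp A) (sp A')} (r : Rg F fun x => oc U e' x.2)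
    (l : KX (sp A').E) (hl : (sp A').Th l) : (sp A).Th (pull F.f l) := by
  have : ProperSpace A := FiniteDimensional.proper_real _
  obtain ⟨k, hk⟩ := he
  obtain ⟨g, tg, -, g1, g2, g3⟩ := S (A := A) k (by omega)
  obtain ⟨g', tg', -, g1', -, g3'⟩ := S (A := A') k (by omega)
  obtain ⟨ρ, hρ, hb⟩ := nhds_basis_closedBall.mem_iff.1 (h.op.mem_nhds (h.mem 0))
  have m : Pm P0 (tv A') (tv A) fun x => shr (A := A) (e 0) ρ 0 (e x.2) := by
    refine ⟨(shr_ct (e 0) hρ).comp ((continuous_const (y := (0 : I))).prodMk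
      (h.ct.comp continuous_snd)), fun K k => ⟨e' '' closedBall (e 0) ρ,
        (isCompact_closedBall _ _).image_of_continuousOn (h.ct'.mono hb),
        fun p w w' n a _ => n ⟨e w, ?_, h.li w⟩⟩, fun γ y w => (sph_triv γ _).symm⟩
    have := (sc_eq (E := A) a).1
    rw [mem_closedBall, dist_eq_norm]
    by_contra o
    refine this (max_eq_left ?_)
    simp only [sub_zero, one_smul, one_mul, add_zero]
    linarith [not_le.1 o]
  obtain ⟨G, rG⟩ := m.exists_rg
  have H : Pm (IY P0) (tv A) (tv A) fun x => shr (A := A) (e 0) ρ x.1.1 x.2 := by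
    exact ⟨(shr_ct (e 0) hρ).comp (continuous_fst.fst.prodMk continuous_snd), shr_pr (e 0) hρ,
      fun γ y w => (sph_triv γ _).symm⟩
  have ht : (F.cm G).Ht ⟨ContinuousMap.id _, fun _ => rfl, fun _ => rfl⟩ := by
    refine H.ht (fun y w => (Rg.cm r rG y w).trans (congrArg _ ?_)) fun y w => congrArg (pt P0 (tv A) y) ?_
    · change opx (fun x : P0.Z × A' => shr (A := A) (e 0) ρ 0 (e x.2)) (y, oc U e' w) =
        shr (A := A) (e 0) ρ 0 w
      by_cases o : (show A from w) ∈ U
      · rw [oc_in o]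
        exact congrArg (shr (A := A) (e 0) ρ 0) (h.ri w o)
      · rw [oc_out o]
        unfold shr
        rw [max_eq_left, sc_zero]
        · rfl
        · have : ¬ ‖(show A from w) - e 0‖ ≤ ρ := fun i => o (hb (mem_closedBall_iff_norm.2 i))
          simp only [sub_zero, one_smul, one_mul, add_zero]
          linarith [not_le.1 this]
    · exact (shr_one (A := A) (e 0) ρ w).symm
  have e1 : pull F.f (pull G.f g) = g :=
    (pull_cm F.f G.f g).symm.trans ((DFunLike.congr_fun ht.pull_eq g).trans (pull_id g))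
  obtain ⟨a, ha⟩ := g1' _ (Ex.Rd.hm G tg.1)
  obtain ⟨b, hb'⟩ := g1 _ (Ex.Rd.hm F tg'.1)
  rw [ha, map_zsmul, hb', smul_smul] at e1
  have e2 : a * b = 1 := sub_eq_zero.1 (g2 _ (by rw [sub_smul, e1, one_smul, sub_self]))
  rw [g3]
  rcases (g3' l).1 hl with rfl | rfl <;> rcases Int.eq_one_or_neg_one_of_mul_eq_one' e2 with
    ⟨-, rfl⟩ | ⟨-, rfl⟩ <;> simp [hb']

theorem opn (S : SPH) : OPN := by
  intro A _ _ _ A' _ _ _ e U e' h hd
  obtain ⟨F, r⟩ := h.pm.exists_rg
  obtain ⟨F', r'⟩ := (h.prod ℝ).pm.exists_rg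
  refine ⟨_, F, F', h.pm, r, fun x n => oc_eq, fun z t => ?_, fun he => h.th S hd he r,
    fun ho l hl => (h.prod ℝ).th S (by simp [hd]) (by simpa using ho.add_one) r' l hl⟩
  obtain ⟨y, w, rfl⟩ := pt_surj z
  rw [r.opx, sd_c, sd_c]
  refine (r'.opx y _).trans (congrArg _ ?_)
  induction w using OnePoint.rec with
  | infty => rfl
  | coe w =>
    induction thI t using OnePoint.rec with
    | infty => exact (wdg_r _).symm
    | coe x =>
      change oc (Prod.fst ⁻¹' U) (Prod.map e' id) ((w, x) : A × ℝ) = wdg (oc U e' w, (x : ℝ))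
      by_cases o : (show A from w) ∈ U
      · rw [oc_in o, oc_in (show ((w, x) : A × ℝ) ∈ Prod.fst ⁻¹' U from o)]; rfl
      · rw [oc_out o, oc_out (show ((w, x) : A × ℝ) ∉ Prod.fst ⁻¹' U from o)]; rfl

end Crest.Agent.N218.D3

end
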