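import Crest.Agent.N218.D3.Defs

/-!
# Row 218, block D3 (helper16): pushing the zeros off a thin set
-/

set_option autoImplicit false

open Set Module

noncomputable section

namespace Crest.Agent.N218.D3

namespace Pert

theorem glob {E W : Type} [NormedAddCommGroup E] [NormedSpace ℝ E] [FiniteDimensional ℝ E]
    [NormedAddCommGroup W] [NormedSpace ℝ W] [FiniteDimensional ℝ W]
    (h : finrank ℝ E < finrank ℝ W) {B : Set E} (c : IsClosed B) {f : E → W}
    (hf : ContinuousOn f B) {ε : ℝ} (hε : 0 < ε) :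
    ∃ u : E → W, Continuous u ∧ (∀ y, ‖u y‖ < ε) ∧ ∀ y ∈ B, f y + u y ≠ 0 := by
  have := TietzeExtension.of_tvs ℝ (E := W)
  obtain ⟨F, hF⟩ := ContinuousMap.exists_restrict_eq c ⟨B.domRestrict f, hf.domRestrict⟩
  obtain ⟨p, p1, p2, -⟩ := F.continuous.exists_contDiff_approx 1 (ε := fun _ => ε / 2)
    continuous_const fun _ => half_pos hε
  obtain ⟨w, w1, w2⟩ := (ContDiff.dense_compl_range_of_finrank_lt_finrank p1 h).exists_mem_open
    Metric.isOpen_ball (Metric.nonempty_ball.2 (half_pos hε) : (Metric.ball (0 : W) _).Nonempty)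
  refine ⟨fun y => p y - F y - w, (p1.continuous.sub F.continuous).sub continuous_const,
    fun y => ?_, fun y hy e => w1 ⟨y, ?_⟩⟩
  · have a := p2 y
    rw [dist_eq_norm] at a
    exact (norm_sub_le _ _).trans_lt (by linarith [mem_ball_zero_iff.1 w2])
  · have k : F y = f y := congrArg (fun u : C(B, W) => u ⟨y, hy⟩) hF
    rw [← sub_eq_zero, ← e, ← k]; beta_reduce; abel

end Pert

theorem pert : PERT := by
  intro A _ _ _ B _ _ _ E _ _ _ p U δ' δ hd hp hU c' c hδ
  have := FiniteDimensional.proper_real A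
  obtain ⟨K0, k1, k2, k3⟩ := exists_compact_between hp.cp hp.op fun _ h => h.1
  obtain ⟨φ, φ1, φ2, φ3, φ4⟩ := exists_continuousMap_one_of_isCompact_subset_isOpen k1 hp.op k3
  have KO : K0 ⊆ tsupport φ := fun y hy => subset_tsupport _ (by simp [φ1 hy])
  obtain ⟨m, m0, hm⟩ : ∃ m > 0, ∀ x ∈ tsupport φ \ interior K0, m ≤ ‖p.2 x‖ := by
    rcases (tsupport φ \ interior K0).eq_empty_or_nonempty with e | ne
    · exact ⟨1, one_pos, by simp [e]⟩
    · obtain ⟨x, hx, k⟩ := (φ2.diff isOpen_interior).exists_isMinOn ne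
        (hp.ct.mono fun _ h => φ3 h.1).norm
      exact ⟨_, norm_pos_iff.2 fun e => hx.2 (k2 ⟨φ3 hx.1, e⟩), fun y hy => k hy⟩
  have s : tsupport φ \ U ⊆ p.1 \ U := diff_subset_diff_left φ3
  obtain ⟨u, u1, u2, u3⟩ := Pert.glob hd
    ((φ2.diff hU).image_of_continuousOn (c'.mono fun _ h => φ3 h.1)).isClosed (f := p.2 ∘ δ)
    (hp.ct.comp (c.mono (image_mono s)) (by
      rintro _ ⟨a, ha, rfl⟩
      rw [hδ a (s ha)]; exact φ3 ha.1)) m0
  have z : ∀ a ∉ tsupport φ, p.2 a + φ a • u (δ' a) = p.2 a := fun a ha => by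
    simp [image_eq_zero_of_notMem_tsupport ha]
  refine ⟨fun a => p.2 a + φ a • u (δ' a), tsupport φ, φ2, φ3,
    hp.ct.add (φ.continuous.continuousOn.smul (u1.comp_continuousOn c')),
    fun a ha e => KO (interior_subset (k2 ⟨ha, e⟩)), z, fun a ha e => by_contra fun n => ?_⟩
  beta_reduce at e
  by_cases k : a ∈ tsupport φ
  · by_cases k' : a ∈ interior K0
    · refine u3 _ ⟨a, ⟨k, n⟩, rfl⟩ ?_
      rw [φ1 (interior_subset k'), Pi.one_apply, one_smul] at e
      rwa [Function.comp_apply, hδ a ⟨ha, n⟩]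
    · have b := hm a ⟨k, k'⟩
      rw [eq_neg_of_add_eq_zero_left e, norm_neg, norm_smul, Real.norm_of_nonneg (φ4 a).1] at b
      exact (u2 _).not_ge (b.trans (mul_le_of_le_one_left (norm_nonneg _) (φ4 a).2))
  · exact k (KO (interior_subset (k2 ⟨ha, (z a k).symm.trans e⟩)))

end Crest.Agent.N218.D3

end
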