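import Crest.Agent.N218.D3.Defs

/-!
# Row 218, block D3 (helper5): the push-forward of the `d`-invariant
-/

set_option autoImplicit false
set_option linter.unusedVariables false
set_option linter.unusedSectionVars false

open Set Module unitInterval Topology

noncomputable section

namespace Crest.Agent.N218.D3
open K

namespace Pu

section plain
variable {A B : Type} [TopologicalSpace A] [T2Space A] [TopologicalSpace B] [T1Space B] [Zero B]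

/-- a homotopy on a fixed open set with zeros in a fixed compact set -/
theorem hb_fam {p q : Pp A B} (h : ℝ × A → B) {K : Set A} (op : IsOpen p.1) (e : q.1 = p.1)
    (ct : ContinuousOn h (Prod.snd ⁻¹' p.1)) (k : IsCompact K) (s : K ⊆ p.1)
    (z : ∀ t, ∀ a ∈ p.1, h (t, a) = 0 → a ∈ K) (h0 : ∀ a ∈ p.1, h (0, a) = p.2 a)
    (h1 : ∀ a ∈ p.1, h (1, a) = q.2 a) : Okp p ∧ Okp q ∧ Sh.Hb p q := by
  have c : ∀ t, ContinuousOn (fun a => h (t, a)) p.1 := fun t =>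
    ct.comp (continuous_const.prodMk continuous_id).continuousOn fun _ i => i
  have c0 : ContinuousOn p.2 p.1 := (c 0).congr fun a i => (h0 a i).symm
  have c1 : ContinuousOn q.2 p.1 := (c 1).congr fun a i => (h1 a i).symm
  refine ⟨⟨op, c0, cp_of_sub k s c0 fun a i j => z 0 a i ((h0 a i).trans j)⟩,
    ⟨e ▸ op, e ▸ c1, e ▸ cp_of_sub k s c1 fun a i j => z 1 a i ((h1 a i).trans j)⟩,
    Prod.snd ⁻¹' p.1, h, op.preimage continuous_snd, ct, ?_, fun a i => ⟨i, h0 a i⟩,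
    fun a i _ => i, fun a i => ⟨e ▸ i, h1 a i⟩, fun a i _ => (e ▸ i : a ∈ p.1)⟩
  have := cp_of_sub (O := {w : ℝ × A | w.2 ∈ p.1 ∧ w.1 ∈ Icc (0 : ℝ) 1}) (f := h)
    (isCompact_Icc.prod k) (fun w i => ⟨s i.2, i.1⟩) (ct.mono fun w i => i.1)
    fun w i j => ⟨i.2, z w.1 w.2 i.1 j⟩
  simpa only [mem_ofPred_eq, mem_preimage, and_assoc] using this

end plain

variable {Γ : Type} [Group Γ] [TopologicalSpace Γ] {X₁ V₁ Z X₂ V₂ : Rep Γ} (T : Tp X₁ V₁ Z X₂ V₂)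

theorem G_zero {x : X₁.W} (h : x ∈ T.U₁) {v : V₁.W} {z : Z.W} (e : T.G x (v, z) = 0) :
    v = 0 ∧ z = 0 := Prod.mk_eq_zero.1 ((T.bG x h).1 (e.trans (map_zero _).symm))

section fam
variable {S : Type} [TopologicalSpace S]

theorem op_tr {O : Set (X₁.W × S)} (h : IsOpen O) :
    IsOpen {z : X₂.W × S | z.1 ∈ T.U₂ ∧ ((T.i z.1).1, z.2) ∈ O} :=
  ((T.ci.comp continuousOn_fst fun _ i => i).fst.prodMk continuousOn_snd).isOpen_inter_preimage
    (s := Prod.fst ⁻¹' T.U₂) (T.o₂.preimage continuous_fst) h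

theorem ct_i : ContinuousOn (fun z : X₂.W × S => T.i z.1) {z | z.1 ∈ T.U₂} :=
  T.ci.comp continuousOn_fst fun _ i => i

theorem ct_pl {E : Type} [TopologicalSpace E] {O : Set (X₁.W × S)} {f : X₁.W × S → E}
    (h : ContinuousOn f O) : ContinuousOn (fun z : X₂.W × S => f ((T.i z.1).1, z.2))
      {z : X₂.W × S | z.1 ∈ T.U₂ ∧ ((T.i z.1).1, z.2) ∈ O} :=
  h.comp (((ct_i T).mono fun _ i => i.1).fst.prodMk continuousOn_snd) fun _ i => i.2

theorem ct_tr {O : Set (X₁.W × S)} {f : X₁.W × S → V₁.W} (h : ContinuousOn f O) :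
    ContinuousOn (fun z : X₂.W × S => T.G (T.i z.1).1 (f ((T.i z.1).1, z.2), (T.i z.1).2))
      {z : X₂.W × S | z.1 ∈ T.U₂ ∧ ((T.i z.1).1, z.2) ∈ O} :=
  (T.cG.comp ((ct_i T).mono fun _ i => i.1).fst fun z i => (T.mi _ i.1).1).clm_apply
    ((ct_pl T h).prodMk ((ct_i T).mono fun _ i => i.1).snd)

/-- the zero section over a set -/
def zs (K : Set (X₁.W × S)) : Set (X₂.W × S) := (fun z => (T.j (z.1, 0), z.2)) '' K

theorem zs_cp {K : Set (X₁.W × S)} (h : IsCompact K) (s : ∀ z ∈ K, z.1 ∈ T.U₁) :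
    IsCompact (zs T K) :=
  h.image_of_continuousOn ((T.cj.comp (continuousOn_fst.prodMk continuousOn_const)
    fun z i => ⟨s z i, trivial⟩).prodMk continuousOn_snd)

theorem zs_sub {K O : Set (X₁.W × S)} (h : K ⊆ O) (s : ∀ z ∈ O, z.1 ∈ T.U₁) :
    zs T K ⊆ {z : X₂.W × S | z.1 ∈ T.U₂ ∧ ((T.i z.1).1, z.2) ∈ O} := by
  rintro _ ⟨z, i, rfl⟩
  obtain ⟨a, b⟩ := T.mj (z.1, 0) (s z (h i))
  refine ⟨a, ?_⟩
  change ((T.i (T.j (z.1, 0))).1, z.2) ∈ O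
  rw [b]; exact h i

theorem mem_zs {K : Set (X₁.W × S)} {z : X₂.W × S} (h : z.1 ∈ T.U₂) (e : (T.i z.1).2 = 0)
    (k : ((T.i z.1).1, z.2) ∈ K) : z ∈ zs T K :=
  ⟨_, k, Prod.ext (by rw [← e]; exact (T.mi _ h).2) rfl⟩

variable [LocallyCompactSpace S] [T2Space S]

/-- transport of a family -/
def trf (H : PB (X₁.ls.prod (LS.triv Γ S)) V₁) : PB (X₂.ls.prod (LS.triv Γ S)) V₂ :=
  PB.fam (X := X₂.ls) {z : X₂.W × S | z.1 ∈ T.U₂ ∧ ((T.i z.1).1, z.2) ∈ H.O}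
    fun z => T.G (T.i z.1).1 (H.f ((T.i z.1).1, z.2), (T.i z.1).2)

theorem trf_ok {H : PB (X₁.ls.prod (LS.triv Γ S)) V₁} (h : H.Ok (Prod.fst ⁻¹' X₁.ls.fr))
    (s : ∀ z ∈ H.O, z.1 ∈ T.U₁) : (trf T H).Ok (Prod.fst ⁻¹' X₂.ls.fr) := by
  refine PB.fam_ok (op_tr T h.op) (fun g x t i => ⟨(T.ei g x i.1).1, ?_⟩) (ct_tr T h.ct)
    (fun g x t i => ?_) (cp_of_sub (zs_cp T h.cp fun z i => s z i.1) (zs_sub T (fun _ i => i.1) s)
      (ct_tr T h.ct) fun z i e => ?_) fun x t i e g k => ?_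
  · change ((T.i (X₂.ρ g x)).1, t) ∈ H.O
    rw [(T.ei g x i.1).2]
    exact h.inv g _ i.2
  · change T.G (T.i (X₂.ρ g x)).1 (H.f ((T.i (X₂.ρ g x)).1, t), (T.i (X₂.ρ g x)).2) = _
    rw [(T.ei g x i.1).2, ← T.eG g _ (T.mi x i.1).1]
    exact congrArg (fun v => T.G _ (v, _)) (h.eq g _ i.2)
  · have := G_zero T (T.mi _ i.1).1 e
    exact mem_zs T i.1 this.2 ⟨i.2, this.1⟩
  · have a := (T.ei g x i.1).2
    rw [show X₂.ρ g x = x from k] at a
    exact h.fr (a := ((T.i x).1, t)) ⟨i.2, (G_zero T (T.mi _ i.1).1 e).1⟩ g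
      (congrArg Prod.fst a).symm

end fam

theorem tr_fr {P : PB X₁.ls V₁} (h : P.Fr) (s : P.O ⊆ T.U₁) : (T.tr P).Fr :=
  (trf_ok T (S := Unit) (H := PB.fam (Prod.fst ⁻¹' P.O) fun z => P.f z.1)
    (PB.fam_ok (h.op.preimage continuous_fst) (fun g x _ => h.inv g x)
      (h.ct.comp continuousOn_fst fun _ a => a) (fun g x _ => h.eq g x)
      ((h.cp.prod isCompact_univ).of_isClosed_subset (h.cp.isClosed.preimage continuous_fst)
        fun _ a => ⟨a, trivial⟩) fun x _ o z => h.fr ⟨o, z⟩) fun z i => s i).sl ()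

theorem tr_le {P Q : PB X₁.ls V₁} (h : P.Le Q) : (T.tr P).Le (T.tr Q) :=
  ⟨fun x i => ⟨i.1, h.sub i.2⟩, fun x i => congrArg (fun v => T.G _ (v, _)) (h.eq _ i.2),
    fun x i => ⟨i.1.1, h.z ⟨i.1.2, (G_zero T (T.mi _ i.1.1).1 i.2).1⟩⟩⟩

theorem tr_lift {P : PB X₁.ls V₁} {U : Rep Γ} {k : X₁.W → U.W} (l : P.Lift U k) :
    (T.tr P).Lift U fun x => k (T.i x).1 :=
  ⟨l.ct.comp (T.ci.mono fun _ i => i.1).fst fun _ i => i.2, fun g x i => by
    change k (T.i (X₂.ρ g x)).1 = _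
    rw [(T.ei g x i.1).2]
    exact l.eq g _ i.2,
    fun x i => l.nz _ ⟨i.1.2, (G_zero T (T.mi _ i.1.1).1 i.2).1⟩⟩

variable {C : Type} [NormedAddCommGroup C] [NormedSpace ℝ C] [FiniteDimensional ℝ C]

/-- transport of plain problems -/
def tq (p : Pp (X₁.W × ℝ) (V₁.W × C)) : Pp (X₂.W × ℝ) (V₂.W × C) :=
  ({z | z.1 ∈ T.U₂ ∧ ((T.i z.1).1, z.2) ∈ p.1}, fun z =>
    (T.G (T.i z.1).1 ((p.2 ((T.i z.1).1, z.2)).1, (T.i z.1).2), (p.2 ((T.i z.1).1, z.2)).2))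

theorem tq_zero {p : Pp (X₁.W × ℝ) (V₁.W × C)} {z : X₂.W × ℝ} (i : z.1 ∈ T.U₂)
    (e : (tq T p).2 z = 0) : p.2 ((T.i z.1).1, z.2) = 0 ∧ (T.i z.1).2 = 0 :=
  have := G_zero T (T.mi _ i).1 (congrArg Prod.fst e)
  ⟨Prod.ext this.1 (congrArg Prod.snd e :), this.2⟩

/-- the straight-line homotopy and its transport -/
theorem tq_hb {O K : Set (X₁.W × ℝ)} {f g : X₁.W × ℝ → V₁.W × C} (op : IsOpen O)
    (s : ∀ z ∈ O, z.1 ∈ T.U₁) (cf : ContinuousOn f O) (cg : ContinuousOn g O) (k : IsCompact K)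
    (sK : K ⊆ O) (z : ∀ a ∈ O, g a = 0 → a ∈ K) (e : ∀ a ∉ K, f a = g a) :
    (Okp (O, f) ∧ Okp (O, g) ∧ Sh.Hb (O, f) (O, g)) ∧
      Okp (tq T (O, f)) ∧ Okp (tq T (O, g)) ∧ Sh.Hb (tq T (O, f)) (tq T (O, g)) := by
  let h : ℝ × X₁.W × ℝ → V₁.W × C := fun w => (1 - w.1) • f w.2 + w.1 • g w.2
  have ch : ContinuousOn h (Prod.snd ⁻¹' O) :=
    ((continuousOn_const.sub continuousOn_fst).smul (cf.comp continuousOn_snd fun _ a => a)).add
      (continuousOn_fst.smul (cg.comp continuousOn_snd fun _ a => a))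
  have zh : ∀ t, ∀ a ∈ O, h (t, a) = 0 → a ∈ K := fun t a i j => by_contra fun n => n (z a i (by
    simp only [h, e a n, ← add_smul, sub_add_cancel, one_smul] at j; exact j))
  have h0 : ∀ a, h (0, a) = f a := fun a => by simp [h]
  have h1 : ∀ a, h (1, a) = g a := fun a => by simp [h]
  refine ⟨hb_fam h op rfl ch k sK zh (fun a _ => h0 a) fun a _ => h1 a,
    hb_fam (fun w => (tq T (O, fun a => h (w.1, a))).2 w.2) (op_tr T op) rfl ?_
      (zs_cp T k fun z i => s z (sK i)) (zs_sub T sK s) (fun t a i j => ?_)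
      (fun a _ => by simp only [tq, h0]) fun a _ => by simp only [tq, h1]⟩
  · have c : ContinuousOn (fun w : X₁.W × ℝ × ℝ => h (w.2.1, w.1, w.2.2)) {w | (w.1, w.2.2) ∈ O} :=
      ch.comp (Continuous.continuousOn (by fun_prop)) fun _ a => a
    exact ((ct_tr T c.fst).prodMk (ct_pl T c.snd)).comp
      (f := fun w : ℝ × X₂.W × ℝ => ((w.2.1, w.1, w.2.2) : X₂.W × ℝ × ℝ))
      (Continuous.continuousOn (by fun_prop)) fun _ a => a
  · have := tq_zero T i.1 j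
    exact mem_zs T i.1 this.2 (zh t _ i.2 this.1)

/-- the degree of a problem with zeros in a chart is preserved -/
theorem tq_dg (D : DEG) {p : Pp (X₁.W × ℝ) (V₁.W × C)} (h : Okp p) (h' : Okp (tq T p))
    (s : ∀ z ∈ p.1, z.1 ∈ T.U₁) {e : X₁.W → X₁.W} {U : Set X₁.W} {e' : X₁.W → X₁.W}
    (E : Oe e U e') (sU : U ⊆ T.U₁) (z : ∀ a ∈ p.1, p.2 a = 0 → a.1 ∈ U)
    (dA : Even (finrank ℝ (X₁.W × ℝ))) (dB : Even (finrank ℝ (V₁.W × C)))
    (dZ : Even (finrank ℝ Z.W)) (d2 : finrank ℝ X₁.W + finrank ℝ Z.W = finrank ℝ X₂.W) :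
    ∃ n, Dg0 p n ∧ Dg0 (tq T p) n := by
  have m : ∀ a, e a ∈ T.U₁ := fun a => sU (E.mem a)
  have c1 : Continuous fun a : X₁.W × ℝ => (e a.1, a.2) :=
    (E.ct.comp continuous_fst).prodMk continuous_snd
  have E1 : Oe (fun a : X₁.W × ℝ => (e a.1, a.2)) (Prod.fst ⁻¹' U) fun a => (e' a.1, a.2) :=
    ⟨c1, E.op.preimage continuous_fst,
      (E.ct'.comp continuousOn_fst fun _ i => i).prodMk continuousOn_snd, fun a => E.mem a.1,
      fun a => Prod.ext (E.li a.1) rfl, fun a i => Prod.ext (E.ri a.1 i) rfl⟩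
  have ij : ∀ (a : X₁.W) (w : Z.W), T.i (T.j (e a, w)) = (e a, w) := fun a w => (T.mj _ (m a)).2
  have E2 : Oe (fun w : (X₁.W × ℝ) × Z.W => (T.j (e w.1.1, w.2), w.1.2))
      {z : X₂.W × ℝ | z.1 ∈ T.U₂ ∧ ((T.i z.1).1, z.2) ∈ Prod.fst ⁻¹' U}
      fun z => ((e' (T.i z.1).1, z.2), (T.i z.1).2) :=
    ⟨(T.cj.comp_continuous ((E.ct.comp continuous_fst.fst).prodMk continuous_snd)
        fun w => ⟨m _, trivial⟩).prodMk continuous_fst.snd, op_tr T E1.op,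
      (ct_pl T E1.ct').prodMk ((ct_i T).mono fun _ i => i.1).snd,
      fun w => ⟨(T.mj _ (m _)).1, by simp only [ij]; exact E.mem _⟩,
      fun w => by simp only [ij, E.li], fun w i => Prod.ext (by
        change T.j (e (e' (T.i w.1).1), (T.i w.1).2) = w.1
        rw [E.ri _ i.2]; exact (T.mi _ i.1).2) rfl⟩
  let q := cm p univ fun a : X₁.W × ℝ => (e a.1, a.2)
  let K := (fun a : X₁.W × ℝ => (e' a.1, a.2)) '' {a | a ∈ p.1 ∧ p.2 a = 0}
  have kK : IsCompact K := h.cp.image_of_continuousOn (E1.ct'.mono fun a i => z a i.1 i.2)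
  have sK : K ⊆ q.1 := by
    rintro _ ⟨a, i, rfl⟩
    exact ⟨trivial, Set.mem_of_eq_of_mem (E1.ri a (z a i.1 i.2)) i.1⟩
  have zK : ∀ a ∈ q.1, q.2 a = 0 → a ∈ K := fun a i j => ⟨_, ⟨i.2, j⟩, E1.li a⟩
  have oq : IsOpen q.1 := isOpen_univ.inter (h.op.preimage c1)
  have cq : ContinuousOn q.2 q.1 := h.ct.comp c1.continuousOn fun _ i => i.2
  have hq : Okp q := ⟨oq, cq, cp_of_sub kK sK cq zK⟩
  have c2 : ContinuousOn (fun w : (X₁.W × ℝ) × Z.W => q.2 w.1) (st q Z.W).1 :=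
    cq.comp continuousOn_fst fun _ i => i
  have k2 : IsCompact (K ×ˢ ({0} : Set Z.W)) := kK.prod isCompact_singleton
  have hs : Okp (st q Z.W) := ⟨oq.preimage continuous_fst, c2.prodMk continuousOn_snd,
    cp_of_sub k2 (fun w i => sK i.1) (c2.prodMk continuousOn_snd) fun w i j =>
      ⟨zK _ i (congrArg Prod.fst j), congrArg Prod.snd j⟩⟩
  let G0 : (V₁.W × Z.W) ≃L[ℝ] V₂.W :=
    (LinearEquiv.ofBijective (T.G (e 0)).toLinearMap (T.bG _ (m 0))).toContinuousLinearEquiv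
  let L : ((V₁.W × C) × Z.W) ≃L[ℝ] (V₂.W × C) :=
    (((ContinuousLinearEquiv.prodAssoc ℝ _ _ _).trans ((ContinuousLinearEquiv.refl ℝ _).prodCongr
      (ContinuousLinearEquiv.prodComm ℝ _ _))).trans
        (ContinuousLinearEquiv.prodAssoc ℝ _ _ _).symm).trans
      (G0.prodCongr (ContinuousLinearEquiv.refl ℝ _))
  have hL : ∀ w, L w = (T.G (e 0) (w.1.1, w.2), w.1.2) := fun w => rfl
  obtain ⟨n, hn⟩ := D.ex q dA dB
  obtain ⟨a, b, c⟩ := hb_fam (p := tg (st q Z.W) L)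
    (q := cm (tq T p) univ fun w : (X₁.W × ℝ) × Z.W => (T.j (e w.1.1, w.2), w.1.2))
    (fun w => (T.G (e (w.1 • w.2.1.1)) ((q.2 w.2.1).1, w.2.2), (q.2 w.2.1).2)) hs.op
    (Set.ext fun w => by
      simp only [cm, tq, tg, st, q, mem_ofPred_eq, ij, (T.mj (e w.1.1, w.2) (m _)).1, true_and, mem_univ])
    (((T.cG.comp_continuous (E.ct.comp (by fun_prop)) fun w => m _).continuousOn.clm_apply
      ((c2.comp continuousOn_snd fun _ i => i).fst.prodMk continuousOn_snd.snd)).prodMk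
      (c2.comp continuousOn_snd fun _ i => i).snd) k2 (fun w i => sK i.1)
    (fun t w i j => have := G_zero T (m _) (congrArg Prod.fst j)
      ⟨zK _ i (Prod.ext this.1 (congrArg Prod.snd j :)), this.2⟩)
    (fun w _ => by simp only [zero_smul]; rfl)
    fun w _ => by simp only [one_smul, cm, tq, q, ij]
  have d3 : finrank ℝ ((X₁.W × ℝ) × Z.W) = finrank ℝ (X₂.W × ℝ) := by
    simp only [finrank_prod, finrank_self]; omega
  refine ⟨n, D.emb _ _ _ p n E1 rfl dA h z hn, D.emb _ _ _ _ n E2 d3 ?_ h' (fun w i j => ?_)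
    (D.hb _ _ n a b c (D.tg L _ n hs (D.st q n dA dB dZ hq hn)))⟩
  · rw [← d3, finrank_prod]; exact dA.add dZ
  · exact ⟨i.1, z _ i.2 (tq_zero T i.1 j).1⟩

theorem adm_dim {m : ℕ} {X V : Rep Γ} (h : Adm m X V) : finrank ℝ X.W = m + finrank ℝ V.W := by
  obtain ⟨A⟩ := h
  rw [A.e.toLinearEquiv.finrank_eq]
  exact (finrank_prod (R := ℝ) (M := Fin m → ℝ) (M' := V.W)).trans (by simp)

theorem th_ok [CompactSpace Γ] {χ : Γ →* Circle} (hχ : Continuous χ) {X V : Rep Γ} {P : PB X.ls V}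
    (h : P.Fr) {k : X.W → Fin 3 → ℂ} (l : P.Lift (UU χ hχ 3) k) (u : US 3) : Okp (th P k u.1) :=
  have a : (Tc χ hχ 3 P k).Ok := PB.Th_ok h l continuous_subtype_val (fun _ _ => rfl) fun u z => by
    have := u.2
    simp [Un1, show u.1 = 0 from z] at this
  have c : IsClosedEmbedding fun x : X.W × ℝ => (u, x) :=
    Function.LeftInverse.isClosedEmbedding (f := Prod.snd) (fun _ => rfl) continuous_snd
      (continuous_const.prodMk continuous_id)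
  ⟨a.op.preimage c.continuous, a.ct.comp c.continuous.continuousOn fun _ i => i,
    c.isCompact_preimage a.cp⟩

end Pu

open Pu in
/-- **push-forward** -/
theorem push (cle : CLE) (dv : DVAL) (D : DEG) (pe : PERT) : PUSH := by
  intro J hJ Γ _ _ _ _ χ X₁ V₁ Z X₂ V₂ gq a1 a2 c1 c2 eV eZ T hc P hP sP
  obtain ⟨e, U, e', n, δ', δ, E, sU, hn, cδ', cδ, hδ⟩ := hc
  have d1 := adm_dim a1
  have d2 := adm_dim a2
  have d3 : finrank ℝ V₁.W + finrank ℝ Z.W = finrank ℝ V₂.W := by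
    rw [← finrank_prod]
    exact (LinearEquiv.ofBijective (T.G (e 0)).toLinearMap (T.bG _ (sU (E.mem 0)))).finrank_eq
  have dC : finrank ℝ (Fin 3 → ℂ) = 6 := by simp [finrank_pi_fintype]
  obtain ⟨P', k, H, f', eO, eH, oH, l0, l1, lk⟩ := cle χ 3 X₁ V₁ (by omega) P hP
  have sP' : P'.O ⊆ T.U₁ := eO ▸ sP
  have b1 : P.Bd P' := ⟨hP, f', H, oH, l0, l1⟩
  have b2 : (T.tr P).Bd (T.tr P') := ⟨tr_fr T hP sP, tr_fr T f' sP', trf T H,
    trf_ok T oH fun z i => sP (show z ∈ Prod.fst ⁻¹' P.O from eH ▸ i), tr_le T l0, tr_le T l1⟩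
  let u : US 3 := ⟨Pi.single 0 1, by simp [Un1, Fin.sum_univ_three]⟩
  have o := th_ok (cc χ) f' lk u
  obtain ⟨f, K, kK, sK, cf, zK, eK, zf⟩ := pe (th P' k u.1) (Prod.fst ⁻¹' U)
    (fun a => (δ' a.1, a.2)) (fun y : (Fin n → ℝ) × ℝ => (δ y.1, y.2))
    (by simp only [finrank_prod, finrank_self, dC, finrank_fin_fun]; omega) o
    (E.op.preimage continuous_fst)
    ((cδ'.comp continuousOn_fst fun a i => sP' i).prodMk continuousOn_snd)
    ((cδ.comp continuousOn_fst (by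
      rintro _ ⟨a, i, rfl⟩; exact ⟨a.1, ⟨sP' i.1, i.2⟩, rfl⟩)).prodMk continuousOn_snd)
    fun a i => Prod.ext (hδ _ ⟨sP' i.1, i.2⟩) rfl
  obtain ⟨⟨p1, p2, p3⟩, q1, q2, q3⟩ := tq_hb T o.op (fun z i => sP' i) cf o.ct kK sK zK eK
  obtain ⟨m, m1, m2⟩ := tq_dg T D p1 q1 (fun z i => sP' i) E sU zf
    (by rw [finrank_prod, finrank_self, d1, add_right_comm]; exact Even.add (by decide) eV)
    (by rw [finrank_prod, dC]; exact eV.add (by decide)) eZ (by omega)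
  have r1 := dv J hJ χ X₁ V₁ gq a1 c1 P' k u m f' lk (D.hb _ _ m p1 p2 p3 m1)
  have r2 := dv J hJ χ X₂ V₂ gq a2 c2 (T.tr P') _ u m b2.2.1 (tr_lift T lk) (D.hb _ _ m q1 q2 q3 m2)
  refine ⟨b2.1, ?_⟩
  rw [J.bd χ _ _ gq a1 _ _ b1, J.bd χ _ _ gq a2 _ _ b2]
  rcases r1 with r1 | r1 <;> rcases r2 with r2 | r2 <;> simp [r1, r2]

end Crest.Agent.N218.D3

end
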