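import Crest.Agent.N218.D3.Geo
import Crest.Agent.N218.K.Cx1
import Crest.Agent.N218.K.Cx2

/-!
# Row 218, block D3 (helper89): the representations
-/

set_option autoImplicit false
set_option linter.unusedVariables false

open Set Module

noncomputable section

namespace Crest.Agent.N218.D3
open K In Sh

namespace Rp
variable {A B C D E : Type} [NormedAddCommGroup A] [NormedSpace ℝ A] [FiniteDimensional ℝ A]
  [NormedAddCommGroup B] [NormedSpace ℝ B] [FiniteDimensional ℝ B]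
  [NormedAddCommGroup C] [NormedSpace ℝ C] [FiniteDimensional ℝ C]
  [NormedAddCommGroup D] [NormedSpace ℝ D] [FiniteDimensional ℝ D]
  [NormedAddCommGroup E] [NormedSpace ℝ E] [FiniteDimensional ℝ E] {k : ℕ}

theorem adm3 {m : ℕ} (h : finrank ℝ (A × B) = m + finrank ℝ (C × D)) :
    Adm m ((Rep.triv (Gk k) A).prod (XX B k E)) ((XX C k E).prod (Rep.triv (Gk k) D)) :=
  ⟨⟨(ContinuousLinearEquiv.prodAssoc ℝ A B (Pm.V k E)).symm.trans
    (((ContinuousLinearEquiv.ofFinrankEq (E := A × B) (F := (Fin m → ℝ) × C × D)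
      (by simpa using h)).prodCongr (.refl ℝ (Pm.V k E))).trans
    ((ContinuousLinearEquiv.prodAssoc ℝ _ _ _).trans ((ContinuousLinearEquiv.refl ℝ _).prodCongr
      ((ContinuousLinearEquiv.prodAssoc ℝ C D (Pm.V k E)).trans
        (((ContinuousLinearEquiv.refl ℝ C).prodCongr (.prodComm ℝ _ _)).trans
          (ContinuousLinearEquiv.prodAssoc ℝ C (Pm.V k E) D).symm))))), fun _ _ => rfl⟩⟩

theorem cx_rr {m : ℕ} (h : finrank ℝ E = 2 * m) : Cx (Rr k E).ls :=
  have e : E ≃L[ℝ] (Fin m → ℝ) × (Fin m → ℝ) := .ofFinrankEq (by simp [h, two_mul])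
  Cx.iso (V := (Rr k E).ls) (W := ((Rr k (Fin m → ℝ)).prod (Rr k (Fin m → ℝ))).ls)
    ⟨((ContinuousLinearEquiv.piCongrRight fun _ : Pm.Ix k => e).trans
      (Gn.sE k _ _)).toHomeomorph, fun _ _ => rfl⟩ (cx2 (ck k) (Fo.inc_inj _) _)

theorem cx3 {m n : ℕ} (h : finrank ℝ E = 2 * m) (h' : finrank ℝ (C × D) = 2 * n) :
    Cx ((XX C k E).prod (Rep.triv (Gk k) D)).ls :=
  Cx.iso (W := (Rep.triv (Gk k) (C × D)).ls.prod (Rr k E).ls)
    (rcomm (Rep.triv (Gk k) C).ls (Rr k E).ls (Rep.triv (Gk k) D).ls)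
    ((cx_even _ n h').prod (cx_rr h))

theorem rk3 {m n : ℕ} (h : finrank ℝ E = 2 * m) (h' : finrank ℝ (C × D) = 2 * n) :
    Even (finrank ℝ ((XX C k E).prod (Rep.triv (Gk k) D)).W) := by
  change Even (finrank ℝ ((C × Pm.V k E) × D))
  rw [finrank_prod] at h'
  rw [finrank_prod, finrank_prod, finrank_pi_fintype, Finset.sum_const, smul_eq_mul, h,
    add_right_comm, h']
  exact (even_two_mul _).add ((even_two_mul _).mul_left _)

theorem rkY : finrank ℝ P.Y = 2 * 5 := by rw [finrank_real_of_complex]; simp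
end Rp

open Rp in
theorem rep : REP :=
  ⟨adm3 (by simp [rkY]), adm3 (by simp [rkY]), Gn.adm_prod (adm (by simp) _ _) _,
    cx3 (n := 6) rkY (by simp [rkY]), cx3 (n := 7) rkY (by simp [rkY]),
    rk3 (n := 6) rkY (by simp [rkY])⟩

end Crest.Agent.N218.D3

end
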