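import Crest.Agent.N218.D3.Defs
import Crest.Agent.N218.K.Cx0
import Crest.Agent.N218.K.Ln1

/-!
# Row 218, block D3 (helper59): the K-theory of even spheres
-/

set_option autoImplicit false

open Set Module OnePoint

noncomputable section

namespace Crest.Agent.N218.D3
open K

section
variable {A : Type} [NormedAddCommGroup A] [NormedSpace ℝ A] [FiniteDimensional ℝ A]

theorem sph_zero [Subsingleton A] : ∃ g, (sp A).Th g ∧ ps _ g = (sp A).sm 1 g := by
  classical
  let z : C(P0.Q, (sp A).E) := .const _ (pt P0 (tv A) () ((0 : A) : OnePoint A))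
  have h : ∀ e, e ∈ range (sp A).s ∨ e ∈ range z := fun e => by
    refine sb_ind (P := fun e => e ∈ range (sp A).s ∨ e ∈ range z)
      (fun y => .inl ⟨P0.pr y, rfl⟩) (fun y w => .inr ⟨P0.pr y, ?_⟩) e
    rw [Subsingleton.elim (α := A) w 0]; rfl
  have : Finite (sp A).E := Finite.of_surjective (Sum.elim (sp A).s z) fun e =>
    (h e).elim (fun ⟨x, k⟩ => ⟨.inl x, k⟩) fun ⟨x, k⟩ => ⟨.inr x, k⟩
  let f : C((sp A).E, ℂ) := ⟨fun e => if e ∈ range (sp A).s then 0 else 1,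
    continuous_of_discreteTopology⟩
  let e : Matrix Unit Unit C((sp A).E, ℂ) := Matrix.of fun _ _ => f
  have he : e * e = e := by
    ext i j x
    simp only [e, f, Matrix.mul_apply, Matrix.of_apply, Finset.univ_unique, Finset.sum_singleton,
      ContinuousMap.mul_apply, ContinuousMap.coe_mk]
    split_ifs <;> simp
  refine ⟨kc e, Ex.th_pt z (fun _ => Subsingleton.elim _ _) h ?_ ?_⟩
  · refine (pull_kc _ he).trans ?_
    rw [show (Matrix.of fun i j => (e i j).comp (sp A).s) = 0 from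
      Matrix.ext fun _ _ => ContinuousMap.ext fun x => if_pos ⟨x, rfl⟩]
    exact R204.K357.K0.cls_zero
  · refine (pull_kc _ he).trans (Eq.trans (congrArg kc ?_) kc_one)
    refine Matrix.ext fun i j => ContinuousMap.ext fun x => ?_
    rw [Subsingleton.elim i j, Matrix.one_apply_eq]
    refine if_neg fun ⟨y, k⟩ => ?_
    obtain ⟨y, rfl⟩ := P0.pr_surj y
    obtain ⟨_, -, k⟩ := pt_iff.1 (k : pt P0 (tv A) y ∞ = pt P0 (tv A) () ((0 : A) : OnePoint A))
    exact infty_ne_coe _ k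
end

theorem sph_ex (T : THOM1) (k : ℕ) : ∀ {A : Type} [NormedAddCommGroup A] [NormedSpace ℝ A]
    [FiniteDimensional ℝ A], finrank ℝ A = 2 * k →
    ∃ g, (sp A).Th g ∧ ps _ g = (sp A).sm (3 ^ k) g := by
  induction k with
  | zero =>
    intro A _ _ _ h
    have : Subsingleton A := finrank_zero_iff.1 h
    exact sph_zero
  | succ k ih =>
    intro A _ _ _ h
    obtain ⟨g, h1, h2⟩ := ih (A := Fin (2 * k) → ℝ) (by simp)
    have c : Continuous (1 : Unit →* Circle) := continuous_const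
    let e : A ≃L[ℝ] ℂ × (Fin (2 * k) → ℝ) := ContinuousLinearEquiv.ofFinrankEq (by
      rw [h, finrank_prod, Complex.finrank_real_complex]; simp; omega)
    let I : (tv A).Iso ((ch 1 c).prod (tv (Fin (2 * k) → ℝ))) :=
      ⟨e.toHomeomorph, fun _ x => Prod.ext (one_mul (e x).1).symm rfl⟩
    refine ⟨_, th_iso I (I.mp P0) ((smd P0 (ch 1 c) (tv _)).th (T _ P0 1 c ⟨.one _⟩) ?_ h1), ?_⟩
    · exact (pull_lam1 (Y' := P0.prod (tv (Fin (2 * k) → ℝ)).sph) c c ⟨.one _⟩ (f := .fst)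
        (fun g _ => ⟨g, rfl, rfl⟩) (smd P0 (ch 1 c) (tv _)).q fun _ _ => rfl).symm ▸
        T _ _ 1 c ⟨.one _⟩
    · refine (eig_iso I (I.mp P0) (eig_xm (ps_lam1 c) h2)).trans ?_
      rw [Lc_one, show rho3 (1 : KX P0.Q) * 3 ^ k = 3 ^ (k + 1) by rw [rho3]; ring]
      rfl

theorem sm_int {X : Type} [TopologicalSpace X] (A : Ex X) (n : ℤ) (x : KX A.E) :
    A.sm n x = n • x := by rw [Ex.sm, map_intCast, zsmul_eq_mul]

theorem sph (T : THOM1) : SPH := fun {A} _ _ _ k h => by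
  obtain ⟨g, h1, h2⟩ := sph_ex T k h
  have s : ∀ a : KX P0.Q, ∃ n : ℤ, (n : KX P0.Q) = a := kx_pt.2
  have i : ∀ m n : ℤ, (m : KX P0.Q) = n → m = n := fun _ _ e => kx_pt.1 e
  refine ⟨g, h1, ?_, fun x hx => ?_, fun n e => ?_, fun g' => ⟨fun h' => ?_, ?_⟩⟩
  · rw [h2, ← sm_int]; push_cast; rfl
  · obtain ⟨a, rfl⟩ := h1.ex hx
    obtain ⟨n, rfl⟩ := s a
    exact ⟨n, sm_int _ n g⟩
  · exact i n 0 (h1.inj (by rw [sm_int, sm_int, e, zero_smul]))
  · obtain ⟨u, v, a, rfl, -⟩ := h1.unit h'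
    obtain ⟨m, rfl⟩ := s u
    obtain ⟨n, rfl⟩ := s v
    rcases Int.eq_one_or_neg_one_of_mul_eq_one (i (m * n) 1 (by push_cast; exact a)) with rfl | rfl
    · exact .inl (by rw [sm_int, one_smul])
    · exact .inr (by rw [sm_int, neg_one_smul])
  · rintro (rfl | rfl)
    · exact h1
    · have := h1.sm_unit (u := ((-1 : ℤ) : KX P0.Q)) (by simp)
      rwa [sm_int, neg_one_smul] at this

end Crest.Agent.N218.D3

end
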