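import Crest.Agent.N218.D3.Geo
import Crest.Agent.N218.D3.Evd
import Crest.Agent.N218.D3.Cbd
import Crest.Agent.N218.D3.Cel
import Crest.Agent.N218.D3.Cmp
import Crest.Agent.N218.D3.Deg
import Crest.Agent.N218.D3.Dval
import Crest.Agent.N218.D3.Hbt
import Crest.Agent.N218.D3.Hopf
import Crest.Agent.N218.D3.Nuk
import Crest.Agent.N218.D3.Opn
import Crest.Agent.N218.D3.Pert
import Crest.Agent.N218.D3.Push
import Crest.Agent.N218.D3.Rep
import Crest.Agent.N218.D3.Sph
import Crest.Agent.N218.D3.Zl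
import Crest.Agent.N218.K.Denl

/-!
# Row 218, block D3 (helper76): the unconditional K-theory leaves
-/

set_option autoImplicit false

namespace Crest.Agent.N218.D3
open K

theorem sph0 : SPH := sph thom
theorem opn0 : OPN := opn sph0
theorem deg0 : DEG := deg thom sph0 hbt cmp' opn0
theorem nuk0 : NUK := nuk thom sph0 hbt cmp' opn0 eht
theorem hopf0 : HOPF := hopf sph0 eht nuk0
theorem push0 : PUSH := push cle (dval thom kln (denl thom kln) (oex thom)) deg0 pert

theorem d30 (a : HTP) (b : PLB) (h2 : LBL) (h3 : PFR) (h4 : CHB) (h5 : ESH) (h6 : EIS) (h7 : DIS)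
    (h8 : TPD) : D3T := d3 push0 (evd cbd a b) rep h2 h3 h4 h5 h6 h7 h8 cel

end Crest.Agent.N218.D3
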