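import Crest.Agent.N218.D3.Ev0
import Crest.Agent.N218.D3.Hbt

/-!
# Row 218, block D3 (helper94): the classifying map of a pull-back is a composite
-/

set_option autoImplicit false
set_option linter.unusedVariables false
set_option linter.unusedSectionVars false

open Set Module OnePoint unitInterval

noncomputable section

namespace Crest.Agent.N218.D3
open K

namespace Ht
variable {Γ : Type} [Group Γ] [TopologicalSpace Γ] [CompactSpace Γ] {A B : Type}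
  [NormedAddCommGroup A] [NormedSpace ℝ A] [FiniteDimensional ℝ A] [NormedAddCommGroup B]
  [NormedSpace ℝ B] [FiniteDimensional ℝ B] {Y : GS Γ} {M W : Rep Γ} {c : Pp A B}
  {ξ : Unit × (A × ℝ) → ℝ}

theorem ok_st (h : Okp c) : Okp (st c ℝ) := by
  refine ⟨h.op.preimage continuous_fst,
    (h.ct.comp continuous_fst.continuousOn fun _ o => o).prodMk continuous_snd.continuousOn, ?_⟩
  have e : {a | a ∈ (st c ℝ).1 ∧ (st c ℝ).2 a = 0} = {a | a ∈ c.1 ∧ c.2 a = 0} ×ˢ {0} := by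
    ext z; simp [st, and_assoc]
  rw [e]; exact h.cp.prod isCompact_singleton

/-- the rescaled label map -/
def J (c : Pp A B) (s : ℝ) (z : (A × M.W) × ℝ) : (B × M.W) × ℝ :=
  ((s⁻¹ • c.2 z.1.1, z.1.2), s⁻¹ • z.2)

theorem gC_zero (y : Y.Z) (w : (A × M.W) × ℝ) (h : ξ ((), (w.1.1, w.2)) = 0) :
    gC Y M c ξ (y, w) = ∞ := by
  have : (fp (st c ℝ)).col ξ ((), (w.1.1, w.2)) = ∞ := if_pos h
  exact congrArg (fun u => OnePoint.map (fun w : (B × ℝ) × M.W => ((w.1.1, w.2), w.1.2))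
    (wdg (u, (w.1.2 : OnePoint M.W)))) this

theorem gC_ne (y : Y.Z) (w : (A × M.W) × ℝ) (h : ξ ((), (w.1.1, w.2)) ≠ 0) :
    gC Y M c ξ (y, w) = OnePoint.some (J c (ξ ((), (w.1.1, w.2))) w) := by
  have : (fp (st c ℝ)).col ξ ((), (w.1.1, w.2)) =
    OnePoint.some ((ξ ((), (w.1.1, w.2)))⁻¹ • (c.2 w.1.1, w.2) : B × ℝ) := if_neg h
  exact congrArg (fun u => OnePoint.map (fun w : (B × ℝ) × M.W => ((w.1.1, w.2), w.1.2))
    (wdg (u, (w.1.2 : OnePoint M.W)))) this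

theorem gC_eq {y : Y.Z} {w : (A × M.W) × ℝ} {n : (B × M.W) × ℝ}
    (h : gC Y M c ξ (y, w) = OnePoint.some n) :
    ξ ((), (w.1.1, w.2)) ≠ 0 ∧ n = J c (ξ ((), (w.1.1, w.2))) w := by
  have z : ξ ((), (w.1.1, w.2)) ≠ 0 := fun z => infty_ne_coe n ((gC_zero y w z).symm.trans h)
  exact ⟨z, coe_injective (h.symm.trans (gC_ne y w z))⟩

theorem pm_gC (h : Okp c) (hξ : (fp (st c ℝ)).Cut ξ) :
    Pm Y (XT A M).ls.xr (XT B M).ls.xr (gC Y M c ξ) := by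
  let e : ((B × ℝ) × M.W) ≃ₜ ((B × M.W) × ℝ) :=
    ⟨⟨fun w => ((w.1.1, w.2), w.1.2), fun w => ((w.1.1, w.2), w.1.2), fun _ => rfl, fun _ => rfl⟩,
      by fun_prop, by fun_prop⟩
  have c1 : Continuous fun z : Y.Z × (A × M.W) × ℝ => (((), (z.2.1.1, z.2.2)) : Unit × (A × ℝ)) := by
    fun_prop
  have c2 : Continuous fun z : Y.Z × (A × M.W) × ℝ => z.2.1.2 := by fun_prop
  refine ⟨e.onePointCongr.continuous.comp (continuous_wdg.comp
    (((hξ.pm (ok_st h).fp).ct.comp c1).prodMk (continuous_coe.comp c2))), fun K' k' => ?_,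
    fun γ y w => ?_⟩
  · have c3 : Continuous fun z : (B × M.W) × ℝ => z.1.2 := by fun_prop
    have c4 : Continuous fun z : (Unit × (A × ℝ)) × M.W => ((z.1.2.1, z.2), z.1.2.2) := by fun_prop
    refine ⟨_, (hξ.cp.prod (k'.image c3)).image c4, fun p w w' n a i => n ?_⟩
    obtain ⟨z, rfl⟩ := gC_eq a
    exact ⟨(((), (w.1.1, w.2)), w.1.2), ⟨subset_tsupport _ z, _, i, rfl⟩, rfl⟩
  · by_cases z : ξ ((), (w.1.1, w.2)) = 0
    · exact (gC_zero (Y.act γ y) ((XT A M).ls.xr.act γ w) z).trans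
        (congrArg ((XT B M).ls.xr.sph.act γ) (gC_zero y w z)).symm
    · exact (gC_ne (Y.act γ y) ((XT A M).ls.xr.act γ w) z).trans
        (congrArg ((XT B M).ls.xr.sph.act γ) (gC_ne y w z)).symm

theorem cut_min (hξ : (fp (st c ℝ)).Cut ξ) : (fp (st c ℝ)).Cut fun x => min (ξ x) 1 := by
  have s : tsupport (fun x => min (ξ x) 1) ⊆ tsupport ξ := closure_mono fun x m z =>
    m (min_eq_left (z ▸ zero_le_one) |>.trans z)
  exact ⟨hξ.ct.min continuous_const, fun x => le_min (hξ.nn x) zero_le_one,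
    hξ.cp.of_isClosed_subset (isClosed_tsupport _) s, s.trans hξ.sub,
    fun x o z => lt_min (hξ.pos x o z) one_pos, fun g x => congrArg (min · 1) (hξ.inv g x)⟩

/-- the scale -/
def sca (ξ : Unit × (A × ℝ) → ℝ) (τ : I) (a : A × ℝ) : ℝ := (1 - τ) + τ * ξ ((), a)

theorem ht_scale {Bx : Set B} (L : Lab c Bx) (hξ : (fp (st c ℝ)).Cut ξ) (h1 : ∀ x, ξ x ≤ 1)
    {Q : FP Y (XT B M).ls.xr W} (q : Q.Ok) (hB : ∀ z ∈ Q.O, z.2.1.1 ∈ Bx)
    (P0 P1 : FP Y (XT A M).ls.xr W)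
    (o0 : ∀ y (w : (A × M.W) × ℝ), (y, w) ∈ P0.O ↔ w.1.1 ∈ c.1 ∧ (y, J c 1 w) ∈ Q.O)
    (f0 : ∀ y (w : (A × M.W) × ℝ), P0.f (y, w) = Q.f (y, J c 1 w))
    (o1 : ∀ y (w : (A × M.W) × ℝ), (y, w) ∈ P1.O ↔ ξ ((), (w.1.1, w.2)) ≠ 0 ∧
      (y, J c (ξ ((), (w.1.1, w.2))) w) ∈ Q.O)
    (f1 : ∀ y (w : (A × M.W) × ℝ), P1.f (y, w) = Q.f (y, J c (ξ ((), (w.1.1, w.2))) w)) :
    P0.hm.Ht P1.hm := by
  let T := I × (Y.Z × (A × M.W) × ℝ)
  let s : T → ℝ := fun p => sca ξ p.1 (p.2.2.1.1, p.2.2.2)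
  let j : T → Y.Z × (B × M.W) × ℝ := fun p => (p.2.1, J c (s p) p.2.2)
  let U : Set T := {p | p.2.2.1.1 ∈ c.1 ∧ s p ≠ 0}
  have cx : Continuous ξ := hξ.ct
  have cs : Continuous fun p : I × (A × ℝ) => sca ξ p.1 p.2 := by unfold sca; fun_prop
  have cs' : Continuous s := cs.comp (f := fun p : T => (p.1, (p.2.2.1.1, p.2.2.2))) (by fun_prop)
  have ca : Continuous fun p : T => p.2.2.1.1 := by fun_prop
  have oU : IsOpen U := (L.ok.op.preimage ca).inter (isOpen_ne_fun cs' continuous_const)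
  have ci : ContinuousOn (fun p => (s p)⁻¹) U := cs'.continuousOn.inv₀ fun p m => m.2
  have cj : ContinuousOn j U := (by fun_prop : Continuous fun p : T => p.2.1).continuousOn.prodMk
    (((ci.smul (L.ok.ct.comp ca.continuousOn fun p m => m.1)).prodMk
      (by fun_prop : Continuous fun p : T => p.2.2.1.2).continuousOn).prodMk
      (ci.smul (by fun_prop : Continuous fun p : T => p.2.2.2).continuousOn))
  have s0 : ∀ τ a, 0 ≤ sca ξ τ a := fun τ a =>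
    add_nonneg (sub_nonneg.2 τ.2.2) (mul_nonneg τ.2.1 (hξ.nn _))
  have s1 : ∀ τ a, sca ξ τ a ≤ 1 := fun τ a => by
    have := mul_le_mul_of_nonneg_left (h1 ((), a)) τ.2.1
    unfold sca; linarith
  have e0 : ∀ a, sca ξ 0 a = 1 := fun a => by simp [sca]
  have e1 : ∀ a, sca ξ 1 a = ξ ((), a) := fun a => by simp [sca]
  refine (FP.ht_of P0 P1 (U ∩ j ⁻¹' Q.O) (fun p => Q.f (j p)) (cj.isOpen_inter_preimage oU q.op)
    (fun g t x m => ⟨m.1, q.inv g _ m.2⟩) (q.ct.comp (cj.mono inter_subset_left) fun _ m => m.2)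
    (fun g t x m => q.eq g _ m.2) ?_ (fun x => ?_) (fun x _ => ?_) (fun x => ?_)
    fun x _ => ?_).2.2
  · let K0 : Set (Y.Z × (B × M.W) × ℝ) := {x ∈ Q.O | Q.f x = 0}
    have k0 : IsCompact K0 := q.cp
    let φ : ℝ × (Y.Z × (B × M.W) × ℝ) → B × ℝ := fun p => p.1 • (p.2.2.1.1, p.2.2.2)
    have k1 : IsCompact (φ '' Icc 0 1 ×ˢ K0) := (isCompact_Icc.prod k0).image (by fun_prop)
    have k2 := L.pr _ (by
      rintro _ ⟨_, ⟨p, m, rfl⟩, rfl⟩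
      exact L.sc.smul_mem (hB _ m.2.1) m.1.1 m.1.2) (k1.image continuous_fst)
    let S : Set ((I × (A × ℝ)) × (Y.Z × (B × M.W) × ℝ)) :=
      (univ ×ˢ ({a | a ∈ c.1 ∧ c.2 a ∈ Prod.fst '' (φ '' Icc 0 1 ×ˢ K0)} ×ˢ
        (Prod.snd '' (φ '' Icc 0 1 ×ˢ K0)))) ×ˢ K0
    have k3 : IsCompact S := (isCompact_univ.prod (k2.prod (k1.image continuous_snd))).prod k0
    let ψ : (I × (A × ℝ)) × (Y.Z × (B × M.W) × ℝ) → B × ℝ := fun p =>
      (c.2 p.1.2.1, p.1.2.2) - sca ξ p.1.1 p.1.2 • (p.2.2.1.1, p.2.2.2)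
    have cψ : ContinuousOn ψ S :=
      ((L.ok.ct.comp continuous_fst.snd.fst.continuousOn fun p m => m.1.2.1.1).prodMk
        continuous_fst.snd.snd.continuousOn).sub
        ((cs.comp continuous_fst).smul (by fun_prop)).continuousOn
    have k4 : IsCompact (S ∩ ψ ⁻¹' {0}) := k3.of_isClosed_subset
      (cψ.preimage_isClosed_of_isClosed k3.isClosed isClosed_singleton) inter_subset_left
    have k5 := k4.image (f := fun p => ((p.1.1, (p.2.1, ((p.1.2.1, p.2.2.1.2), p.1.2.2))) : T))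
      (by fun_prop)
    refine (congrArg IsCompact (Set.ext (α := T) ?_)).mpr k5
    refine fun p => ⟨?_, ?_⟩
    · obtain ⟨τ, y, ⟨a, m⟩, t⟩ := p
      rintro ⟨⟨⟨u, n⟩, o⟩, z⟩
      have n' : sca ξ τ (a, t) ≠ 0 := n
      have e : φ (sca ξ τ (a, t), j (τ, y, (a, m), t)) = (c.2 a, t) :=
        Prod.ext (smul_inv_smul₀ n' _) (smul_inv_smul₀ n' _)
      have i : (c.2 a, t) ∈ φ '' Icc 0 1 ×ˢ K0 :=
        ⟨(sca ξ τ (a, t), j (τ, y, (a, m), t)), ⟨⟨s0 _ _, s1 _ _⟩, o, z⟩, e⟩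
      exact ⟨((τ, (a, t)), j (τ, y, (a, m), t)),
        ⟨⟨⟨trivial, ⟨u, _, i, rfl⟩, _, i, rfl⟩, o, z⟩, sub_eq_zero.2 e.symm⟩, rfl⟩
    · rintro ⟨⟨⟨τ, a, t⟩, y, ⟨b, m⟩, t''⟩, ⟨⟨⟨-, ⟨u, -⟩, -⟩, o⟩, e⟩, rfl⟩
      have e' : (c.2 a, t) = sca ξ τ (a, t) • (b, t'') := sub_eq_zero.1 e
      have n : sca ξ τ (a, t) ≠ 0 := fun z => by
        rw [z, zero_smul] at e'
        have p : 0 < ξ ((), (a, t)) := hξ.pos ((), (a, t)) u e'
        have t0 := τ.2.1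
        have t1 := τ.2.2
        unfold sca at z
        rcases t0.eq_or_lt with v | v
        · rw [← v] at z; norm_num at z
        · nlinarith [mul_pos v p]
      have e2 : j (τ, y, (a, m), t) = (y, (b, m), t'') :=
        Prod.ext rfl (Prod.ext (Prod.ext ((inv_smul_eq_iff₀ n).2 (congrArg Prod.fst e')) rfl)
          ((inv_smul_eq_iff₀ n).2 (congrArg Prod.snd e')))
      exact ⟨⟨⟨u, n⟩, show j _ ∈ Q.O from e2 ▸ o.1⟩, show Q.f (j _) = 0 from e2 ▸ o.2⟩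
  · refine (o0 x.1 x.2).trans ?_
    change _ ↔ (_ ∧ sca ξ 0 _ ≠ 0) ∧ (x.1, J c (sca ξ 0 _) x.2) ∈ Q.O
    rw [e0]; exact and_congr_left fun _ => (and_iff_left one_ne_zero).symm
  · refine (f0 x.1 x.2).trans ?_
    change _ = Q.f (x.1, J c (sca ξ 0 _) x.2)
    rw [e0]
  · refine (o1 x.1 x.2).trans ?_
    change _ ↔ (_ ∧ sca ξ 1 _ ≠ 0) ∧ (x.1, J c (sca ξ 1 _) x.2) ∈ Q.O
    rw [e1]; exact and_congr_left fun _ => (and_iff_right_of_imp fun n => hξ.mem n).symm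
  · refine (f1 x.1 x.2).trans ?_
    change _ = Q.f (x.1, J c (sca ξ 1 _) x.2)
    rw [e1]

theorem J_one (w : (A × M.W) × ℝ) : J c 1 w = ((c.2 w.1.1, w.1.2), w.2) := by simp [J]

end Ht

theorem htp (hC : CMP) : HTP := by
  intro Γ _ _ _ χ hχ r A _ _ _ B _ _ _ M V c Bx L P k hP hB hc hk
  obtain ⟨ξ0, c0⟩ := (Ht.ok_st L.ok).fp.exists_cut
  have cξ := Ht.cut_min c0
  have pm := Ht.pm_gC (Y := Sp χ hχ r) (M := M) L.ok cξ
  obtain ⟨C, hr⟩ := pm.exists_rg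
  have q := Tc_ok χ hχ r hP hk
  refine ⟨_, C, cξ, hr, ⟨hk.ct.comp ((L.ok.ct.comp continuous_fst.continuousOn fun _ m => m.1).prodMk
    continuous_snd.continuousOn) fun _ m => m.2, fun g x m => hk.eq g (c.2 x.1, x.2) m.2,
    fun x m => hk.nz _ ⟨m.1.2, m.2⟩⟩, ?_⟩
  let P1 : FP (Sp χ hχ r) (XT A M).ls.xr (V.prod (UU χ hχ r)) :=
    ⟨{x | min (ξ0 ((), (x.2.1.1, x.2.2))) 1 ≠ 0 ∧
      (x.1, Ht.J c (min (ξ0 ((), (x.2.1.1, x.2.2))) 1) x.2) ∈ (Tc χ hχ r P k).O},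
      fun x => (Tc χ hχ r P k).f (x.1, Ht.J c (min (ξ0 ((), (x.2.1.1, x.2.2))) 1) x.2)⟩
  refine (Ht.ht_scale L cξ (fun _ => min_le_right _ _) q (fun z m => hB _ m) _ P1
    (fun y w => by rw [Ht.J_one]; rfl) (fun y w => by rw [Ht.J_one]; rfl) (fun _ _ => Iff.rfl)
    fun _ _ => rfl).tr (hC _ _ _ _ _ C _ P1 pm hr q (fun x => ?_) fun x n a o => ?_).2
  · exact ⟨fun m => ⟨_, Ht.gC_ne x.1 x.2 m.1, m.2⟩, fun ⟨n, a, o⟩ =>
      ⟨(Ht.gC_eq a).1, (Ht.gC_eq a).2 ▸ o⟩⟩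
  · rw [(Ht.gC_eq a).2]; rfl

end Crest.Agent.N218.D3

end
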