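import Crest.Agent.N218.D2.Yk

/-!
# Row 218, block D3 (helper76): localisation of free zeros
-/

set_option autoImplicit false
open Set

namespace Crest.Agent.N218.D3
open Yk

variable {E ι : Type*} [NormedAddCommGroup E] [NormedSpace ℝ E] [Fintype ι]
  {σ τ : Equiv.Perm ι} {μ C : ℝ} {r r0 : E → E} {w : ι → E}

theorem odd_eq (h2 : τ * τ = 1) (cm : ∀ i, τ (σ i) = σ (τ i))
    (hz : ∀ i, w (σ i) + μ • mn τ w (σ i) = r (w i)) (i : ι) :
    (1 + μ) • mn τ w (σ i) = (1 / 2 : ℝ) • (r (w i) - r (w (τ i))) := by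
  have a := hz i
  have b := hz (τ i)
  rw [← cm, mn_tau h2] at b
  rw [← a, ← b]; simp only [mn]; module

/-- the odd part of a zero is small -/
theorem odd_le (h2 : τ * τ = 1) (cm : ∀ i, τ (σ i) = σ (τ i)) (hμ : 0 ≤ μ)
    (h0 : ∀ y y', ‖r0 y - r0 y'‖ ≤ ‖y - y'‖) (hr : ∀ i, ‖r (w i) - r0 (w i)‖ ≤ C)
    (hz : ∀ i, w (σ i) + μ • mn τ w (σ i) = r (w i)) (i : ι) : μ * ‖mn τ w i‖ ≤ C := by
  have : Nonempty ι := ⟨i⟩
  obtain ⟨j, hj⟩ := Finite.exists_max fun i => ‖mn τ w i‖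
  obtain ⟨j, rfl⟩ := σ.surjective j
  have a := congrArg norm (odd_eq h2 cm hz j)
  rw [norm_smul, norm_smul, Real.norm_of_nonneg (by positivity),
    Real.norm_of_nonneg (by positivity)] at a
  have b : r (w j) - r (w (τ j)) = (r (w j) - r0 (w j)) + (r0 (w j) - r0 (w (τ j))) -
      (r (w (τ j)) - r0 (w (τ j))) := by abel
  have c := (norm_sub_le _ _).trans (add_le_add ((norm_add_le _ _).trans
    (add_le_add (hr j) (h0 (w j) (w (τ j))))) (hr (τ j)))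
  rw [← b] at c
  have d : ‖mn τ w j‖ = 1 / 2 * ‖w j - w (τ j)‖ := by
    rw [mn, norm_smul, Real.norm_of_nonneg (by positivity)]
  have e := hj j
  have f := mul_le_mul_of_nonneg_left (hj i) hμ
  nlinarith

/-- no free zero for a nonexpansive map -/
theorem odd_zero (h2 : τ * τ = 1) (cm : ∀ i, τ (σ i) = σ (τ i)) (hμ : 0 < μ)
    (h0 : ∀ y y', ‖r0 y - r0 y'‖ ≤ ‖y - y'‖) (hr : ∀ i, r (w i) = r0 (w i))
    (hz : ∀ i, w (σ i) + μ • mn τ w (σ i) = r (w i)) : mn τ w = 0 := funext fun i => by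
  have := odd_le (C := 0) h2 cm hμ.le h0 (fun i => by simp [hr i]) hz i
  exact norm_eq_zero.1 (le_antisymm (by nlinarith [norm_nonneg (mn τ w i)]) (norm_nonneg _))

/-- zeros are pseudo-orbits of `r0` -/
theorem pseudo (h2 : τ * τ = 1) (cm : ∀ i, τ (σ i) = σ (τ i)) (hμ : 0 ≤ μ)
    (h0 : ∀ y y', ‖r0 y - r0 y'‖ ≤ ‖y - y'‖) (hr : ∀ i, ‖r (w i) - r0 (w i)‖ ≤ C)
    (hz : ∀ i, w (σ i) + μ • mn τ w (σ i) = r (w i)) {c : E} (hc : r0 c = c) (i : ι) (k : ℕ) :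
    ‖w ((σ ^ k) i) - c‖ ≤ ‖w i - c‖ + 2 * C * k := by
  induction k with
  | zero => simp
  | succ k ih =>
    rw [pow_succ', Equiv.Perm.mul_apply]
    set j := (σ ^ k) i
    have a : w (σ j) - c = (r (w j) - r0 (w j)) + (r0 (w j) - r0 c) - μ • mn τ w (σ j) := by
      rw [← hz j, hc]; abel
    have b := (norm_sub_le _ _).trans (add_le_add ((norm_add_le _ _).trans
      (add_le_add (hr j) (h0 (w j) c))) (((norm_smul μ (mn τ w (σ j))).trans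
        (by rw [Real.norm_of_nonneg hμ])).le.trans (odd_le h2 cm hμ h0 hr hz (σ j))))
    rw [← a] at b
    push_cast
    linarith

/-- **localisation**: a free zero lies in one ball -/
theorem loc (h2 : τ * τ = 1) (cm : ∀ i, τ (σ i) = σ (τ i)) {q : ℕ}
    (tr : ∀ i j, ∃ k ≤ q, (σ ^ k) i = j) (hμ : 0 < μ) (hC : 0 ≤ C)
    (h0 : ∀ y y', ‖r0 y - r0 y'‖ ≤ ‖y - y'‖) (hr : ∀ y, ‖r y - r0 y‖ ≤ C)
    (hz : ∀ i, w (σ i) + μ • mn τ w (σ i) = r (w i)) (hw : mn τ w ≠ 0) {Z : Set E} {a : ℝ}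
    (far : ∀ y, r y ≠ r0 y → ∃ c ∈ Z, r0 c = c ∧ ‖y - c‖ ≤ a) :
    ∃ c ∈ Z, ∀ i, ‖w i - c‖ ≤ a + 2 * C * q := by
  by_contra n
  refine hw (odd_zero h2 cm hμ h0 (fun i => by_contra fun ne => n ?_) hz)
  obtain ⟨c, z, hc, b⟩ := far _ ne
  refine ⟨c, z, fun j => ?_⟩
  obtain ⟨k, hk, rfl⟩ := tr i j
  have := pseudo h2 cm hμ.le h0 (fun _ => hr _) hz hc i k
  have : (k : ℝ) ≤ q := by exact_mod_cast hk
  nlinarith

end Crest.Agent.N218.D3
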