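import Crest.Agent.N218.D3.Geo
import Crest.Agent.N218.D3.Loc
import Crest.Agent.N218.Sk.Stb
import Crest.Agent.N218.Pc.Gen
import Crest.Agent.N218.P.Kit

/-! Row 218, block D3 (helper48): the total problem and the piece are admissible. -/

set_option autoImplicit false
open Set Filter Topology
open scoped RealInnerProductSpace ContDiff

noncomputable section

namespace Crest.Agent.N218.D3
open Sh P

theorem oke : OKE := fun Φ => (Sk.gf_r (by norm_num) Φ).ok

namespace Ox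

theorem piH_lip {w A : ℝ} {p : ℝ → ℝ} (h : P.Pp w A p) (y y' : Y) :
    ‖piH p y - piH p y'‖ ≤ ‖y - y'‖ := by
  have e : piH p y - piH p y' = (y - y') - (u1 (y - y') - (p (u1 y) - p (u1 y'))) • ev := by
    rw [piH, piH, u1_sub]; module
  refine le_of_sq_le_sq ?_ (norm_nonneg _)
  have := sq_le_sq.2 (h.lip (u1 y) (u1 y'))
  rw [e, norm_sub_sq_real, real_inner_smul_right, real_inner_comm, inner_ev, norm_smul, norm_ev,
    mul_one, Real.norm_eq_abs, sq_abs, u1_sub]
  nlinarith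

theorem piH_id {w A : ℝ} {p : ℝ → ℝ} (h : P.Pp w A p) {y : Y} (a : u1 y ≤ 0) : piH p y = y := by
  rw [piH, h.id _ a, sub_self, zero_smul, sub_zero]

theorem piH_sm {w A : ℝ} {p : ℝ → ℝ} (h : P.Pp w A p) : ContDiff ℝ ∞ (piH p) :=
  contDiff_id.sub ((u1_sm.sub (h.sm.comp u1_sm)).smul contDiff_const)

theorem nX_mem {x : Sk.X22} (a : 0 < ⟪(x.1 : E 3), (x.2 : E 3)⟫) : nX x ∈ N0 := by
  have u : ‖(x.1 : E 3)‖ = 1 := by simp
  refine ⟨u, ?_⟩
  simp only [nX, inner_sub_right, real_inner_smul_right, real_inner_self_eq_norm_sq, u]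
  rw [inv_mul_cancel₀ a.ne']; ring

theorem cont_ite {W : Type} [NormedAddCommGroup W] {φ : (E 3 × E 3) × Y → W} (hφ : Continuous φ)
    {ρ : ℝ} (r0 : 0 < ρ) (h0 : ∀ n η, ρ ≤ ‖n.2‖ → φ (n, η) = 0) : Continuous fun z : Sk.X22 × Y =>
      if 0 < ⟪(z.1.1 : E 3), (z.1.2 : E 3)⟫ then φ (nX z.1, z.2) else 0 := by
  have c : Continuous fun z : Sk.X22 × Y => ⟪(z.1.1 : E 3), (z.1.2 : E 3)⟫ := by fun_prop
  refine continuous_iff_continuousAt.2 fun z => ?_
  by_cases a : 0 < ⟪(z.1.1 : E 3), (z.1.2 : E 3)⟫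
  · refine ContinuousAt.congr (f := fun z => φ (nX z.1, z.2)) ?_ ?_
    · have c1 : Continuous fun z : Sk.X22 × Y => (z.1.1 : E 3) := by fun_prop
      have c2 : Continuous fun z : Sk.X22 × Y => (z.1.2 : E 3) := by fun_prop
      exact hφ.continuousAt.comp ((c1.continuousAt.prodMk (((c.continuousAt.inv₀ a.ne').smul
        c2.continuousAt).sub c1.continuousAt)).prodMk continuousAt_snd)
    · filter_upwards [continuousAt_const.eventually_lt c.continuousAt a] with z b using (if_pos b).symm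
  · refine ContinuousAt.congr (f := fun _ => 0) continuousAt_const ?_
    filter_upwards [c.continuousAt.eventually_lt (continuousAt_const (y := (1 + ρ)⁻¹))
      ((not_lt.1 a).trans_lt (by positivity))] with z b
    split_ifs with d
    · refine (h0 _ _ ?_).symm
      have := norm_sub_norm_le (⟪(z.1.1 : E 3), (z.1.2 : E 3)⟫⁻¹ • (z.1.2 : E 3)) z.1.1
      rw [norm_smul, Real.norm_of_nonneg (by positivity), norm_eq_of_mem_sphere,
        norm_eq_of_mem_sphere] at this
      have := (lt_inv_comm₀ d (by positivity)).1 b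
      change ρ ≤ ‖_ - _‖
      linarith
    · rfl

/-- a Lyapunov function forces periodic orbits to be constant -/
theorem per {k : ℕ} {E : Type} {φ : E → ℝ} {r : E → E} {z : Pm.V k E} (hz : ∀ i, z i = r (z (i - 1)))
    (h1 : ∀ i, φ (z i) ≤ 0 → r (z i) = z i) (h2 : ∀ i, 0 < φ (z i) → φ (r (z i)) < φ (z i)) :
    φ (z 0) ≤ 0 ∧ z = fun _ => z 0 := by
  have a : ∀ i, φ (z i) ≤ 0 := fun i => le_of_not_gt fun p =>
    (Finset.sum_lt_sum (s := Finset.univ) (f := fun j => φ (z (j + 1))) (fun j _ => by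
      rw [hz, add_sub_cancel_right]
      exact (le_or_gt _ 0).elim (fun q => (congrArg φ (h1 j q)).le) fun q => (h2 j q).le)
      ⟨i, Finset.mem_univ _, by rw [hz, add_sub_cancel_right]; exact h2 i p⟩).ne
      (Equiv.sum_comp (Equiv.addRight 1) fun j => φ (z j))
  have b : ∀ n : ℕ, z n = z 0 := fun n => by
    induction n with
    | zero => simp
    | succ n ih => rw [hz, h1 _ (a _)]; simpa using ih
  exact ⟨a 0, funext fun i => by rw [← b i.val, ZMod.natCast_zmod_val]⟩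

/-- the derivative of a `C¹` map that fixes a regular domain is the identity there -/
theorem d_one {r : Y → Y} {D : Y → Y →L[ℝ] Y} {φ : Y → ℝ} {φ' : Y →L[ℝ] ℝ} {y : Y}
    (hD : Continuous D) (hr : ∀ y, HasFDerivAt r (D y) y) (c : Continuous φ)
    (h1 : ∀ y, φ y ≤ 0 → r y = y) (h0 : φ y ≤ 0) (hφ : HasFDerivAt φ φ' y)
    (h2 : φ y = 0 → φ' ≠ 0) : D y = 1 := by
  have a : y ∈ closure {y | φ y < 0} := by
    rcases h0.eq_or_lt with e | e
    swap
    · exact subset_closure e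
    refine mem_closure_iff_frequently.2 (by_contra fun c => h2 e ?_)
    exact IsLocalMin.hasFDerivAt_eq_zero
      ((not_frequently.1 c).mono fun y hy => e.trans_le (not_lt.1 hy)) hφ
  refine closure_minimal (fun y b => (hr y).unique ((hasFDerivAt_id y).congr_of_eventuallyEq ?_))
    (isClosed_eq hD continuous_const) a
  filter_upwards [c.continuousAt.eventually_lt continuousAt_const b] with y d using h1 y d.le

variable {Φ : A.Fam} {Λ : ℝ} (h : Shape Φ Λ)

theorem rX_ct : Continuous h.rX :=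
  ((piH_sm h.hp).continuous.comp continuous_snd).add
    (cont_ite h.gs.continuous (half_pos h.S.r0) fun n η a => h.g0 n η (.inl a))

/-- the fibre derivative -/
def DX (z : Sk.X22 × Y) : Y →L[ℝ] Y := fderiv ℝ (piH (pl h.ε h.p)) z.2 +
  if 0 < ⟪(z.1.1 : E 3), (z.1.2 : E 3)⟫ then
    (fderiv ℝ h.g (nX z.1, z.2)).comp (ContinuousLinearMap.inr ℝ _ _) else 0

theorem g_d (n : E 3 × E 3) (η : Y) : HasFDerivAt (fun η => h.g (n, η))
    ((fderiv ℝ h.g (n, η)).comp (ContinuousLinearMap.inr ℝ _ _)) η :=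
  (h.gs.differentiable (by simp) (n, η)).hasFDerivAt.comp η (hasFDerivAt_prodMk_right n η)

theorem DX_ct : Continuous (DX h) :=
  (((piH_sm h.hp).continuous_fderiv (by simp)).comp continuous_snd).add
    (cont_ite (φ := fun p => (fderiv ℝ h.g p).comp (ContinuousLinearMap.inr ℝ _ _))
      ((h.gs.continuous_fderiv (by simp)).clm_comp continuous_const) (half_pos h.S.r0)
      fun n η a => (g_d h n η).unique (by
        rw [show (fun η => h.g (n, η)) = fun _ => 0 from funext fun η => h.g0 n η (.inl a)]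
        exact hasFDerivAt_const _ _))

theorem DX_d (x : Sk.X22) (y : Y) : HasFDerivAt (fun w => h.rX (x, w)) (DX h (x, y)) y := by
  refine HasFDerivAt.add (g := fun w => gX h.g (x, w))
    ((piH_sm h.hp).differentiable (by simp) y).hasFDerivAt ?_
  simp only [gX]
  split_ifs
  · exact g_d h _ _
  · exact hasFDerivAt_const _ _

theorem rX_pos {x : Sk.X22} (a : 0 < ⟪(x.1 : E 3), (x.2 : E 3)⟫) {u v : V} (o : Ov (nX x) u v)
    (y : Y) : h.rX (x, y) =
      h.σ' (lab h.s u v).2 (h.R (lab h.s u v, h.σ (lab h.s u v).2 y)) := by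
  rw [Shape.rX, gX, if_pos a, h.gv _ (nX_mem a) u v y o, add_sub_cancel]

theorem rX_neg {x : Sk.X22} (a : ¬ 0 < ⟪(x.1 : E 3), (x.2 : E 3)⟫) (y : Y) :
    h.rX (x, y) = piH (pl h.ε h.p) y := by
  rw [Shape.rX, gX, if_neg a, add_zero]

theorem bdd {k : ℕ} {x : Sk.X22} {s : ℝ} {z : Pm.V k Y} (s0 : 0 < s) (hz : Pm.mn z ≠ 0)
    (e : Pc.Eqn (fun y => h.rX (x, y)) s z) : ‖z‖ ≤ h.A + 2 * h.A * (2 ^ (k + 1) : ℕ) := by
  have A0 : 0 ≤ h.A := by linarith [h.A1]
  obtain ⟨c, rfl, b⟩ := loc (σ := Equiv.addRight 1) (Sk.tau_sq (k := k))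
    (fun i => add_right_comm _ _ _) (q := 2 ^ (k + 1))
    (fun i j => ⟨(j - i).val, (ZMod.val_lt _).le, by simp⟩) s0 A0 (piH_lip h.hp)
    (r := fun y => h.rX (x, y)) (w := z) (fun y => by
      rw [Shape.rX, add_sub_cancel_left, gX]
      split_ifs with a
      · exact h.gb _ (nX_mem a) y
      · simpa using A0)
    (fun i => (e (i + 1)).trans (by rw [add_sub_cancel_right])) hz (Z := {0}) (a := h.A) fun y a =>
      ⟨0, rfl, piH_id h.hp (by simp [u1]), by
        refine le_of_not_gt fun b => a ?_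
        rw [sub_zero] at b
        simp [Shape.rX, gX, h.g0 _ y (.inr b.le)]⟩
  exact (pi_norm_le_iff_of_nonneg (by positivity)).2 fun i => by simpa using b i

theorem orb {k : ℕ} {x : Sk.X22} {z : Pm.V k Y} (e : ∀ i, z i = h.rX (x, z (i - 1))) :
    z = (fun _ => z 0) ∧ DX h (x, z 0) = 1 := by
  have cD : Continuous fun y => DX h (x, y) := (DX_ct h).comp (by fun_prop)
  by_cases a : 0 < ⟪(x.1 : E 3), (x.2 : E 3)⟫
  swap
  · have i1 : ∀ y, u1 y ≤ 0 → h.rX (x, y) = y := fun y b => (rX_neg h a y).trans (piH_id h.hp b)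
    obtain ⟨b, c⟩ := per (φ := u1) (r := fun y => h.rX (x, y)) e (fun i => i1 _) fun i b => by
      rw [rX_neg h a, u1_piH]; exact h.hp.lt _ b
    exact ⟨c, d_one cD (DX_d h x) u1_sm.continuous i1 b (u1_d _) fun _ d =>
      one_ne_zero (α := ℝ) (congrArg (fun L : Y →L[ℝ] ℝ => L ev) d)⟩
  obtain ⟨u, v, o⟩ := h.ov _ (nX_mem a)
  have l0 : (lab h.s u v).2 ≠ 0 :=
    norm_pos_iff.1 (by linarith [(h.al _ (nX_mem a) u v o).1])
  have r := rX_pos h a o
  generalize lab h.s u v = l at l0 r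
  have r' : ∀ y, h.σ l.2 (h.rX (x, y)) = h.R (l, h.σ l.2 y) := fun y => by rw [r, h.hF.ri _ _ l0]
  have i1 : ∀ y, F h.M (l.1, h.σ l.2 y) ≤ 0 → h.rX (x, y) = y := fun y b => by
    rw [r, h.hR.id _ _ b, h.hF.li _ _ l0]
  have w0 := h.w0
  have w1 := h.w1
  have t : ∀ i, u1 (h.σ l.2 (z i)) ≤ 30 := fun i => by
    obtain ⟨j, hj⟩ := Finite.exists_max fun i => u1 (h.σ l.2 (z i))
    refine (hj i).trans (le_of_not_gt fun b => ?_)
    have m := hj (j - 1)
    have n := (b.le.trans (le_abs_self _)).trans (abs_u1_le _)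
    have f := h.hL.out l.1 _ (.inr (.inl (le_trans (by norm_num) n)))
    rw [e j, r'] at b m f
    rcases le_or_gt (u1 (h.σ l.2 (z (j - 1)))) 30 with c | c
    · linarith [h.hR.inn l _ l0 c]
    · rw [h.hR.out _ _ (.inr ((c.le.trans (le_abs_self _)).trans (abs_u1_le _))), u1_piH] at m
      exact m.not_gt (h.hp.lt _ (by linarith))
  obtain ⟨b, c⟩ := per (φ := fun y => F h.M (l.1, h.σ l.2 y)) (r := fun y => h.rX (x, y)) e
    (fun i => i1 _) fun i b => by
      rw [r']
      refine h.hR.lt l _ b ?_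
      rw [e i, r']
      linarith [h.hR.inn l _ l0 (t (i - 1))]
  refine ⟨c, d_one cD (DX_d h x) (h.hL.sm.continuous.comp (by fun_prop)) i1 b
    ((h.hL.sm.differentiable (by simp) _).hasFDerivAt.comp (z 0)
      ((hasFDerivAt_const l.1 _).prodMk (h.σ l.2).hasFDerivAt)) fun d f => ?_⟩
  obtain ⟨ξ, g⟩ := h.hL.reg l.1 (h.σ l.2 (z 0)) (by rw [show F _ _ = 0 from d]; norm_num)
  have := congrArg (fun L : Y →L[ℝ] ℝ => L (h.σ' l.2 ξ)) f
  exact g (by simpa [h.hF.ri _ _ l0] using this)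

/-- the piece is admissible -/
theorem pc_ok {k : ℕ} (hk : 1 ≤ k) : (h.pc k).Ok :=
  Pc.ec_ok (rX_ct h) (isCompact_univ.prod (isCompact_closedBall 0 _))
    (fun _ _ _ s0 a b => ⟨trivial, mem_closedBall_zero_iff.2 (bdd h s0 a b)⟩) fun x _ e =>
      let ⟨a, b⟩ := orb h (x := x.1) (z := x.2) fun i => by simpa using e i
      ⟨_, a, .of_c1 hk (DX_ct h).continuousAt (.of_forall fun p => DX_d h p.1 p.2) (b ▸ Pc.nn_one)⟩
end Ox

theorem okx : OKX := fun _ h _ => Ox.pc_ok h (by norm_num)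

end Crest.Agent.N218.D3
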