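import Crest.Agent.N218.D3.Geo

/-!
# Row 218, block D3 (helper56): the piece over the second sheet is admissible (leaf PFR)
-/

set_option autoImplicit false
set_option linter.unusedVariables false
set_option maxHeartbeats 400000

open Set Module Metric
open scoped RealInnerProductSpace

noncomputable section

namespace Crest.Agent.N218.D3
open K In Sh

namespace Pfr

section
variable {k : ℕ} {F : Type} [NormedAddCommGroup F] [NormedSpace ℝ F]

theorem mn_tr (y : Pm.V k F) (g : Pm.Ix k) :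
    Pm.mn (fun i => y (i + g)) = fun i => Pm.mn y (i + g) :=
  funext fun i => by simp only [Pm.mn, add_right_comm]

theorem mn_tr_ne {y : Pm.V k F} (a : Pm.mn y ≠ 0) (g : Pm.Ix k) :
    Pm.mn (fun i => y (i + g)) ≠ 0 := fun e => a <| funext fun i => by
  have := congrFun ((mn_tr y g).symm.trans e) (i - g)
  rwa [sub_add_cancel] at this

theorem eq_tr (f : F → F) (s : ℝ) (y : Pm.V k F) (g : Pm.Ix k) :
    ((fun i => y (i + g) - f (y (i - 1 + g))) + s • Pm.mn fun i => y (i + g)) =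
      fun i => ((fun i => y i - f (y (i - 1))) + s • Pm.mn y) (i + g) :=
  funext fun i => by
    simp only [mn_tr, Pi.add_apply, Pi.smul_apply, add_sub_right_comm]

theorem norm_av (y : Pm.V k F) : ‖Pm.av k F y‖ ≤ ‖y‖ := by
  have c : (0 : ℝ) < Fintype.card (Pm.Ix k) := by exact_mod_cast Fintype.card_pos
  rw [Pm.av_apply, norm_smul, norm_inv, Real.norm_of_nonneg c.le, inv_mul_le_iff₀ c]
  refine (norm_sum_le _ _).trans ?_
  have := Finset.sum_le_card_nsmul Finset.univ (fun i => ‖y i‖) ‖y‖ fun i _ => norm_le_pi_norm y i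
  rwa [nsmul_eq_mul, Finset.card_univ] at this

end

/-- `eq0` for any order -/
def eqk {k : ℕ} (f : P.Y → P.Y) (s : ℝ) (y : Pm.V k P.Y) : Pm.V k P.Y :=
  (fun i => y i - f (y (i - 1))) + Real.exp s • Pm.mn y

theorem eq0_tr {k : ℕ} (f : P.Y → P.Y) (s : ℝ) (y : Pm.V k P.Y) (g : Pm.Ix k) :
    eqk f s (fun i => y (i + g)) = fun i => eqk f s y (i + g) := eq_tr f _ y g

theorem cp_of {X W : Type} [TopologicalSpace X] [T2Space X] [TopologicalSpace W] [T1Space W]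
    [Zero W] {O K : Set X} {f : X → W} (c : ContinuousOn f O) (k : IsCompact K) (s : K ⊆ O)
    (z : ∀ x ∈ O, f x = 0 → x ∈ K) : IsCompact {x ∈ O | f x = 0} := by
  have := k.of_isClosed_subset ((c.mono s).preimage_isClosed_of_isClosed k.isClosed
    (isClosed_singleton (x := 0))) inter_subset_left
  convert this using 1
  exact Set.ext fun x => ⟨fun a => ⟨z x a.1 a.2, a.2⟩, fun a => ⟨s a.1, a.2⟩⟩

variable {Φ : A.Fam} (h : P.Shape Φ (2 ^ 30))

theorem norm_j (η : P.Y) : ‖h.j η‖ ≤ ‖η‖ := by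
  have a := h.hF.jn η
  have b : ∀ x : ℝ, x ^ 2 ≤ ‖η‖ ^ 2 → |x| ≤ ‖η‖ := fun x e => abs_le_of_sq_le_sq e (norm_nonneg _)
  refine max_le (max_le ?_ ?_) ?_
  · exact (le_abs_self _).trans (b _ (by nlinarith [sq_nonneg (P.u1 η), sq_nonneg (P.u2 η)]))
  · rw [h.hF.j2]
    exact b _ (by nlinarith [sq_nonneg (P.u1 η), sq_nonneg ‖(h.j η).1.1‖])
  · rw [h.hF.j1]
    exact b _ (by nlinarith [sq_nonneg (P.u2 η), sq_nonneg ‖(h.j η).1.1‖])

theorem cont_rl : Continuous fun x : (E 3 × E 3) × P.Y => rl h x.1 x.2 := by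
  have a := h.hp.sm.continuous
  have b := h.gs.continuous
  have c : Continuous P.u1 := by unfold P.u1; fun_prop
  unfold rl P.piH
  fun_prop

theorem cont_eq0 {k : ℕ} :
    Continuous fun x : (E 3 × E 3) × ℝ × Pm.V k P.Y => eqk (rl h x.1) x.2.1 x.2.2 := by
  refine Continuous.add (continuous_pi fun i => Continuous.sub (by fun_prop) ?_) (by fun_prop)
  exact (cont_rl h).comp (f := fun x : (E 3 × E 3) × ℝ × Pm.V k P.Y => (x.1, x.2.2 (i - 1)))
    (by fun_prop)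

/-- every label comes from a point of `S² × S²` -/
theorem ex_X {n : E 3 × E 3} (hn : n ∈ N0) : ∃ x : Sk.X22, ∀ η, h.rX (x, η) = rl h n η := by
  have i1 : ⟪n.1, n.1 + n.2⟫ = 1 := by
    rw [inner_add_right, hn.2, real_inner_self_eq_norm_sq, hn.1]; norm_num
  have z : n.1 + n.2 ≠ 0 := fun e => by rw [e, inner_zero_right] at i1; norm_num at i1
  have p := norm_pos_iff.2 z
  have i2 : ⟪n.1, ‖n.1 + n.2‖⁻¹ • (n.1 + n.2)⟫ = ‖n.1 + n.2‖⁻¹ := by
    rw [real_inner_smul_right, i1, mul_one]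
  refine ⟨(⟨n.1, by simpa using hn.1⟩, ⟨‖n.1 + n.2‖⁻¹ • (n.1 + n.2), by
    rw [mem_sphere_zero_iff_norm, norm_smul, norm_inv, norm_norm, inv_mul_cancel₀ p.ne']⟩),
    fun η => ?_⟩
  simp only [P.Shape.rX, P.gX, P.nX, rl, i2, inv_pos.2 p, if_true, inv_inv, smul_inv_smul₀ p.ne',
    add_sub_cancel_left]

variable (t : Tt h.S) (k : ℕ)

/-- the total space -/
abbrev TT : Type := B0 × (ℂ × ℝ × ℝ) × Pm.V k P.Y
/-- the domain -/
def OO : Set (TT k) :=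
  {z | (z.1.1.1, z.2.1.2.1) ∈ t.S2.O ∧ ‖z.1.1.2‖ < t.S2.r ∧ Pm.mn z.2.2 ≠ 0}
/-- the map -/
def fa (a : Pm.V k P.Y → P.Y) (z : TT k) : ((ℝ × ℝ) × Pm.V k P.Y) × P.Y :=
  (((z.1.2, z.2.1.1.im), eqk (rl h (t.S2.W (z.1.1.1, z.2.1.2.1))) z.2.1.1.re z.2.2),
    h.j.symm ((z.1.1.2, t.S2.H (z.1.1.1, z.2.1.2.1)), z.2.1.2.2 - 1) - h.ε • a z.2.2)
/-- the map, with the average -/
abbrev ff := fa h t k (Pm.av k P.Y)

theorem c1 : Continuous fun z : TT k => (z.1.1.1, z.2.1.2.1) := by fun_prop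

theorem op : IsOpen (OO h t k) :=
  (t.S2.op.preimage (c1 k)).inter ((isOpen_lt (f := fun z : TT k => ‖z.1.1.2‖) (by fun_prop)
    continuous_const).inter (isOpen_ne_fun (f := fun z : TT k => Pm.mn z.2.2)
      (Pm.cont_mn (by fun_prop)) continuous_const))

theorem a5 : Continuous fun z : TT k => Pm.av k P.Y z.2.2 := by fun_prop

theorem c2 : ContinuousOn (fun z : TT k =>
    eqk (rl h (t.S2.W (z.1.1.1, z.2.1.2.1))) z.2.1.1.re z.2.2) (OO h t k) := by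
  have cW : ContinuousOn (fun z : TT k => t.S2.W (z.1.1.1, z.2.1.2.1)) (OO h t k) :=
    t.S2.sW.continuousOn.comp (c1 k).continuousOn fun _ a => a.1
  have a2 : Continuous fun z : TT k => (z.2.1.1.re, z.2.2) := by fun_prop
  have := (cont_eq0 h).comp_continuousOn (cW.prodMk a2.continuousOn)
  exact this

theorem c3 : ContinuousOn (fun z : TT k =>
    h.j.symm ((z.1.1.2, t.S2.H (z.1.1.1, z.2.1.2.1)), z.2.1.2.2 - 1)) (OO h t k) := by
  have cH : ContinuousOn (fun z : TT k => t.S2.H (z.1.1.1, z.2.1.2.1)) (OO h t k) :=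
    t.S2.sH.continuousOn.comp (c1 k).continuousOn fun _ a => a.1
  have a3 : Continuous fun z : TT k => z.1.1.2 := by fun_prop
  have a4 : Continuous fun z : TT k => z.2.1.2.2 - 1 := by fun_prop
  exact h.j.symm.continuous.comp_continuousOn' ((a3.continuousOn.prodMk cH).prodMk a4.continuousOn)

theorem ct : ContinuousOn (ff h t k) (OO h t k) := by
  have a1 : Continuous fun z : TT k => (z.1.2, z.2.1.1.im) := by fun_prop
  unfold ff fa
  exact (a1.continuousOn.prodMk (c2 h t k)).prodMk ((c3 h t k).fun_sub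
    ((a5 k).continuousOn.fun_const_smul h.ε))

theorem cp (hX : (h.pc k).Ok) (hZ : ∀ n ∈ N0, ∀ s (η : Pm.V k P.Y), Pm.mn η ≠ 0 →
    eqk (rl h n) s η = 0 → ‖n.2‖ < h.S.r / 2 ∧ ∀ i, ‖η i‖ ≤ h.A * 2 ^ 24) :
    IsCompact {z ∈ OO h t k | ff h t k z = 0} := by
  have r0 := t.S2.r0
  have kC := hX.cp.image (f := fun x : (Sk.X22 × ℝ) × Pm.V k P.Y => (x.1.2, x.2)) (by fun_prop)
  have kK := (((t.S2.cpt _ (half_lt_self r0) _ (half_lt_self r0)).prod
    (isCompact_closedBall (0 : E 8) (t.S2.r / 2))).prod (kC.prod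
    (isCompact_closedBall (0 : ℝ) (t.S2.r / 2)))).image (f := fun x =>
      (((((x.1.1.1, x.1.2), 0), ((x.2.1.1 : ℂ), x.1.1.2, x.2.2 + 1), x.2.1.2)) : TT k)) (by fun_prop)
  refine cp_of (ct h t k) kK ?_ fun z a e => ?_
  · rintro _ ⟨x, ⟨⟨a, b⟩, ⟨y, c, d⟩, -⟩, rfl⟩
    refine ⟨a.1, (mem_closedBall_zero_iff.1 b).trans_lt (half_lt_self r0), ?_⟩
    have := hX.fr _ c.1
    rwa [show y.2 = x.2.1.2 from congrArg Prod.snd d] at this
  · have e1 : z.1.2 = 0 := congrArg (·.1.1.1) e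
    have e2 : z.2.1.1.im = 0 := congrArg (·.1.1.2) e
    have e3 : eqk (rl h (t.S2.W (z.1.1.1, z.2.1.2.1))) z.2.1.1.re z.2.2 = 0 := congrArg (·.1.2) e
    have e4 : h.j.symm ((z.1.1.2, t.S2.H (z.1.1.1, z.2.1.2.1)), z.2.1.2.2 - 1) =
        h.ε • Pm.av k _ z.2.2 := sub_eq_zero.1 (congrArg (·.2) e)
    have n0 := (t.l2 _ a.1).2.1
    obtain ⟨b1, b2⟩ := hZ _ n0 _ _ a.2.2 e3
    have A0 : 0 ≤ h.A := zero_le_one.trans h.A1
    have b3 : ‖((z.1.1.2, t.S2.H (z.1.1.1, z.2.1.2.1)), z.2.1.2.2 - 1)‖ ≤ t.S2.r / 2 := by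
      rw [← h.j.apply_symm_apply (_, z.2.1.2.2 - 1), e4]
      refine (norm_j h _).trans ?_
      have s := h.small
      have := (norm_av z.2.2).trans ((pi_norm_le_iff_of_nonneg (by positivity)).2 b2)
      rw [norm_smul, Real.norm_of_nonneg h.ε0.le, ← t.hr]
      have := mul_le_mul_of_nonneg_left this h.ε0.le
      have := mul_nonneg h.ε0.le A0
      have := h.S.r0
      nlinarith
    have b4 := (norm_snd_le _).trans b3
    obtain ⟨x, hx⟩ := ex_X h n0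
    refine ⟨(((z.1.1.1, z.2.1.2.1), z.1.1.2), (z.2.1.1.re, z.2.2), z.2.1.2.2 - 1),
      ⟨⟨⟨a.1, (t.hr ▸ b1).le, (norm_snd_le _).trans ((norm_fst_le _).trans b3)⟩,
        mem_closedBall_zero_iff.2 ((norm_fst_le _).trans ((norm_fst_le _).trans b3))⟩,
        ⟨((x, z.2.1.1.re), z.2.2), ⟨⟨a.2.2, fun _ => trivial⟩, ?_⟩, rfl⟩,
        mem_closedBall_zero_iff.2 b4⟩, ?_⟩
    · refine Eq.trans ?_ e3
      exact congrArg (· + Real.exp z.2.1.1.re • Pm.mn z.2.2)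
        (funext fun i => congrArg (z.2.2 i - ·) (hx _))
    · exact Prod.ext (Prod.ext rfl e1.symm) (Prod.ext (Prod.ext (Complex.ext rfl
        ((Complex.ofReal_im _).trans e2.symm)) (Prod.ext rfl (sub_add_cancel _ _))) rfl)

theorem ff_tr (z : TT k) (g : Pm.Ix k) : ff h t k (z.1, z.2.1, fun i => z.2.2 (i + g)) =
    (((ff h t k z).1.1, fun i => (ff h t k z).1.2 (i + g)), (ff h t k z).2) := by
  simp only [ff, fa, eq0_tr, Pm.av_add]

/-- `P1` for any order -/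
def Pk (a : Pm.V k P.Y → P.Y) : PB ((Rep.triv (Gk k) B0).prod (XX (ℂ × ℝ × ℝ) k P.Y)).ls
    ((XX (ℝ × ℝ) k P.Y).prod (Rep.triv (Gk k) P.Y)) := ⟨OO h t k, fa h t k a⟩

theorem fr (hX : (h.pc k).Ok) (hZ : ∀ n ∈ N0, ∀ s (η : Pm.V k P.Y), Pm.mn η ≠ 0 →
    eqk (rl h n) s η = 0 → ‖n.2‖ < h.S.r / 2 ∧ ∀ i, ‖η i‖ ≤ h.A * 2 ^ 24) :
    (Pk h t k (Pm.av k P.Y)).Fr := by
  refine ⟨op h t k, fun g z a => ⟨a.1, a.2.1, mn_tr_ne a.2.2 g.toAdd⟩, ct h t k, fun g z a => ?_,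
    cp h t k hX hZ, fun z a g e => ?_⟩
  · exact ff_tr h t k z g.toAdd
  · exact fr_of_mn (g := g.toAdd) a.1.2.2 fun i => congrFun (congrArg (fun w : TT k => w.2.2) e) i

theorem eq0_eq : eq0 = eqk (k := 21) := rfl

/-- `P1` with any average (the kernel must never unfold `av 21`) -/
def Pa (a : VY → P.Y) : PB X1.ls VV :=
  ⟨{z : B0 × (ℂ × ℝ × ℝ) × VY | (z.1.1.1, z.2.1.2.1) ∈ t.S2.O ∧ ‖z.1.1.2‖ < t.S2.r ∧
      Pm.mn z.2.2 ≠ 0},
    fun z : B0 × (ℂ × ℝ × ℝ) × VY =>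
      (((z.1.2, z.2.1.1.im), eq0 (rl h (t.S2.W (z.1.1.1, z.2.1.2.1))) z.2.1.1.re z.2.2),
        h.j.symm ((z.1.1.2, t.S2.H (z.1.1.1, z.2.1.2.1)), z.2.1.2.2 - 1) - h.ε • a z.2.2)⟩

theorem Pa_eq (a : VY → P.Y) : Pa h t a = Pk h t 21 a := rfl

theorem P1_eq : P1 h t = Pk h t 21 (Pm.av 21 P.Y) :=
  Eq.trans rfl (Pa_eq h t (Pm.av 21 P.Y))

end Pfr

/-- **leaf PFR** -/
theorem pfr (hX : OKX) (hZ : ZL) : PFR := fun Φ h t => by
  have a := hZ Φ h t
  rw [Pfr.eq0_eq] at a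
  rw [Pfr.P1_eq]
  exact Pfr.fr h t 21 (hX Φ h t) a

end Crest.Agent.N218.D3

end
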