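import Crest.Agent.N218.D3.Ev0
import Crest.Agent.N218.D3.Nuk
import Crest.Agent.N218.K.Eht
import Crest.Agent.N218.Th.Fin

/-! Row 218, block D3 (helper33): the Hopf class over `Y`, stabilised by `M`. -/

set_option autoImplicit false
set_option linter.unusedSectionVars false

open Set Module OnePoint

noncomputable section

namespace Crest.Agent.N218.D3
open K Dgk Nk

namespace Pl
section ex
variable {X : Type} [TopologicalSpace X] {A B S : Ex X} {F : H1 A B} {D : SD A S} {l : KX B.E}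
  {ρ : KX X} {x : KX S.E}

theorem ecl_eig (k : Ecl F D l ρ x) : ps _ l = B.sm ρ l := by
  obtain ⟨r, μ, e1, e2⟩ := k
  have := congrArg (KA (Cn.res F)) e2
  rw [map_sub, map_mul, Orb.KA_ps, e1, ka_ka _ _ (cR B.p) (fun _ => rfl),
    ka_ka _ _ (cR (S.s.comp B.p)) (fun _ => rfl), ← pull_ka, ← pull_ka, pull_comp,
    show pull S.s x = 0 from r, map_zero] at this
  exact sub_eq_zero.1 this

theorem ecl_null (k : Ecl F D l ρ x) (hl : B.Rd l) : pull F.f l = 0 := by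
  obtain ⟨-, μ, e1, -⟩ := k
  let j : unitInterval → C(A.E, A.E × unitInterval) := fun t => ⟨fun e => (e, t), by fun_prop⟩
  let H : (j 0).Homotopy (j 1) := ⟨⟨fun z => (z.2, z.1), by fun_prop⟩, fun _ => rfl, fun _ => rfl⟩
  let φ : Cn F →ₐ[ℂ] C(A.E × unitInterval, ℂ) := (AlgHom.fst ℂ _ _).comp (Cn F).val
  have a : pull (j 0) (KA φ μ) = pull F.f l := by
    rw [← e1]
    exact ka_sq _ _ _ _ (fun u => ContinuousMap.ext fun e => u.2.1 e) μ
  have b : pull (j 1) (KA φ μ) = pull (B.s.comp A.p) l := by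
    rw [← e1]
    exact ka_sq _ _ _ _ (fun u => ContinuousMap.ext fun e => u.2.2.1 e) μ
  rw [← a, pull_htpy H, b, pull_comp, show pull B.s l = 0 from hl, map_zero]
end ex

variable {Γ : Type} [Group Γ] [TopologicalSpace Γ]

theorem c1 : Continuous (1 : Γ →* Unit) := continuous_const

variable (Γ) in
/-- a space with the trivial action -/
abbrev tr (W : LS Unit) : LS Γ := W.res 1 c1

/-- the shuffle -/
def shf (A : Type) [NormedAddCommGroup A] [NormedSpace ℝ A] [FiniteDimensional ℝ A] (M : Rep Γ) :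
    (XT A M).ls.xr.Iso ((tr Γ (tv (A × ℝ))).prod M.ls) :=
  ⟨⟨⟨fun z : (A × M.W) × ℝ => (((z.1.1, z.2), z.1.2) : (A × ℝ) × M.W),
    fun z : (A × ℝ) × M.W => (((z.1.1, z.2), z.1.2) : (A × M.W) × ℝ), fun _ => rfl, fun _ => rfl⟩,
    (continuous_fst.fst.prodMk continuous_snd).prodMk continuous_fst.snd,
    (continuous_fst.fst.prodMk continuous_snd).prodMk continuous_fst.snd⟩, fun _ _ => rfl⟩

theorem shf_shf {A : Type} [NormedAddCommGroup A] [NormedSpace ℝ A] [FiniteDimensional ℝ A]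
    (M : Rep Γ) (z : OnePoint ((A × ℝ) × M.W)) : OnePoint.map (shf A M).e
      (OnePoint.map (fun w : (A × ℝ) × M.W => ((w.1.1, w.2), w.1.2)) z) = z := by
  induction z using OnePoint.rec <;> rfl

variable [CompactSpace Γ] (Y : GS Γ)

/-- the projection to the point -/
def pj : C(Y.Z, P0.Z) := .const _ ()

theorem pj_eqv : Eqv (1 : Γ →* Unit) (pj Y) := fun _ _ => rfl

/-- the map of sphere bundles -/
abbrev pm (W : LS Unit) := ((pj_eqv Y).eqm c1 W).hm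

variable {Y}

theorem pm_pl {V W : LS Unit} {g : P0.Z × V.Z → OnePoint W.Z} (h : Pm P0 V W g) :
    Pm Y (tr Γ V) (tr Γ W) fun z => g ((), z.2) := by
  refine ⟨h.ct.comp (continuous_const.prodMk continuous_snd), fun K' k => (h.pr K' k).imp
    fun K a => ⟨a.1, fun _ => a.2 ()⟩, fun γ y w => (h.eq () () w).trans ?_⟩
  induction g ((), w) using OnePoint.rec <;> rfl

/-- the pull-back of the defect to `Y` -/
theorem ecl_pl {V W : LS Unit} {g : P0.Z × V.Z → OnePoint W.Z} {F0 : H1 (Sb P0 V) (Sb P0 W)}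
    (r0 : Rg F0 g) {F : H1 (Sb Y (tr Γ V)) (Sb Y (tr Γ W))} (r : Rg F fun z => g ((), z.2))
    {l : KS P0 W} {k : ℕ} {x : KS P0 V.xr} (e : Ecl F0 (sd P0 V) l (3 ^ k) x) :
    Ecl F (sd Y (tr Γ V)) (pull (pm Y W).f l) (3 ^ k) (pull (pm Y V.xr).f x) := by
  have := Orb.ecl_pull (pm Y V) (pm Y W) (pm Y V.xr) (F' := F) (sb_ind
    (fun y => (congrArg (pm Y W).f (F.f_inf y)).trans (F0.f_inf _).symm)
    fun y w => (congrArg (pm Y W).f (r y w)).trans (r0 _ w).symm) (D' := sd Y (tr Γ V))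
    (fun z t => by obtain ⟨y, w, rfl⟩ := pt_surj z; rfl) e
  rwa [map_pow, map_ofNat] at this

theorem ut_pl {W : LS Unit} {l : KS P0 W} (h : UT P0 W l) : UT Y (tr Γ W) (pull (pm Y W).f l) :=
  h.pull c1 (pj_eqv Y) ((pj_eqv Y).mp c1 W)

end Pl

open Pl in
/-- **the Hopf class over `Y`** -/
theorem plb : PLB := by
  intro Γ _ _ _ Y A _ _ _ B _ _ _ M c ⟨a, hA⟩ ⟨b, hB⟩ hc ⟨k, g, t, ν, tg, tt, hν, et, x⟩ ξ C cut r
    l ρ tl el
  have ok := fp_ok (ok_st (C := ℝ) hc)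
  obtain ⟨F0, r0, p0⟩ := cut.rp ok
  have m := pm_pl (Y := Y) (cut.pm ok)
  obtain ⟨F1, r1⟩ := m.exists_rg
  obtain ⟨F2, r2⟩ := (pm_stg M.ls m).exists_rg
  have x1 := ecl_pl r0 r1 (eht _ _ _ _ _ _ (p0.ht_hm ok) x)
  obtain ⟨g0, u0, -⟩ := ut_even thom P0 (B × ℝ) (b + 1) (by rw [finrank_prod, hB, finrank_self]; ring)
  obtain ⟨t0, v0, -⟩ := ut_even thom P0 ((A × ℝ) × ℝ) (a + 1)
    (by rw [finrank_prod, finrank_prod, hA, finrank_self]; ring)
  have ug := ut_pl (Y := Y) (u0.of_th tg)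
  have ut : UT Y (tr Γ (tv (A × ℝ))).xr (pull (pm Y (tv (A × ℝ)).xr).f t) :=
    ut_pl (Y := Y) (W := (tv (A × ℝ)).xr) (UT.of_th (W := (tv (A × ℝ)).xr) v0 tt)
  have et1 : ps _ (pull (pm Y (tv (A × ℝ)).xr).f t) =
      (Sb Y (tr Γ (tv (A × ℝ))).xr).sm (3 ^ (k + 4)) (pull (pm Y (tv (A × ℝ)).xr).f t) := by
    rw [ps_pull, et, map_zsmul, sm_z]; push_cast; rfl
  have tl2 := th_iso (shf B M).symm (LS.Iso.mp _ Y) tl
  have el2 := eig_iso (shf B M).symm (LS.Iso.mp _ Y) el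
  obtain ⟨w, hw, ew⟩ := ug.rel_l tl2.1
  obtain ⟨σ, eσ⟩ := (ug.cancel_l hw (ew ▸ tl2)).ex_eig
  have eρ : ρ = 3 ^ k * σ := tl2.inj (el2.symm.trans (ew ▸ eig_xm (ecl_eig x1) eσ))
  have x2 := ecl_stg M.ls m r1 r2 x1 ug.1 hw eσ
  have x3 := ecl_h1 ((shf A M).h1 Y) ((shf B M).h1 Y)
    (((shf A M).prod (.refl (LS.triv Γ ℝ))).h1 Y) (F' := C) (sb_ind
      (fun y => (congrArg ((shf B M).h1 Y).f (C.f_inf y)).trans (F2.f_inf y).symm) fun y w => by
        refine (congrArg ((shf B M).h1 Y).f (r y w)).trans (Eq.trans ?_ (r2 y _).symm)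
        exact congrArg (pt Y ((tr Γ (tv (B × ℝ))).prod M.ls) y) (shf_shf M _)) (iso_sd _) x2
  have e1 : pull ((shf B M).h1 Y).f (xm (pull (pm Y _).f g) w) = l :=
    (congrArg _ ew.symm).trans (pull_pull_id _ _ (shf B M).h1_symm l)
  have e2 : xm (V := (tr Γ (tv (A × ℝ))).xr) (pull (pm Y (tv (A × ℝ)).xr).f (ν • t)) (ps _ w) =
      (Sb Y _).sm (ν * σ) (xm (V := (tr Γ (tv (A × ℝ))).xr) (pull (pm Y (tv (A × ℝ)).xr).f t) w) := by
    rw [map_zsmul]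
    refine (xm_zsmul (V := (tr Γ (tv (A × ℝ))).xr) ν _ _).trans ?_
    rw [eσ, sm_z, ← Ex.sm_sm]
    exact congrArg _ ((smd Y _ _).mul_sm _ _ _)
  have e3 : ∀ {P Q : Ex Y.Q} (G : H1 P Q) (s : KX Y.Q) (z : KX Q.E),
      pull G.f (Q.sm s z) = P.sm s (pull G.f z) := fun G s z => by rw [G.pull_sm, pull_id]
  rw [e1, ← eρ, e2, e3, e3] at x3
  exact ⟨k, ν, _, σ, hν, th_iso _ (LS.Iso.mp _ Y) (th_iso _
      (LS.Iso.mp _ Y) (ut.th_l (ug.cancel_l hw (ew ▸ tl2)))), eρ, eig_iso _ (LS.Iso.mp _ Y)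
        (eig_iso _ (LS.Iso.mp _ Y) (eig_xm et1 eσ)), ecl_null x3 tl.1, x3⟩

end Crest.Agent.N218.D3

end
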