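import Crest.Agent.N218.D3.Geo

/-! # Row 218, block D3 (helper66): the transport of the piece -/

set_option autoImplicit false
set_option linter.unusedVariables false

open Set Module
open scoped RealInnerProductSpace

noncomputable section

namespace Crest.Agent.N218.D3
open K In Sh

namespace Tq

/-- the label of a pair of vectors -/
def nn (p q : E3) : E3 × E3 := (‖p‖⁻¹ • p, (‖p‖ / ⟪p, q⟫) • q - ‖p‖⁻¹ • p)

theorem ne {p q : E3} (h : 0 < ⟪p, q⟫) : p ≠ 0 ∧ q ≠ 0 :=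
  ⟨fun e => by simp [e] at h, fun e => by simp [e] at h⟩

theorem nn_mem {p q : E3} (h : 0 < ⟪p, q⟫) : nn p q ∈ N0 := by
  have a := (norm_pos_iff.2 (ne h).1).ne'
  refine ⟨norm_smul_inv_norm (𝕜 := ℝ) (ne h).1, ?_⟩
  rw [nn, inner_sub_right, real_inner_smul_left, real_inner_smul_right, real_inner_smul_left,
    real_inner_smul_right, real_inner_self_eq_norm_mul_norm]
  field_simp
  ring

theorem in_rad {p q : E3} (a : p ≠ 0) (b : q ≠ 0) :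
    ⟪(Emb.rad E3 p : E3), (Emb.rad E3 q : E3)⟫ = ‖p‖⁻¹ * (‖q‖⁻¹ * ⟪p, q⟫) := by
  rw [Emb.rad_coe a, Emb.rad_coe b, real_inner_smul_left, real_inner_smul_right]

theorem nX_rad {p q : E3} (h : 0 < ⟪p, q⟫) : P.nX (Emb.rad E3 p, Emb.rad E3 q) = nn p q := by
  have a := (norm_pos_iff.2 (ne h).1).ne'
  have b := (norm_pos_iff.2 (ne h).2).ne'
  simp only [P.nX, nn]
  rw [in_rad (ne h).1 (ne h).2, Emb.rad_coe (ne h).1, Emb.rad_coe (ne h).2, smul_smul]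
  congr 3
  field_simp

theorem nn_c : ContinuousOn (fun x : E3 × E3 => nn x.1 x.2) {x | 0 < ⟪x.1, x.2⟫} := by
  have a : ContinuousOn (fun x : E3 × E3 => ‖x.1‖⁻¹ • x.1) {x | 0 < ⟪x.1, x.2⟫} :=
    (continuous_fst.norm.continuousOn.inv₀ fun x (h : 0 < ⟪x.1, x.2⟫) =>
      (norm_pos_iff.2 (ne h).1).ne').smul continuousOn_fst
  have b : ContinuousOn (fun x : E3 × E3 => (‖x.1‖ / ⟪x.1, x.2⟫) • x.2) {x | 0 < ⟪x.1, x.2⟫} :=
    have c : Continuous fun x : E3 × E3 => ⟪x.1, x.2⟫ := by fun_prop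
    (continuous_fst.norm.continuousOn.div₀ c.continuousOn fun x (h : 0 < ⟪x.1, x.2⟫) =>
      h.ne').smul continuousOn_snd
  have c : ContinuousOn (fun x : E3 × E3 => (‖x.1‖ / ⟪x.1, x.2⟫) • x.2 - ‖x.1‖⁻¹ • x.1)
    {x | 0 < ⟪x.1, x.2⟫} := fun x h => (b x h).sub (a x h)
  unfold nn
  exact a.prodMk c

/-- the pair of vectors of a label -/
def pp (n : E3 × E3) (z : ℝ × ℝ) : E3 × E3 :=
  (Real.exp z.1 • n.1, Real.exp z.2 • ‖n.1 + n.2‖⁻¹ • (n.1 + n.2))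

theorem in_one {n : E3 × E3} (h : n ∈ N0) : ⟪n.1, n.1 + n.2⟫ = 1 := by
  rw [inner_add_right, h.2, real_inner_self_eq_norm_mul_norm, h.1]; norm_num

theorem sum_ne {n : E3 × E3} (h : n ∈ N0) : n.1 + n.2 ≠ 0 := fun e => by
  simpa [e] using in_one h

theorem pp_nn {p q : E3} (h : 0 < ⟪p, q⟫) :
    pp (nn p q) (Real.log ‖p‖, Real.log ‖q‖) = (p, q) := by
  have a := norm_pos_iff.2 (ne h).1
  have b := norm_pos_iff.2 (ne h).2
  simp only [pp, nn, add_sub_cancel, Real.exp_log a, Real.exp_log b, smul_smul, norm_smul,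
    Real.norm_of_nonneg (div_pos a h).le]
  refine Prod.ext ?_ ?_
  · rw [mul_inv_cancel₀ a.ne', one_smul]
  · rw [show ‖q‖ * ((‖p‖ / ⟪p, q⟫ * ‖q‖)⁻¹ * (‖p‖ / ⟪p, q⟫)) = 1 by field_simp, one_smul]

theorem nn_pp {n : E3 × E3} (h : n ∈ N0) (z : ℝ × ℝ) : 0 < ⟪(pp n z).1, (pp n z).2⟫ ∧
    nn (pp n z).1 (pp n z).2 = n ∧ (Real.log ‖(pp n z).1‖, Real.log ‖(pp n z).2‖) = z := by
  have a := norm_pos_iff.2 (sum_ne h)
  have b : ‖(pp n z).1‖ = Real.exp z.1 := by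
    rw [pp, norm_smul, h.1, mul_one, Real.norm_of_nonneg (Real.exp_pos _).le]
  have c : ‖(pp n z).2‖ = Real.exp z.2 := by
    rw [pp, norm_smul, norm_smul, norm_inv, norm_norm, inv_mul_cancel₀ a.ne', mul_one,
      Real.norm_of_nonneg (Real.exp_pos _).le]
  have d : ⟪(pp n z).1, (pp n z).2⟫ = Real.exp z.1 * (Real.exp z.2 * ‖n.1 + n.2‖⁻¹) := by
    simp only [pp, real_inner_smul_left, real_inner_smul_right, in_one h, mul_one]
    ring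
  have e : (Real.exp z.1)⁻¹ • (pp n z).1 = n.1 := inv_smul_smul₀ (Real.exp_pos _).ne' _
  refine ⟨d ▸ by positivity, ?_, by rw [b, c, Real.log_exp, Real.log_exp]⟩
  rw [nn, b, d, e, pp, smul_smul, smul_smul, show Real.exp z.1 / (Real.exp z.1 * (Real.exp z.2 *
    ‖n.1 + n.2‖⁻¹)) * Real.exp z.2 * ‖n.1 + n.2‖⁻¹ = 1 by field_simp, one_smul, add_sub_cancel_left]

theorem far (r : ℝ) : ∃ n ∈ N0, r ≤ ‖n.2‖ :=
  ⟨(EuclideanSpace.single 0 1, EuclideanSpace.single 1 r), ⟨by simp, by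
    simp [EuclideanSpace.inner_single_left]⟩, by simpa using le_abs_self r⟩

theorem av_le {k : ℕ} {y : Pm.V k P.Y} {c : ℝ} (h : ∀ i, ‖y i‖ ≤ c) : ‖Pm.av k _ y‖ ≤ c := by
  have p : (0 : ℝ) < Fintype.card (Pm.Ix k) := Nat.cast_pos.2 Fintype.card_pos
  rw [Pm.av_apply, norm_smul, norm_inv, Real.norm_natCast, inv_mul_le_iff₀ p]
  simpa using (norm_sum_le_of_le Finset.univ fun i _ => h i)

/-- the shuffle -/
def shf (A B : Type) [NormedAddCommGroup A] [NormedSpace ℝ A] [NormedAddCommGroup B]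
    [NormedSpace ℝ B] : (((ℝ × ℝ) × A) × B) × ℝ × ℝ →L[ℝ] (((ℝ × ℝ) × ℝ) × A) × B × ℝ where
  toFun v := (((v.2, v.1.1.1.2), v.1.1.2), v.1.2, v.1.1.1.1)
  map_add' _ _ := rfl
  map_smul' _ _ := rfl
  cont := by fun_prop

theorem shf_apply {A B : Type} [NormedAddCommGroup A] [NormedSpace ℝ A] [NormedAddCommGroup B]
    [NormedSpace ℝ B] (a b : ℝ) (c : A) (d : B) (z : ℝ × ℝ) :
    shf A B ((((a, b), c), d), z) = (((z, b), c), d, a) := rfl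

/-- the source -/
abbrev W1 : Type := B0 × (ℂ × ℝ × ℝ) × VY
/-- the target -/
abbrev W2 : Type := (((E3 × E3) × ℂ) × VY) × P.Y × ℝ

variable {Φ : A.Fam} (h : P.Shape Φ (2 ^ 30)) (t : Tt h.S)

/-- the point of the second sheet -/
def xi (x : W2) : (ℝ × E 3) × ℝ := t.Ξ (nn x.1.1.1.1 x.1.1.1.2, (h.j x.2.1).1.2)

/-- the transport -/
def T : Tp X1 VV Z2 X2 V2 where
  U₁ := U1 h t
  U₂ := {x : W2 | 0 < ⟪x.1.1.1.1, x.1.1.1.2⟫ ∧ ‖(nn x.1.1.1.1 x.1.1.1.2).2‖ < t.S2.r ∧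
    ‖(h.j x.2.1).1.2‖ < t.S2.r}
  i := fun x : W2 => (((((xi h t x).1, (h.j x.2.1).1.1), x.2.2),
    (x.1.1.2, (xi h t x).2, (h.j x.2.1).2 + 1), x.1.2),
    Real.log ‖x.1.1.1.1‖, Real.log ‖x.1.1.1.2‖)
  j := fun z : W1 × ℝ × ℝ => (((pp (t.S2.W (z.1.1.1.1, z.1.2.1.2.1)) z.2, z.1.2.1.1), z.1.2.2),
    h.j.symm ((z.1.1.1.2, t.S2.H (z.1.1.1.1, z.1.2.1.2.1)), z.1.2.1.2.2 - 1), z.1.1.2)
  G _ := shf (Rr 21 P.Y).W P.Y
  o₂ := by
    have c : ContinuousOn (fun x : W2 => (‖(nn x.1.1.1.1 x.1.1.1.2).2‖, ‖(h.j x.2.1).1.2‖))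
        {x | 0 < ⟪x.1.1.1.1, x.1.1.1.2⟫} :=
      (nn_c.comp (f := fun x : W2 => x.1.1.1) (by fun_prop) fun _ a => a).snd.norm.prodMk
        (by fun_prop)
    exact c.isOpen_inter_preimage (isOpen_lt continuous_const (by fun_prop))
      (isOpen_Iio.prod isOpen_Iio)
  ci := by
    have c : ContinuousOn (xi h t) {x : W2 | 0 < ⟪x.1.1.1.1, x.1.1.1.2⟫} :=
      t.cΞ.comp_continuousOn
        ((nn_c.comp (f := fun x : W2 => x.1.1.1) (by fun_prop) fun _ a => a).prodMk (by fun_prop))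
    refine ContinuousOn.mono (s := {x : W2 | 0 < ⟪x.1.1.1.1, x.1.1.1.2⟫}) ?_ fun _ a => a.1
    exact (((c.fst.prodMk (by fun_prop)).prodMk (by fun_prop)).prodMk
      ((ContinuousOn.prodMk (by fun_prop) (c.snd.prodMk (by fun_prop))).prodMk (by fun_prop))).prodMk
      ((log_on.comp (f := fun x : W2 => x.1.1.1.1) (by fun_prop) fun _ a => (ne a).1).prodMk
        (log_on.comp (f := fun x : W2 => x.1.1.1.2) (by fun_prop) fun _ a => (ne a).2))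
  cj := by
    have m : Continuous fun z : W1 × ℝ × ℝ => (z.1.1.1.1, z.1.2.1.2.1) := by fun_prop
    have a := t.S2.sW.continuousOn.comp (s := U1 h t ×ˢ univ) m.continuousOn fun _ a => a.1
    have b := t.S2.sH.continuousOn.comp (s := U1 h t ×ˢ univ) m.continuousOn fun _ a => a.1
    have c := a.fst.add a.snd
    have d : Continuous fun z : W1 × ℝ × ℝ => Real.exp z.2.1 := by fun_prop
    have e : Continuous fun z : W1 × ℝ × ℝ => Real.exp z.2.2 := by fun_prop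
    have f : Continuous fun z : W1 × ℝ × ℝ => z.1.1.1.2 := by fun_prop
    have g : Continuous fun z : W1 × ℝ × ℝ => z.1.2.1.2.2 - 1 := by fun_prop
    have k := (d.continuousOn.smul a.fst).prodMk (e.continuousOn.smul
      ((c.norm.inv₀ fun _ u => (norm_pos_iff.2 (sum_ne (t.l2 _ u.1).2.1)).ne').smul c))
    have l := h.j.symm.continuous.comp_continuousOn
      ((f.continuousOn.prodMk b).prodMk g.continuousOn)
    exact ((k.prodMk continuous_fst.snd.fst.fst.continuousOn).prodMk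
      continuous_fst.snd.snd.continuousOn).prodMk (l.prodMk continuous_fst.fst.snd.continuousOn)
  cG := continuousOn_const
  mi := fun x a => by
    obtain ⟨u, v, w⟩ := t.r2 _ (nn_mem a.1) a.2.1 _ a.2.2
    refine ⟨u, Prod.ext (Prod.ext (Prod.ext ?_ rfl) rfl) (Prod.ext ?_ rfl)⟩
    · exact (congrArg (pp · _) v).trans (pp_nn a.1)
    · change h.j.symm ((_, t.S2.H (xi h t x)), _ + 1 - 1) = _
      rw [xi, w, add_sub_cancel_right]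
      exact h.j.symm_apply_apply _
  mj := fun z a => by
    obtain ⟨-, u, v⟩ := t.l2 _ a
    obtain ⟨b, c, d⟩ := nn_pp u z.2
    have e := h.j.apply_symm_apply ((z.1.1.1.2, t.S2.H (z.1.1.1.1, z.1.2.1.2.1)), z.1.2.1.2.2 - 1)
    have f : xi h t (((pp (t.S2.W (z.1.1.1.1, z.1.2.1.2.1)) z.2, z.1.2.1.1), z.1.2.2),
        h.j.symm ((z.1.1.1.2, t.S2.H (z.1.1.1.1, z.1.2.1.2.1)), z.1.2.1.2.2 - 1), z.1.1.2) =
        (z.1.1.1.1, z.1.2.1.2.1) := by rw [xi, c, e, v]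
    refine ⟨⟨b, (congrArg (‖·.2‖) c).trans_lt (t.S2.bd _ a).1,
      (congrArg (‖·.1.2‖) e).trans_lt (t.S2.bd _ a).2⟩, Prod.ext (Prod.ext (Prod.ext (Prod.ext
        (congrArg (·.1) f) (congrArg (·.1.1) e)) rfl) (Prod.ext (Prod.ext rfl (Prod.ext
        (congrArg (·.2) f) ((congrArg (·.2 + 1) e).trans (sub_add_cancel _ _)))) rfl)) d⟩
  ei := fun g x a => ⟨a, rfl⟩
  eG := fun g x a v z => rfl
  bG := fun x a => Function.bijective_iff_has_inverse.2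
    ⟨fun v => ((((v.2.2, v.1.1.2), v.1.2), v.2.1), v.1.1.1), fun _ => rfl, fun _ => rfl⟩

theorem pc_h (x : Sk.X22) (s : ℝ) (y : VY) :
    (h.pc 21).h ((x, s), y) = eq0 (fun η => h.rX (x, η)) s y := rfl

/-- the values -/
abbrev U2 : Type := (((ℝ × ℝ) × ℝ) × VY) × P.Y × ℝ

theorem trf {Γ : Type} [Group Γ] [TopologicalSpace Γ] {X₁ V₁ Z X₂ V₂ : Rep Γ}
    (T : Tp X₁ V₁ Z X₂ V₂) (P : PB X₁.ls V₁) (x : X₂.W) :
    (T.tr P).f x = T.G (T.i x).1 (P.f (T.i x).1, (T.i x).2) := rfl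

theorem T_y (x : W2) : @Eq VY ((T h t).i x).1.2.2 x.1.2 := rfl

theorem p1_f (z : W1) : (P1 h t).f z =
    (((z.1.2, z.2.1.1.im), eq0 (rl h (t.S2.W (z.1.1.1, z.2.1.2.1))) z.2.1.1.re z.2.2),
      h.j.symm ((z.1.1.2, t.S2.H (z.1.1.1, z.2.1.2.1)), z.2.1.2.2 - 1) -
        h.ε • Pm.av 21 _ z.2.2) := rfl

theorem p1_g (z : W1) (y : VY) (e : z.2.2 = y) : ∃ a b, a = Pm.av 21 _ y ∧
    b = eq0 (rl h (t.S2.W (z.1.1.1, z.2.1.2.1))) z.2.1.1.re y ∧ (P1 h t).f z =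
    (((z.1.2, z.2.1.1.im), b), h.j.symm ((z.1.1.2, t.S2.H (z.1.1.1, z.2.1.2.1)), z.2.1.2.2 - 1) -
        h.ε • a) := e ▸ ⟨_, _, rfl, rfl, p1_f h t z⟩

theorem tr_f (x : W2) : ∃ a b, a = Pm.av 21 _ x.1.2 ∧
    b = eq0 (rl h (t.S2.W (xi h t x))) x.1.1.2.re x.1.2 ∧ @Eq U2 (((T h t).tr (P1 h t)).f x)
    ((((Real.log ‖x.1.1.1.1‖, Real.log ‖x.1.1.1.2‖), x.1.1.2.im), b),
      h.j.symm (((h.j x.2.1).1.1, t.S2.H (xi h t x)), (h.j x.2.1).2 + 1 - 1) - h.ε • a, x.2.2) :=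
  have ⟨a, b, c, d, e⟩ := p1_g h t ((T h t).i x).1 _ (T_y h t x)
  ⟨a, b, c, d, (trf (T h t) (P1 h t) x).trans
    (congrArg (fun v => (T h t).G ((T h t).i x).1 (v, ((T h t).i x).2)) e)⟩

theorem d1_f (x : W2) : @Eq U2 ((D1 h).f x)
    ((((Real.log ‖x.1.1.1.1‖, Real.log ‖x.1.1.1.2‖), x.1.1.2.im),
      (h.pc 21).h (((Emb.rad E3 x.1.1.1.1, Emb.rad E3 x.1.1.1.2), x.1.1.2.re), x.1.2)),
      x.2.1 - h.ε • Pm.av 21 _ x.1.2, x.2.2) := rfl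

theorem d1_z (x : W2) (e : x ∈ (D1 h).Z) :
    (h.pc 21).h (((Emb.rad E3 x.1.1.1.1, Emb.rad E3 x.1.1.1.2), x.1.1.2.re), x.1.2) = 0 ∧
      x.2.1 = h.ε • Pm.av 21 _ x.1.2 := by
  have a := d1_f h x
  rw [e.2] at a
  generalize Pm.av 21 _ x.1.2 = u at a ⊢
  generalize (h.pc 21).h _ = v at a ⊢
  exact ⟨(congrArg (·.1.2) a).symm, sub_eq_zero.1 (congrArg (·.2.1) a).symm⟩

theorem rX_eq {p q : E3} (a : 0 < ⟪p, q⟫) :
    (fun η => h.rX ((Emb.rad E3 p, Emb.rad E3 q), η)) = rl h (nn p q) := by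
  have b := norm_pos_iff.2 (ne a).1
  have c := norm_pos_iff.2 (ne a).2
  funext η
  rw [P.Shape.rX, P.gX, if_pos (by rw [in_rad (ne a).1 (ne a).2]; positivity), nX_rad a, rl]

theorem mem_d1 (x : W2) :
    x ∈ (D1 h).O ↔ (x.1.1.1.1 ≠ 0 ∧ x.1.1.1.2 ≠ 0) ∧ Pm.mn x.1.2 ≠ 0 :=
  ⟨fun a => ⟨a.1.1, a.2.1⟩, fun a => ⟨⟨a.1, trivial⟩, a.2, fun _ => trivial⟩⟩

theorem mem_tr (x : W2) : x ∈ ((T h t).tr (P1 h t)).O ↔ x ∈ (T h t).U₂ ∧ xi h t x ∈ t.S2.O ∧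
    ‖(h.j x.2.1).1.1‖ < t.S2.r ∧ Pm.mn x.1.2 ≠ 0 := Iff.rfl

theorem key (zl : ZL) {p q : E3} (hp : p ≠ 0) (hq : q ≠ 0) {y : VY} (hy : Pm.mn y ≠ 0) {s : ℝ}
    (e1 : eq0 (fun η => h.rX ((Emb.rad E3 p, Emb.rad E3 q), η)) s y = 0) {ξ : P.Y}
    (e2 : ξ = h.ε • Pm.av 21 _ y) :
    (0 < ⟪p, q⟫ ∧ ‖(nn p q).2‖ < t.S2.r ∧ ‖(h.j ξ).1.2‖ < t.S2.r) ∧ ‖(h.j ξ).1.1‖ < t.S2.r := by
  have a : 0 < ⟪p, q⟫ := by
    by_contra c
    obtain ⟨n, u, v⟩ := far (h.S.r / 2)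
    have k : (fun η => h.rX ((Emb.rad E3 p, Emb.rad E3 q), η)) = rl h n := funext fun η => by
      rw [P.Shape.rX, P.gX, if_neg, rl, h.g0 _ _ (Or.inl v)]
      rw [in_rad hp hq, not_lt]
      exact mul_nonpos_of_nonneg_of_nonpos (by positivity)
        (mul_nonpos_of_nonneg_of_nonpos (by positivity) (not_lt.1 c))
    rw [k] at e1
    exact (zl Φ h t n u s y hy e1).1.not_ge v
  rw [rX_eq h a] at e1
  obtain ⟨b, c⟩ := zl Φ h t _ (nn_mem a) s y hy e1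
  have c := av_le c
  generalize Pm.av 21 _ y = u at c e2
  have r0 := t.S2.r0
  have s := h.small
  rw [t.hr] at b s
  have d : ‖ξ‖ < t.S2.r := by
    rw [e2, norm_smul, Real.norm_of_nonneg h.ε0.le]
    have := mul_le_mul_of_nonneg_left c h.ε0.le
    have := mul_pos h.ε0 (one_pos.trans_le h.A1)
    nlinarith
  have n := h.hF.jn ξ
  have d1 : ‖(h.j ξ).1.1‖ < t.S2.r := (abs_le_of_sq_le_sq' (by
    nlinarith [sq_nonneg (P.u2 ξ), sq_nonneg (P.u1 ξ)]) (norm_nonneg ξ)).2.trans_lt d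
  have d2 : ‖(h.j ξ).1.2‖ < t.S2.r := by
    rw [h.hF.j2, Real.norm_eq_abs]
    exact (abs_le_of_sq_le_sq' (by
      nlinarith [sq_nonneg ‖(h.j ξ).1.1‖, sq_nonneg (P.u1 ξ)]) (norm_nonneg ξ) |> abs_le.2).trans_lt d
  exact ⟨⟨a, b.trans (by linarith), d2⟩, d1⟩

theorem eq_f (x : W2) (a : x ∈ (T h t).U₂) : ((T h t).tr (P1 h t)).f x = (D1 h).f x := by
  obtain ⟨u, v, w⟩ := t.r2 _ (nn_mem a.1) a.2.1 _ a.2.2
  obtain ⟨b, c, d, f, e⟩ := tr_f h t x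
  refine e.trans (Eq.trans ?_ (d1_f h x).symm)
  rw [pc_h, rX_eq h a.1, ← d, f, xi, v, w, add_sub_cancel_right, Prod.mk.eta,
    h.j.symm_apply_apply]

end Tq

open Tq in
/-- **the transport** -/
theorem tpd (zl : ZL) : TPD := fun Φ h t =>
  ⟨T h t, rfl, fun x a => have a := (mem_tr h t x).1 a; (mem_d1 h x).2 ⟨ne a.1.1, a.2.2.2⟩,
    fun x a => eq_f h t x a.1, fun x a =>
      have ⟨e1, e2⟩ := d1_z h x a
      have b := (mem_d1 h x).1 a.1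
      have k := key h t zl b.1.1 b.1.2 b.2 ((pc_h h _ _ _).symm.trans e1) e2
      (mem_tr h t x).2 ⟨k.1, (t.r2 _ (nn_mem k.1.1) k.1.2.1 _ k.1.2.2).1, k.2, b.2⟩⟩

end Crest.Agent.N218.D3

end
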