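import Crest.Agent.N218.D3.Fin0
import Crest.Agent.N218.D3.Htp
import Crest.Agent.N218.D3.Plb
import Crest.Agent.N218.D3.Okx
import Crest.Agent.N218.D3.Pfr
import Crest.Agent.N218.D3.Esh
import Crest.Agent.N218.D3.Dis
import Crest.Agent.N218.D3.Tpd

/-!
# Row 218, block D3 (helper76): assembly modulo three leaves
-/

set_option autoImplicit false

namespace Crest.Agent.N218.D3
open K

theorem evd0 : EVD := evd cbd (htp cmp') plb

theorem d31 (h2 : LBL) (h4 : CHB) (h6 : EIS) : D3T :=
  d30 (htp cmp') plb h2 (pfr okx zl) h4 (esh ze lm zl) h6 (dis okx) (tpd zl)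

end Crest.Agent.N218.D3
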