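import Crest.Agent.N218.D3.Defs
import Crest.Agent.N218.P.Shape
import Crest.Agent.N218.In.Emb
import Crest.Agent.N218.In.Gen
import Crest.Agent.N218.Pm.Pc

/-!
# Row 218, block D3 (helper76): the geometric wrapper (FROZEN) and the glue
-/

set_option autoImplicit false
set_option linter.unusedVariables false

open Set Module
open scoped RealInnerProductSpace

noncomputable section

namespace Crest.Agent.N218.D3
open K In Sh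

/-- the data of `TotOf` -/
structure Tt (S : P.Sht) where
  m : E 8 →L[ℝ] E 8 →L[ℝ] E 8
  S1 : Sheet (E 8 × E 3) (E 8) (ℝ × E 3) norm
  S2 : Sheet (ℝ × E 3) ℝ (E 3 × E 3) (fun n => ‖n.2‖)
  Ξ : (E 3 × E 3) × ℝ → (ℝ × E 3) × ℝ
  ρ : ℝ
  hm : ∀ s x, ‖m s x‖ = ‖s‖ * ‖x‖
  hb : Relation.ReflTransGen Hb (S1.O, fun z => (S1.W z, S1.H z)) (hopf m)
  hρ : ρ < S1.r
  cΞ : Continuous Ξ
  l2 : ∀ z ∈ S2.O, ‖z.1‖ < ρ ∧ S2.W z ∈ N0 ∧ Ξ (S2.W z, S2.H z) = z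
  r2 : ∀ n ∈ N0, ‖n.2‖ < S2.r → ∀ η, ‖η‖ < S2.r →
    Ξ (n, η) ∈ S2.O ∧ S2.W (Ξ (n, η)) = n ∧ S2.H (Ξ (n, η)) = η
  hr : S.r = S2.r
  r21 : S2.r ≤ S1.r
  hO : S.O = {z | (z.1, z.2.1) ∈ S1.O ∧ ‖S1.H (z.1, z.2.1)‖ < S2.r ∧
    (S1.W (z.1, z.2.1), z.2.2) ∈ S2.O}
  hW : ∀ z, S.W z = S2.W (S1.W (z.1, z.2.1), z.2.2)
  hH : ∀ z, S.H z = (S1.H (z.1, z.2.1), S2.H (S1.W (z.1, z.2.1), z.2.2))

theorem Tt.ex {S : P.Sht} (h : P.TotOf S) : Nonempty (Tt S) :=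
  let ⟨m, S1, S2, Ξ, ρ, a, b, c, d, e, f, g, i, j, k, l⟩ := h
  ⟨⟨m, S1, S2, Ξ, ρ, a, b, c, d, e, f, g, i, j, k, l⟩⟩

/-- the group -/
abbrev G2 : Type := Gk 21
/-- the fibre -/
abbrev VY : Type := Pm.V 21 P.Y
/-- source of the label map -/
abbrev A0 : Type := A.Eu 11 × E 8
/-- target of the label map -/
abbrev B0 : Type := ((ℝ × E 3) × E 8) × ℝ
/-- coordinates `((w, ξ₁, ξᵤ), η)` -/
abbrev MM : Rep G2 := XX (ℂ × ℝ × ℝ) 21 P.Y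
abbrev VV : Rep G2 := (XX (ℝ × ℝ) 21 P.Y).prod (Rep.triv G2 P.Y)
abbrev XE : Rep G2 := (Rep.triv G2 A0).prod MM
abbrev X1 : Rep G2 := (Rep.triv G2 B0).prod MM
abbrev X2 : Rep G2 := (XX ((E3 × E3) × ℂ) 21 P.Y).prod (Rep.triv G2 (P.Y × ℝ))
abbrev V2 : Rep G2 := (XX ((ℝ × ℝ) × ℝ) 21 P.Y).prod (Rep.triv G2 (P.Y × ℝ))
abbrev Z2 : Rep G2 := Rep.triv G2 (ℝ × ℝ)

/-- the equation of a self-map `f` with parameter `s` -/
def eq0 (f : P.Y → P.Y) (s : ℝ) (y : VY) : VY :=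
  (fun i => y i - f (y (i - 1))) + Real.exp s • Pm.mn y

section
variable {Φ : A.Fam} (h : P.Shape Φ (2 ^ 30)) (t : Tt h.S)

/-- the local map with label `n` -/
def rl (n : E 3 × E 3) (η : P.Y) : P.Y := P.piH (P.pl h.ε h.p) η + h.g (n, η)
/-- the family in the coordinates `Y` -/
def rE (x : A.Eu 11) (y : P.Y) : P.Y := h.i.symm (Φ.r (x, h.i y))
/-- the centre of a sheet -/
def ctr (z : (E 8 × E 3) × E 8 × ℝ) : P.Y := h.j.symm (z.2 - h.S.H z, 1)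
/-- from the orthogonal to the gnomonic chart -/
def ch (l : ℝ) (p : A.Eu 11) : E 8 × E 3 := ((1 - l) * ‖p‖ + l * ⟪h.e', p⟫)⁻¹ • h.π p

/-- the label map -/
def cL (l : ℝ) : Pp A0 B0 :=
  ({a | 0 < ⟪h.e', a.1⟫ ∧ (ch h l a.1, a.2) ∈ t.S1.O},
    fun a => ((t.S1.W (ch h l a.1, a.2), t.S1.H (ch h l a.1, a.2)), Real.log ‖a.1‖))
/-- the box of labels -/
def Bx : Set B0 := {b | ‖b.1.1‖ < t.S1.r ∧ ‖b.1.2‖ < t.S1.r}
/-- the domain of the second sheet -/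
def U1 : Set (B0 × (ℂ × ℝ × ℝ) × VY) := {z | (z.1.1.1, z.2.1.2.1) ∈ t.S2.O}

/-- the piece over the second sheet -/
def P1 : PB X1.ls VV :=
  ⟨{z : B0 × (ℂ × ℝ × ℝ) × VY | (z.1.1.1, z.2.1.2.1) ∈ t.S2.O ∧ ‖z.1.1.2‖ < t.S2.r ∧
      Pm.mn z.2.2 ≠ 0},
    fun z : B0 × (ℂ × ℝ × ℝ) × VY =>
      (((z.1.2, z.2.1.1.im), eq0 (rl h (t.S2.W (z.1.1.1, z.2.1.2.1))) z.2.1.1.re z.2.2),
        h.j.symm ((z.1.1.2, t.S2.H (z.1.1.1, z.2.1.2.1)), z.2.1.2.2 - 1) - h.ε • Pm.av 21 _ z.2.2)⟩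

/-- the total problem, rescaled, with the average as a new variable -/
def E1 : PB XE.ls VV :=
  ⟨{z : A0 × (ℂ × ℝ × ℝ) × VY | z.1.1 ≠ 0 ∧ Pm.mn z.2.2 ≠ 0},
    fun z : A0 × (ℂ × ℝ × ℝ) × VY =>
      (((Real.log ‖z.1.1‖, z.2.1.1.im),
        h.ε⁻¹ • eq0 (rE h (‖z.1.1‖⁻¹ • z.1.1)) z.2.1.1.re (h.ε • z.2.2)),
        h.j.symm ((z.1.2, z.2.1.2.1), z.2.1.2.2) - h.ε • Pm.av 21 _ z.2.2)⟩

/-- the piece over `S² × S²`, with the average as a new variable -/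
def D1 : PB X2.ls V2 :=
  ⟨{z : (((E3 × E3) × ℂ) × VY) × P.Y × ℝ | z.1 ∈ (e22.line.pb (h.pc 21)).O},
    fun z : (((E3 × E3) × ℂ) × VY) × P.Y × ℝ =>
      ((e22.line.pb (h.pc 21)).f z.1, z.2.1 - h.ε • Pm.av 21 _ z.1.2, z.2.2)⟩
end

/-- chains of bordisms -/
abbrev Bq {Γ : Type} [Group Γ] [TopologicalSpace Γ] {X : LS Γ} {V : Rep Γ} :
    PB X V → PB X V → Prop := Relation.EqvGen PB.Bd

set_option hygiene false in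
/-- quantify over the example -/
local macro "∀S " t:term : term =>
  `(∀ (Φ : A.Fam) (h : P.Shape Φ (2 ^ 30)) (t : Tt h.S), $t)

/-! ## leaves -/

/-- representations -/
def REP : Prop := Adm 12 XE VV ∧ Adm 5 X1 VV ∧ Adm 5 X2 V2 ∧ Cx VV.ls ∧ Cx V2.ls ∧
  Even (finrank ℝ VV.W)
/-- the total problem is admissible -/
def OKE : Prop := ∀ Φ : A.Fam, (Pm.Ec 21 univ fun p : Sk.S11 × C.Y => Sk.fr Φ.r p.1 p.2).Ok
/-- the piece is admissible -/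
def OKX : Prop := ∀S (h.pc 21).Ok
/-- free zeros of the local map -/
def ZL : Prop := ∀S ∀ n ∈ N0, ∀ s η, Pm.mn η ≠ 0 → eq0 (rl h n) s η = 0 →
  ‖n.2‖ < h.S.r / 2 ∧ ∀ i, ‖η i‖ ≤ h.A * 2 ^ 24
/-- the local model -/
def LM : Prop := ∀S ∀ x b η, ‖x‖ = 1 → 0 < ⟪h.e', x⟫ → (h.π x, b) ∈ h.S.O → ‖η‖ ≤ h.A * 2 ^ 25 →
  rE h x (ctr h (h.π x, b) + h.ε • η) = ctr h (h.π x, b) + h.ε • rl h (h.S.W (h.π x, b)) η
/-- free zeros of the total map -/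
def ZE : Prop := ∀S ∀ x s y, ‖x‖ = 1 → Pm.mn y ≠ 0 → eq0 (rE h x) s y = 0 →
  0 < ⟪h.e', x⟫ ∧ (h.π x, (h.j (Pm.av 21 _ y)).1) ∈ h.S.O ∧
    ∀ i, ‖y i - ctr h (h.π x, (h.j (Pm.av 21 _ y)).1)‖ ≤ h.ε * h.A * 2 ^ 24
/-- shears along fixed vectors -/
def SHR : Prop := ∀ {Γ : Type} [Group Γ] [TopologicalSpace Γ] (X V : Rep Γ) (Q : PB X.ls V)
  (U : Set X.W) (c : X.W → X.W), Q.Fr → Q.O ⊆ U → IsOpen U → ContinuousOn c U →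
  (∀ g, ∀ x ∈ U, X.ρ g x ∈ U ∧ c (X.ρ g x) = c x ∧ X.ρ g (c x) = c x) →
  (∀ x ∈ U, ∀ s : ℝ, x + s • c x ∈ U ∧ c (x + s • c x) = c x) →
  Q.Bd ⟨{x : X.W | x ∈ U ∧ x + c x ∈ Q.O}, fun x : X.W => Q.f (x + c x)⟩
/-- the label map -/
def LBL : Prop := ∀S Okp (cL h t 1) ∧
  (∀ K ⊆ Bx h t, IsCompact K → IsCompact {a | a ∈ (cL h t 1).1 ∧ (cL h t 1).2 a ∈ K}) ∧
  Nu (st (cL h t 1) ℝ)
/-- the piece over the sheet is admissible -/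
def PFR : Prop := ∀S (P1 h t).Fr
/-- change of the chart -/
def CHB : Prop := ∀S (cmp (cL h t 0) (P1 h t)).Bd (cmp (cL h t 1) (P1 h t))
/-- the total problem is the pull-back of the piece -/
def ESH : Prop := ∀S (E1 h).Fr → (cmp (cL h t 0) (P1 h t)).Fr →
  Bq (E1 h) (cmp (cL h t 0) (P1 h t))
/-- linear bookkeeping, total problem -/
def EIS : Prop := ∀ g p s (I : AI 12), ∀S (E1 h).Fr ∧
  Pm.Pe (I.ν (ck 21) XE VV (E1 h)) (Sk.ev (i11 g p s I) 21 _ (Sk.fr Φ.r))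
/-- linear bookkeeping, piece -/
def DIS : Prop := ∀ g p s (J : AI 5), ∀S (D1 h).Fr ∧
  Pm.Pe (J.ν (ck 21) X2 V2 (D1 h)) ((i22 g p s J).pa 21 (Pm.sp P.Y) (h.pc 21))
/-- the transport -/
def TPD : Prop := ∀S ∃ T : Tp X1 VV Z2 X2 V2, T.U₁ = U1 h t ∧ (T.tr (P1 h t)).Le (D1 h)
/-- the cell -/
def CEL : Prop := ∀S Cell (U1 h t)

/-- **block D3** -/
def D3T : Prop := ∀ g p s (I : AI 12) (J : AI 5), SE I → SD5 J → P.D3 (i11 g p s I) (i22 g p s J)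

/-! ## the glue -/

theorem Bq.nu {m : ℕ} (J : AI m) {X V : Rep G2} (a : Adm m X V) {P Q : PB X.ls V} (h : Bq P Q) :
    J.ν (ck 21) X V P = J.ν (ck 21) X V Q := by
  induction h with
  | rel _ _ h => exact J.bd _ _ _ (gq (by norm_num)) a _ _ h
  | refl => rfl
  | symm _ _ _ h => exact h.symm
  | trans _ _ _ _ _ h h' => exact h.trans h'

theorem pe_half {a : QQ} (h : Pm.Pe a Sk.half) : a = Sk.half :=
  h.elim id fun e => e.trans Sk.neg_half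

theorem odd_half {ν : ℤ} (h : Odd ν) : ν • Sk.half = Sk.half := by
  obtain ⟨n, rfl⟩ := h
  have : Sk.half + Sk.half = 0 := neg_eq_iff_add_eq_zero.1 Sk.neg_half
  rw [add_zsmul, one_zsmul, mul_comm, mul_zsmul, two_zsmul, this, zsmul_zero, zero_add]

theorem half_of {x : QQ} (h : 32 • x = 0) (e : (3 : ℤ) ^ 14 • x = Sk.half) : x = Sk.half := by
  have h' : (32 : ℤ) • x = 0 := by exact_mod_cast h
  have : x = (9 : ℤ) • (3 : ℤ) ^ 14 • x - (1345210 : ℤ) • (32 : ℤ) • x := by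
    rw [smul_smul, smul_smul, ← sub_smul]; norm_num
  rw [this, e, h', smul_zero, sub_zero]
  exact odd_half (by decide)

theorem d3 (hP : PUSH) (hE : EVD) (h1 : REP) (h2 : LBL) (h3 : PFR) (h4 : CHB) (h5 : ESH)
    (h6 : EIS) (h7 : DIS) (h8 : TPD) (h9 : CEL) : D3T := fun g p s I J hI hJ Φ h ha => by
  obtain ⟨t⟩ := Tt.ex h.hS
  obtain ⟨a1, a2, a3, c1, c2, ev⟩ := h1
  have q := gq (k := 21) (by norm_num)
  obtain ⟨T, u, le⟩ := h8 Φ h t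
  obtain ⟨fD, pD⟩ := h7 g p s J Φ h t
  obtain ⟨fT, pT⟩ := hP J hJ (ck 21) X1 VV Z2 X2 V2 q a2 a3 c1 c2 ev (show Even (finrank ℝ (ℝ × ℝ)) by simp) T
    (u ▸ h9 Φ h t) (P1 h t) (h3 Φ h t) (u ▸ fun _ a => a.1)
  have e1 : J.ν (ck 21) X1 VV (P1 h t) = Sk.half := by
    rw [J.bd _ _ _ q a3 _ _ (le.hb fT fD), pe_half (a := J.ν (ck 21) X2 V2 (D1 h)) (ha ▸ pD)] at pT
    exact pe_half (Pm.Pe.symm pT)
  obtain ⟨l1, l2, l3⟩ := h2 Φ h t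
  have r1 := t.S1.r0
  obtain ⟨-, ν, o, e2⟩ := hE I J hI hJ (ck 21) MM VV q a1 a2 c1 (by simp [Nat.even_iff]) (cL h t 1)
    (Bx h t) l1 (Convex.starConvex (s := Bx h t) (by
      have : Bx h t = (Metric.ball 0 t.S1.r ×ˢ Metric.ball 0 t.S1.r) ×ˢ univ := by
        ext; simp [Bx]
      rw [this]
      exact ((convex_ball _ _).prod (convex_ball _ _)).prod convex_univ) ⟨by simpa, by simpa⟩)
    l2 l3 (P1 h t) (h3 Φ h t)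
    fun x a => ⟨(t.l2 _ a.1).1.trans t.hρ, a.2.1.trans_le t.r21⟩
  rw [e1, odd_half o] at e2
  obtain ⟨fE, pE⟩ := h6 g p s I Φ h t
  have b := h4 Φ h t
  rw [(h5 Φ h t fE b.1).nu I a1, I.bd _ _ _ q a1 _ _ b, half_of (I.den _ _ _ _) e2] at pE
  exact pe_half pE.symm

end Crest.Agent.N218.D3

end
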