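import Crest.Agent.N218.D3.Geo

/-!
# Row 218, block D3, leaf LBL (helper3): the label map
-/

set_option autoImplicit false
set_option linter.unusedVariables false

open Set Module
open scoped RealInnerProductSpace

noncomputable section

namespace Crest.Agent.N218.D3
open K In Sh

namespace L2

variable {Φ : A.Fam} (h : P.Shape Φ (2 ^ 30)) (t : Tt h.S)

theorem pe : h.π h.e' = 0 := by
  have := h.πn h.e'
  rw [real_inner_self_eq_norm_sq, h.e1] at this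
  have a : ‖(h.π h.e').1‖ ^ 2 = 0 := by nlinarith [sq_nonneg ‖(h.π h.e').2‖, sq_nonneg ‖(h.π h.e').1‖]
  have b : ‖(h.π h.e').2‖ ^ 2 = 0 := by nlinarith
  exact Prod.ext (by simpa using a) (by simpa using b)

theorem ex_v : ∃ v : E 8 × E 3 → A.Eu 11, Continuous v ∧ (∀ x, h.π (v x) = x ∧ ⟪h.e', v x⟫ = 1) ∧
    ∀ p, ⟪h.e', p⟫ = 1 → v (h.π p) = p := by
  let L : A.Eu 11 →L[ℝ] (E 8 × E 3) × ℝ := h.π.prod (innerSL ℝ h.e')
  have b : Function.Bijective L.toLinearMap := by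
    refine ⟨(injective_iff_map_eq_zero _).2 fun x hx => ?_, fun y => ?_⟩
    · have a : h.π x = 0 := congrArg Prod.fst hx
      have b : ⟪h.e', x⟫ = 0 := congrArg Prod.snd hx
      have := h.πn x
      rw [a, b] at this
      have c : h.K ^ 2 * ‖x‖ ^ 2 = 0 := by simpa using this.symm
      simpa [h.K0.ne'] using c
    · obtain ⟨x, hx⟩ := h.πs y.1
      refine ⟨x + (y.2 - ⟪h.e', x⟫) • h.e', Prod.ext ?_ ?_⟩
      · show h.π _ = _
        rw [map_add, map_smul, pe, smul_zero, add_zero, hx]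
      · show ⟪h.e', _⟫ = _
        rw [inner_add_right, inner_smul_right, real_inner_self_eq_norm_sq, h.e1]; ring
  let M := (LinearEquiv.ofBijective _ b).toContinuousLinearEquiv
  refine ⟨fun x => M.symm (x, 1), by fun_prop, fun x => ?_, fun p hp => ?_⟩
  · have := M.apply_symm_apply (x, 1)
    exact ⟨congrArg Prod.fst this, congrArg Prod.snd this⟩
  · exact M.symm_apply_eq.2 (Prod.ext rfl hp.symm)

theorem ch1 (p : A.Eu 11) : ch h 1 p = ⟪h.e', p⟫⁻¹ • h.π p := by simp [ch]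

/-- the chart -/
def ee (a : A0) : ((E 8 × E 3) × E 8) × ℝ := ((ch h 1 a.1, a.2), Real.log ‖a.1‖)

theorem ex_oe : ∃ e, Oe e {a : A0 | 0 < ⟪h.e', a.1⟫} (ee h) := by
  obtain ⟨v, c, a, b⟩ := ex_v h
  have n : ∀ x, 0 < ‖v x‖ := fun x => norm_pos_iff.2 fun e => by simpa [e] using (a x).2
  have m : ∀ s x, 0 < Real.exp s * ‖v x‖⁻¹ := fun s x => mul_pos (Real.exp_pos _) (inv_pos.2 (n x))
  have ce : ContinuousOn (fun a : A0 => ⟪h.e', a.1⟫⁻¹) {a : A0 | 0 < ⟪h.e', a.1⟫} :=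
    ContinuousOn.inv₀ (by fun_prop) fun _ k => ne_of_gt k
  have cl : ContinuousOn (fun a : A0 => Real.log ‖a.1‖) {a : A0 | 0 < ⟪h.e', a.1⟫} :=
    ContinuousOn.log (by fun_prop) fun x k => norm_ne_zero_iff.2 fun e => by simp [e] at k
  have ci : Continuous fun x => ‖v x‖⁻¹ := c.norm.inv₀ fun x => (n x).ne'
  refine ⟨fun z => ((Real.exp z.2 * ‖v z.1.1‖⁻¹) • v z.1.1, z.1.2), ?_,
    isOpen_lt continuous_const (by fun_prop), ?_, fun z => ?_, fun z => ?_, fun p k => ?_⟩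
  · have := ci.comp (by fun_prop : Continuous fun z : ((E 8 × E 3) × E 8) × ℝ => z.1.1)
    exact (((Real.continuous_exp.comp continuous_snd).mul this).smul (by fun_prop)).prodMk
      continuous_fst.snd
  · unfold ee
    simp only [ch1]
    exact ((ce.smul (Continuous.continuousOn (by fun_prop))).prodMk
      continuous_snd.continuousOn).prodMk cl
  · show 0 < ⟪h.e', _ • _⟫
    rw [inner_smul_right, (a _).2, mul_one]; exact m _ _
  · refine Prod.ext (Prod.ext ?_ rfl) ?_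
    · show ch h 1 (_ • _) = _
      rw [ch1, inner_smul_right, (a _).2, mul_one, map_smul, (a _).1, smul_smul,
        inv_mul_cancel₀ (m _ _).ne', one_smul]
    · show Real.log ‖_ • _‖ = _
      rw [norm_smul, Real.norm_of_nonneg (m _ _).le, mul_assoc, inv_mul_cancel₀ (n _).ne', mul_one,
        Real.log_exp]
  · have k' : 0 < ⟪h.e', p.1⟫ := k
    have q : 0 < ‖p.1‖ := norm_pos_iff.2 fun e => by simp [e] at k'
    have u : v (ch h 1 p.1) = ⟪h.e', p.1⟫⁻¹ • p.1 := by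
      rw [ch1, ← map_smul]
      exact b _ (by rw [inner_smul_right, inv_mul_cancel₀ k'.ne'])
    refine Prod.ext ?_ rfl
    show (Real.exp (Real.log ‖p.1‖) * ‖v (ch h 1 p.1)‖⁻¹) • v (ch h 1 p.1) = p.1
    rw [u, Real.exp_log q, norm_smul, Real.norm_of_nonneg (inv_pos.2 k').le, smul_smul]
    rw [show ‖p.1‖ * (⟪h.e', p.1⟫⁻¹ * ‖p.1‖)⁻¹ * ⟪h.e', p.1⟫⁻¹ = 1 by field_simp, one_smul]

/-- compact sets are carried along the chart -/
theorem cp_cm {A A' B : Type} [TopologicalSpace A] [TopologicalSpace A'] {e : A' → A} {U : Set A}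
    {e' : A → A'} (o : Oe e U e') (p : Pp A' B) (K : Set B)
    (k : IsCompact {a | a ∈ p.1 ∧ p.2 a ∈ K}) :
    IsCompact {a | a ∈ (cm p U e').1 ∧ (cm p U e').2 a ∈ K} := by
  convert k.image o.ct using 1
  refine Set.ext fun a => ⟨fun b => ⟨e' a, ⟨b.1.2, b.2⟩, o.ri a b.1.1⟩, ?_⟩
  rintro ⟨b, c, rfl⟩
  simp only [cm, mem_ofPred_eq, o.li]
  exact ⟨⟨o.mem b, c.1⟩, c.2⟩

theorem ok_cm {A A' B : Type} [TopologicalSpace A] [TopologicalSpace A'] [TopologicalSpace B]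
    [Zero B] {e : A' → A} {U : Set A} {e' : A → A'} (o : Oe e U e') {p : Pp A' B} (k : Okp p) :
    Okp (cm p U e') :=
  ⟨o.ct'.isOpen_inter_preimage o.op k.op, k.ct.comp (o.ct'.mono fun _ b => b.1) fun _ b => b.2,
    cp_cm o p {0} k.cp⟩

/-- the label map of the first sheet -/
def c0 : Pp ((E 8 × E 3) × E 8) ((ℝ × E 3) × E 8) := (t.S1.O, fun z => (t.S1.W z, t.S1.H z))

theorem c0_ct : ContinuousOn (c0 h t).2 (c0 h t).1 :=
  t.S1.sW.continuousOn.prodMk t.S1.sH.continuousOn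

theorem st_ct {C : Type} [TopologicalSpace C] : ContinuousOn (st (c0 h t) C).2 (st (c0 h t) C).1 :=
  ((c0_ct h t).comp continuous_fst.continuousOn fun _ k => k).prodMk continuous_snd.continuousOn

theorem pr {C : Type} [TopologicalSpace C] [T2Space C] (K : Set (((ℝ × E 3) × E 8) × C))
    (b : ∀ x ∈ K, ‖x.1.1‖ < t.S1.r ∧ ‖x.1.2‖ < t.S1.r) (k : IsCompact K) :
    IsCompact {a | a ∈ (st (c0 h t) C).1 ∧ (st (c0 h t) C).2 a ∈ K} := by
  obtain ⟨r, r0, r1⟩ : ∃ r < t.S1.r, ∀ x ∈ K, max ‖x.1.1‖ ‖x.1.2‖ ≤ r := by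
    rcases K.eq_empty_or_nonempty with rfl | n
    · exact ⟨0, t.S1.r0, by simp⟩
    · obtain ⟨x, m, hx⟩ := k.exists_isMaxOn n
        (f := fun x => max ‖x.1.1‖ ‖x.1.2‖) (Continuous.continuousOn (by fun_prop))
      exact ⟨_, max_lt (b x m).1 (b x m).2, fun y hy => hx hy⟩
  have c := (t.S1.cpt r r0 r r0).prod (k.image continuous_snd)
  have d := ((st_ct h t (C := C)).mono (fun _ u => u.1.1 :
    {z | z ∈ t.S1.O ∧ ‖t.S1.W z‖ ≤ r ∧ ‖t.S1.H z‖ ≤ r} ×ˢ (Prod.snd '' K) ⊆ _)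
      ).preimage_isClosed_of_isClosed c.isClosed k.isClosed
  convert c.of_isClosed_subset d inter_subset_left using 1
  exact Set.ext fun a => ⟨fun u => ⟨⟨⟨u.1, max_le_iff.1 (r1 _ u.2)⟩, _, u.2, rfl⟩, u.2⟩,
    fun u => ⟨u.1.1.1, u.2⟩⟩

theorem ok_st {C : Type} [TopologicalSpace C] [T2Space C] [Zero C] : Okp (st (c0 h t) C) :=
  ⟨t.S1.op.preimage continuous_fst, st_ct h t, pr h t {0} (by
    rintro _ rfl; simpa using t.S1.r0) isCompact_singleton⟩

theorem ok0 : Okp (c0 h t) := ⟨t.S1.op, c0_ct h t, by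
  convert t.S1.cpt 0 t.S1.r0 0 t.S1.r0 using 1
  ext; simp [c0]⟩

theorem ok_hopf {m : E 8 →L[ℝ] E 8 →L[ℝ] E 8} (hm : ∀ s x, ‖m s x‖ = ‖s‖ * ‖x‖) :
    Okp (hopf m) := by
  refine ⟨isOpen_ne_fun continuous_snd continuous_const, by unfold hopf; fun_prop, ?_⟩
  convert (isCompact_singleton (x := (0 : E 8 × E 3))).prod (isCompact_sphere (0 : E 8) 1) using 1
  ext ⟨⟨x, u⟩, y⟩
  simp only [hopf, mem_ofPred_eq, Prod.mk_eq_zero, mem_prod, mem_singleton_iff,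
    mem_sphere_zero_iff_norm]
  refine ⟨fun ⟨h1, ⟨h2, h3⟩, h4⟩ => ⟨⟨?_, h3⟩, sub_eq_zero.1 h2⟩,
    fun ⟨⟨h1, h2⟩, h3⟩ => ⟨norm_ne_zero_iff.1 (by rw [h3]; exact one_ne_zero),
      ⟨sub_eq_zero.2 h3, h2⟩, by rw [h1, map_zero]⟩⟩
  have := hm y x
  rw [h4, norm_zero] at this
  simpa [h1] using this.symm

end L2

open L2 in
/-- **LBL** -/
theorem lbl2 (hN : NUK) (hH : HOPF) : LBL := fun Φ h t => by
  obtain ⟨e, o⟩ := ex_oe h
  refine ⟨ok_cm o (ok_st h t), fun K b k => cp_cm o _ K (pr h t K b k), ?_⟩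
  have n0 : Nu (c0 h t) := (hN.hb _ _ t.hb (ok0 h t) (ok_hopf t.hm)).2 (hH _ t.hm)
  have n1 := hN.st (C := ℝ × ℝ) _ (by simp; decide) (by simp; decide) (by simp) (ok0 h t) n0
  have o2 : Oe (fun z : ((E 8 × E 3) × E 8) × ℝ × ℝ => (e (z.1, z.2.1), z.2.2))
      {a : A0 × ℝ | 0 < ⟪h.e', a.1.1⟫} fun a => ((ee h a.1).1, (ee h a.1).2, a.2) := by
    have c := o.ct
    have c' : ContinuousOn (fun a : A0 × ℝ => ee h a.1) {a : A0 × ℝ | 0 < ⟪h.e', a.1.1⟫} :=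
      o.ct'.comp continuous_fst.continuousOn fun _ k => k
    exact ⟨by fun_prop, o.op.preimage continuous_fst,
      c'.fst.prodMk (c'.snd.prodMk continuous_snd.continuousOn), fun z => o.mem _,
      fun z => by simp only [o.li], fun a k => Prod.ext (o.ri _ k) rfl⟩
  have n2 := hN.emb _ _ _ _ o2 (by simp) (by simp; decide) (ok_st h t) n1
  have n3 := hN.tg (ContinuousLinearEquiv.prodAssoc ℝ _ ℝ ℝ).symm _ (ok_cm o2 (ok_st h t)) n2
  convert n3 using 1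
  exact Prod.ext rfl (funext fun _ => rfl)

end Crest.Agent.N218.D3

end
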