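import Crest.Agent.N218.D3.Deg

/-!
# Row 218, block D3 (helper58): the Hopf problem is the suspension of the desuspended one
-/

set_option autoImplicit false
set_option linter.unusedVariables false
set_option linter.unusedSectionVars false

open Set Module

noncomputable section

namespace Crest.Agent.N218.D3
open K Dgk

variable {F : Type} [NormedAddCommGroup F] [NormedSpace ℝ F] [FiniteDimensional ℝ F]
  (L : (ℝ × F) ≃L[ℝ] Sh.E 8) (m : Sh.E 8 →L[ℝ] Sh.E 8 →L[ℝ] Sh.E 8)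

/-- the desuspended Hopf problem -/
def s0 : Pp (Sh.E 8 × F) (Sh.E 8) := ({w | w.1 ≠ 0}, fun w => m w.1 (L (‖w.1‖ - 1, w.2)))

variable {m}

theorem m_zero (hm : ∀ s x, ‖m s x‖ = ‖s‖ * ‖x‖) {s x : Sh.E 8} (hs : s ≠ 0) (h : m s x = 0) :
    x = 0 := by
  have := hm s x
  rw [h, norm_zero] at this
  exact norm_eq_zero.1 ((mul_eq_zero.1 this.symm).resolve_left (norm_ne_zero_iff.2 hs))

theorem ok_s0 (hm : ∀ s x, ‖m s x‖ = ‖s‖ * ‖x‖) : Okp (s0 L m) := by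
  refine ⟨isOpen_ne_fun continuous_fst continuous_const, Continuous.continuousOn (by
    unfold s0; fun_prop), ?_⟩
  have e : {a | a ∈ (s0 L m).1 ∧ (s0 L m).2 a = 0} = Metric.sphere 0 1 ×ˢ {0} := by
    ext w
    simp only [s0, mem_ofPred_eq, mem_prod, mem_sphere_zero_iff_norm, mem_singleton_iff]
    refine ⟨fun ⟨a, b⟩ => ?_, fun ⟨a, b⟩ => ⟨norm_ne_zero_iff.1 (by rw [a]; norm_num), ?_⟩⟩
    · have := L.map_eq_zero_iff.1 (m_zero hm a b)
      exact ⟨sub_eq_zero.1 (congrArg Prod.fst this), congrArg Prod.snd this⟩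
    · rw [a, b, sub_self, Prod.mk_zero_zero, map_zero, map_zero]
  rw [e]; exact (isCompact_sphere _ _).prod isCompact_singleton

theorem ok_hopf (hm : ∀ s x, ‖m s x‖ = ‖s‖ * ‖x‖) : Okp (Sh.hopf m) := by
  refine ⟨isOpen_ne_fun continuous_snd continuous_const, Continuous.continuousOn (by
    unfold Sh.hopf; fun_prop), ?_⟩
  have e : {a | a ∈ (Sh.hopf m).1 ∧ (Sh.hopf m).2 a = 0} = {0} ×ˢ Metric.sphere 0 1 := by
    ext w
    simp only [Sh.hopf, mem_ofPred_eq, mem_prod, mem_sphere_zero_iff_norm, mem_singleton_iff,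
      Prod.mk_eq_zero, sub_eq_zero]
    refine ⟨fun ⟨a, ⟨b, c⟩, d⟩ => ⟨Prod.ext (m_zero hm a d) c, b⟩, fun ⟨a, b⟩ =>
      ⟨norm_ne_zero_iff.1 (by rw [b]; norm_num), ⟨b, by rw [a]; rfl⟩, by rw [a]; simp⟩⟩
  rw [e]; exact isCompact_singleton.prod (isCompact_sphere _ _)

/-- **the rotation** -/
theorem rot (K : NUK) (hF : finrank ℝ F = 7) (hm : ∀ s x, ‖m s x‖ = ‖s‖ * ‖x‖)
    (h : Nu (s0 L m)) : Nu (Sh.hopf m) := by
  have o0 := ok_s0 L hm
  have n1 := K.st (C := ℝ × Sh.E 3) _ (by simp [hF]; decide) (by simp; decide) (by simp; decide) o0 h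
  have o1 := ok_st (C := ℝ × Sh.E 3) o0
  let S := ContinuousLinearEquiv.prodComm ℝ (Sh.E 8) (ℝ × Sh.E 3)
  have n2 := K.tg S _ o1 n1
  have o2 := ok_tg o1 S
  let e : (Sh.E 8 × F) × (ℝ × Sh.E 3) → (Sh.E 8 × Sh.E 3) × Sh.E 8 :=
    fun w => ((L (-w.2.1, w.1.2), w.2.2), w.1.1)
  let e' : (Sh.E 8 × Sh.E 3) × Sh.E 8 → (Sh.E 8 × F) × (ℝ × Sh.E 3) :=
    fun z => ((z.2, (L.symm z.1.1).2), (-(L.symm z.1.1).1, z.1.2))
  have ce : Continuous e := by fun_prop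
  have ce' : Continuous e' := by fun_prop
  have li : ∀ a, e' (e a) = a := fun a => by simp [e, e']
  have ri : ∀ a, e (e' a) = a := fun a => by simp [e, e']
  have n3 := K.emb e univ e' _ ⟨ce, isOpen_univ, ce'.continuousOn, fun _ => trivial, li,
    fun a _ => ri a⟩ (by simp [hF]) (by simp; decide) o2 n2
  have o3 := ok_cm o2 (e := e') (U := univ) (e' := e) ⟨ce', isOpen_univ, ce.continuousOn,
    fun _ => trivial, ri, fun a _ => li a⟩ fun _ _ _ => trivial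
  refine (K.hb _ _ (.single ?_) (ok_hopf hm) o3).2 n3
  refine ⟨{z | z.2.2 ≠ 0}, fun z =>
    (((1 - z.1) * (‖z.2.2‖ - 1) - z.1 * (L.symm z.2.1.1).1, z.2.1.2),
      m z.2.2 (L (z.1 * (‖z.2.2‖ - 1) + (1 - z.1) * (L.symm z.2.1.1).1, (L.symm z.2.1.1).2))),
    isOpen_ne_fun continuous_snd.snd continuous_const, Continuous.continuousOn (by fun_prop), ?_,
    fun a o => ⟨o, by simp [Sh.hopf]⟩, fun a o _ => o,
    fun a o => ⟨⟨trivial, o⟩, by simp [cm, tg, st, s0, S, e']⟩, fun a o _ => o.2⟩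
  convert (isCompact_Icc (a := (0 : ℝ)) (b := 1)).prod (ok_hopf hm).cp using 1
  ext ⟨t, ⟨x, z⟩, y⟩
  obtain ⟨⟨a, v⟩, rfl⟩ := L.surjective x
  simp only [Sh.hopf, mem_ofPred_eq, mem_prod, Prod.mk_eq_zero, L.symm_apply_apply]
  refine ⟨fun ⟨o, i, ⟨b, c⟩, d⟩ => ?_, fun ⟨i, o, ⟨b, c⟩, d⟩ => ?_⟩
  · obtain ⟨d1, d2⟩ := Prod.mk_eq_zero.1 (L.map_eq_zero_iff.1 (m_zero hm o d))
    have p : (1 - t) ^ 2 + t ^ 2 ≠ 0 := by nlinarith [sq_nonneg (2 * t - 1)]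
    have a1 : ‖y‖ - 1 = 0 := (mul_eq_zero.1 (show ((1 - t) ^ 2 + t ^ 2) * (‖y‖ - 1) = 0 by
      linear_combination (1 - t) * b + t * d1)).resolve_left p
    have a2 : a = 0 := (mul_eq_zero.1 (show ((1 - t) ^ 2 + t ^ 2) * a = 0 by
      linear_combination (1 - t) * d1 - t * b)).resolve_left p
    exact ⟨i, o, ⟨a1, c⟩, by rw [a2, d2, Prod.mk_zero_zero, map_zero, map_zero]⟩
  · obtain ⟨d1, d2⟩ := Prod.mk_eq_zero.1 (L.map_eq_zero_iff.1 (m_zero hm o d))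
    refine ⟨o, i, ⟨by rw [b, d1]; ring, c⟩, ?_⟩
    rw [b, d1, d2, mul_zero, mul_zero, add_zero, Prod.mk_zero_zero, map_zero, map_zero]

end Crest.Agent.N218.D3

end
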