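import Crest.Agent.N218.D3.Geo
import Crest.Agent.N218.K.Cy

/-!
# Row 218, block D3 (helper47): `shr' : SHR`
-/

set_option autoImplicit false
set_option linter.unusedVariables false

open Set unitInterval

noncomputable section

namespace Crest.Agent.N218.D3
open K

/-- **SHR** -/
theorem shr' : SHR := by
  intro Γ _ _ X V Q U c hQ s o ct e a
  let H : PB X.ls.cy V := ⟨{z : X.W × I | z.1 ∈ U ∧ z.1 + (z.2 : ℝ) • c z.1 ∈ Q.O},
    fun z : X.W × I => Q.f (z.1 + (z.2 : ℝ) • c z.1)⟩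
  have m : ∀ b : ℝ, ContinuousOn (fun z : X.W × I => z.1 + (b * z.2 : ℝ) • c z.1)
      (Prod.fst ⁻¹' U) := fun b =>
    continuousOn_fst.add (ContinuousOn.smul (f := fun z : X.W × I => (b * z.2 : ℝ))
      (Continuous.continuousOn (by fun_prop)) (ct.comp continuousOn_fst fun _ h => h))
  have m1 : ContinuousOn (fun z : X.W × I => z.1 + (z.2 : ℝ) • c z.1) (Prod.fst ⁻¹' U) := by
    simpa only [one_mul] using m 1
  have q : ∀ g, ∀ x ∈ U, ∀ t : ℝ, X.ρ g x + t • c (X.ρ g x) = X.ρ g (x + t • c x) :=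
    fun g x hx t => by rw [map_add, map_smul, (e g x hx).2.1, (e g x hx).2.2]
  have cp : IsCompact {z : X.W × I | (z.1 ∈ U ∧ z.1 + (z.2 : ℝ) • c z.1 ∈ Q.O) ∧
      Q.f (z.1 + (z.2 : ℝ) • c z.1) = 0} := by
    have k : IsCompact {y : X.W | y ∈ Q.O ∧ Q.f y = 0} := hQ.cp
    have := (k.prod (isCompact_univ (X := I))).image_of_continuousOn
      (((m (-1)).mono fun z hz => s hz.1.1).prodMk continuousOn_snd)
    convert this using 1
    ext ⟨x, t⟩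
    constructor
    · rintro ⟨⟨h1, h2⟩, h3⟩
      refine ⟨(x + (t : ℝ) • c x, t), ⟨⟨h2, h3⟩, trivial⟩, Prod.ext ?_ rfl⟩
      change x + (t : ℝ) • c x + (-1 * t : ℝ) • c (x + (t : ℝ) • c x) = x
      rw [(a x h1 t).2]; module
    · rintro ⟨⟨y, u⟩, ⟨⟨h1, h2⟩, -⟩, h3⟩
      obtain ⟨rfl, rfl⟩ := Prod.ext_iff.1 h3
      have b := a y (s h1) (-1 * u)
      have d : y + (-1 * u : ℝ) • c y + (u : ℝ) • c (y + (-1 * u : ℝ) • c y) = y := by
        rw [b.2]; module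
      exact ⟨⟨b.1, (congrArg (· ∈ Q.O) d).mpr h1⟩, (congrArg Q.f d).trans h2⟩
  have ok : H.Ok (Prod.fst ⁻¹' X.ls.fr) :=
    ⟨m1.isOpen_inter_preimage (o.preimage continuous_fst) hQ.op, fun g (z : X.W × I) hz =>
      ⟨(e g _ hz.1).1, (congrArg (· ∈ Q.O) (q g _ hz.1 z.2)).mpr (hQ.inv g _ hz.2)⟩,
      hQ.ct.comp (m1.mono fun _ h => h.1) fun _ h => h.2, fun g (z : X.W × I) hz =>
      (congrArg Q.f (q g _ hz.1 z.2)).trans (hQ.eq g _ hz.2), cp, fun (z : X.W × I) hz g hg =>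
      hQ.fr (a := z.1 + (z.2 : ℝ) • c z.1) ⟨hz.1.2, hz.2⟩ g ((q g _ hz.1.1 z.2).symm.trans
        (congrArg (fun y : X.W => y + (z.2 : ℝ) • c y) hg))⟩
  have e1 : H.sl (1 : I) = ⟨{x : X.W | x ∈ U ∧ x + c x ∈ Q.O}, fun x : X.W => Q.f (x + c x)⟩ := by
    change (⟨{x : X.W | x ∈ U ∧ x + (1 : ℝ) • c x ∈ Q.O},
      fun x : X.W => Q.f (x + (1 : ℝ) • c x)⟩ : PB X.ls V) = _
    simp only [one_smul]
  have z : ∀ x : X.W, x + (0 : ℝ) • c x = x := fun x => by simp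
  exact ⟨hQ, e1 ▸ ok.sl (1 : I), H, ok, ⟨fun x h => (congrArg (· ∈ Q.O) (z x)).mp h.2,
    fun x h => congrArg Q.f (z x), fun x h => ⟨s h.1, (congrArg (· ∈ Q.O) (z x)).mpr h.1⟩⟩,
    e1 ▸ PB.Le.rfl' _⟩

end Crest.Agent.N218.D3

end
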