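import Crest.Agent.N218.D3.Geo
import Crest.Agent.N218.D3.Loc
import Crest.Agent.N218.P.Kit
import Crest.Agent.N218.Sk.Ec1

/-! Row 218, block D3, leaves ZL, LM, ZE (helper3): localisation of the free zeros. -/

set_option autoImplicit false
set_option linter.unusedVariables false

open Set
open scoped RealInnerProductSpace

noncomputable section

namespace Crest.Agent.N218.D3
open K In Sh

namespace Zl

theorem locE {k : ℕ} {E : Type} [NormedAddCommGroup E] [NormedSpace ℝ E] {f r0 : E → E}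
    {C a μ : ℝ} {y : Pm.V k E} {Z : Set E} (hμ : 0 < μ) (hC : 0 ≤ C)
    (h0 : ∀ y y', ‖r0 y - r0 y'‖ ≤ ‖y - y'‖) (hr : ∀ y, ‖f y - r0 y‖ ≤ C)
    (hz : ∀ i, y i - f (y (i - 1)) + (μ • Pm.mn y) i = 0) (hw : Pm.mn y ≠ 0)
    (far : ∀ y, f y ≠ r0 y → ∃ c ∈ Z, r0 c = c ∧ ‖y - c‖ ≤ a) :
    ∃ c ∈ Z, ∀ i, ‖y i - c‖ ≤ a + 2 * C * (2 ^ (k + 1) : ℕ) :=
  loc (σ := Equiv.addRight 1) (τ := Equiv.addRight (2 ^ k)) Sk.tau_sq
    (fun i => by simp only [Equiv.coe_addRight]; ring)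
    (fun i j => ⟨(j - i).val, (ZMod.val_lt _).le, by simp⟩) hμ hC h0 hr (Sk.eq_iff.1 hz) hw far

theorem av_le {k : ℕ} {E : Type} [NormedAddCommGroup E] [NormedSpace ℝ E] {y : Pm.V k E} {c : E}
    {b : ℝ} (h : ∀ i, ‖y i - c‖ ≤ b) : ‖Pm.av k E y - c‖ ≤ b := by
  have p : (0 : ℝ) < Fintype.card (Pm.Ix k) := by exact_mod_cast Fintype.card_pos
  have e : Pm.av k E y - c = Pm.av k E (y - Pm.cs k E c) := by rw [map_sub, Pm.av_cs]
  rw [e, Pm.av_apply, norm_smul, norm_inv, Real.norm_of_nonneg p.le, inv_mul_le_iff₀ p]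
  refine (norm_sum_le _ _).trans ((Finset.sum_le_sum fun i _ => h i).trans ?_)
  simp

theorem piH_lip {p : ℝ → ℝ} (hp : ∀ u u', |p u - p u'| ≤ |u - u'|) (y y' : P.Y) :
    ‖P.piH p y - P.piH p y'‖ ≤ ‖y - y'‖ := by
  have e : P.piH p y - P.piH p y' =
      (y - y') - (P.u1 y - P.u1 y' - (p (P.u1 y) - p (P.u1 y'))) • P.ev := by
    simp only [P.piH]; module
  refine abs_le_of_sq_le_sq' ?_ (norm_nonneg _) |>.2
  rw [e, norm_sub_sq_real, inner_smul_right, real_inner_comm, P.inner_ev, P.u1_sub, norm_smul,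
    P.norm_ev, mul_one, Real.norm_eq_abs, sq_abs]
  have := sq_le_sq.2 (hp (P.u1 y) (P.u1 y'))
  nlinarith

variable {Φ : A.Fam} (h : P.Shape Φ (2 ^ 30))

theorem j1_le (η : P.Y) : ‖(h.j η).1‖ ≤ ‖η‖ := by
  have a := h.hF.jn η
  refine max_le (abs_le_of_sq_le_sq' ?_ (norm_nonneg _)).2 ?_
  · nlinarith [sq_nonneg (P.u1 η), sq_nonneg (P.u2 η)]
  · rw [h.hF.j2]
    exact abs_le_of_sq_le_sq (by nlinarith [sq_nonneg (P.u1 η), sq_nonneg ‖(h.j η).1.1‖])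
      (norm_nonneg _)

theorem j_ctr (z : (E 8 × E 3) × E 8 × ℝ) : h.j (ctr h z) = (z.2 - h.S.H z, 1) :=
  h.j.apply_symm_apply _

theorem u1_ctr (z : (E 8 × E 3) × E 8 × ℝ) : P.u1 (ctr h z) = 1 := by rw [← h.hF.j1, j_ctr]

theorem ctr_le {z : (E 8 × E 3) × E 8 × ℝ} (hz : z ∈ h.S.O) : ‖ctr h z‖ ≤ 2 := by
  have a := h.hF.jn (ctr h z)
  rw [u1_ctr, ← h.hF.j2, j_ctr] at a
  have b := h.S.pos z hz
  have b1 := (norm_fst_le _).trans b
  have b2 := abs_le.1 ((norm_snd_le _).trans b)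
  refine (abs_le_of_sq_le_sq' ?_ (by norm_num)).2
  nlinarith [norm_nonneg (z.2 - h.S.H z).1]

theorem rE_eq {x : A.Eu 11} (hx : ‖x‖ = 1) (y : P.Y) : rE h x y = h.rY y +
    if 0 < ⟪h.e', x⟫ then h.S.ex (P.sc h.j h.ε h.g) ((h.π x, (h.j y).1), (h.j y).2) else 0 := by
  rw [rE, h.r_eq x y hx, LinearIsometryEquiv.symm_apply_apply]

theorem A_pos : 0 < h.A := one_pos.trans_le h.A1

theorem rY_ctr {z : (E 8 × E 3) × E 8 × ℝ} (hz : z ∈ h.S.O) : h.rY (ctr h z) = ctr h z := by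
  rw [h.hb.flat _ ((ctr_le h hz).trans (by norm_num)), P.inner_ev, u1_ctr, sub_self,
    h.hb.pp.id 0 le_rfl, sub_self, zero_smul, sub_zero]

end Zl
open Zl

theorem zl : ZL := fun Φ h t n hn s η hw hz => by
  have A0 := A_pos h
  obtain ⟨c, ⟨rfl, b⟩, e⟩ := locE (f := rl h n) (r0 := P.piH (P.pl h.ε h.p)) (C := h.A) (a := h.A)
    (Z := {c | c = 0 ∧ ‖n.2‖ < h.S.r / 2}) (Real.exp_pos s) A0.le (piH_lip h.hp.lip)
    (fun y => by rw [rl, add_sub_cancel_left]; exact h.gb n hn y) (congrFun hz) hw fun y ne => by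
      have : ¬(h.S.r / 2 ≤ ‖n.2‖ ∨ h.A ≤ ‖y‖) := fun a => ne (by rw [rl, h.g0 n y a, add_zero])
      push Not at this
      refine ⟨0, ⟨rfl, this.1⟩, ?_, by rw [sub_zero]; exact this.2.le⟩
      have u : P.u1 0 = 0 := by simp [P.u1]
      rw [P.piH, u, h.hp.id 0 le_rfl]; simp
  refine ⟨b, fun i => ?_⟩
  have := e i
  rw [sub_zero] at this
  push_cast at this
  linarith

theorem lm : LM := fun Φ h t x b η hx he hb hη => by
  have e0 := h.ε0
  have s1 := h.small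
  have s2 := h.εΛ
  have r0 := h.S.r0
  have n : h.ε * ‖η‖ ≤ h.ε * h.A * 2 ^ 25 := by nlinarith
  have j : h.j (ctr h (h.π x, b) + h.ε • η) =
      (b - h.S.H (h.π x, b) + h.ε • (h.j η).1, 1 + h.ε * P.u1 η) := by
    rw [map_add, map_smul, j_ctr, ← h.hF.j1]; rfl
  obtain ⟨a1, a2, a3⟩ := h.S.tr _ hb (h.ε • (h.j η).1) (by
    rw [norm_smul, Real.norm_of_nonneg e0.le]
    have := mul_le_mul_of_nonneg_left (j1_le h η) e0.le
    linarith)
  have y : ‖ctr h (h.π x, b) + h.ε • η‖ ≤ 20 := by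
    refine (norm_add_le _ _).trans ?_
    rw [norm_smul, Real.norm_of_nonneg e0.le]
    linarith [ctr_le h hb]
  have u : P.u1 (ctr h (h.π x, b) + h.ε • η) - 1 = h.ε * P.u1 η := by
    rw [← h.hF.j1, j]; ring
  have k : h.ε⁻¹ • h.j.symm (h.ε • (h.j η).1, 1 + h.ε * P.u1 η - 1) = η := by
    have : (h.ε • (h.j η).1, 1 + h.ε * P.u1 η - 1) = h.ε • h.j η := by
      rw [← h.hF.j1, add_sub_cancel_left]; rfl
    rw [this, map_smul, ContinuousLinearEquiv.symm_apply_apply, inv_smul_smul₀ e0.ne']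
  rw [rE_eq h hx, if_pos he, j, h.S.ex_in _ a1, a2, a3, h.hb.flat _ y, P.inner_ev, u]
  simp only [P.sc, k, rl, P.piH, P.pl]
  have : h.p (h.ε * P.u1 η) = h.ε * (h.p (h.ε * P.u1 η) / h.ε) := by field_simp
  rw [this, mul_div_cancel_left₀ _ e0.ne']
  conv_rhs => rw [this, mul_div_cancel_left₀ _ e0.ne']
  module

theorem ze : ZE := fun Φ h t x s y hx hw hz => by
  have A0 := A_pos h
  have e0 := h.ε0
  have s1 := h.small
  have r0 := h.S.r0
  have eA := mul_pos e0 A0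
  obtain ⟨c, ⟨he, b, hb, rfl⟩, e⟩ := locE (f := rE h x) (r0 := h.rY) (C := h.ε * h.A)
    (a := h.ε * h.A) (Z := {c | 0 < ⟪h.e', x⟫ ∧ ∃ b, (h.π x, b) ∈ h.S.O ∧ c = ctr h (h.π x, b)})
    (Real.exp_pos s) eA.le h.hb.one
    (fun y => by
      rw [rE_eq h hx, add_sub_cancel_left]
      split_ifs
      · by_cases a : (h.π x, (h.j y).1) ∈ h.S.O
        · rw [h.S.ex_in _ a, P.sc, norm_smul, Real.norm_of_nonneg e0.le]
          exact mul_le_mul_of_nonneg_left (h.gb _ (h.hS.mem _ a) _) e0.le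
        · rw [h.S.ex_out _ a, norm_zero]; exact eA.le
      · rw [norm_zero]; exact eA.le) (congrFun hz) hw fun y ne => by
      rw [rE_eq h hx] at ne
      have he : 0 < ⟪h.e', x⟫ := by_contra fun n => ne (by rw [if_neg n, add_zero])
      have a : (h.π x, (h.j y).1) ∈ h.S.O :=
        by_contra fun n => ne (by rw [if_pos he, h.S.ex_out _ n, add_zero])
      rw [if_pos he, h.S.ex_in _ a, P.sc] at ne
      have d : ¬h.A ≤ ‖h.ε⁻¹ • h.j.symm (h.S.H (h.π x, (h.j y).1), (h.j y).2 - 1)‖ :=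
        fun d => ne (by rw [h.g0 _ _ (Or.inr d), smul_zero, add_zero])
      refine ⟨_, ⟨he, _, a, rfl⟩, rY_ctr h a, ?_⟩
      have : y - ctr h (h.π x, (h.j y).1) =
          h.j.symm (h.S.H (h.π x, (h.j y).1), (h.j y).2 - 1) := h.j.injective (by
        rw [map_sub, j_ctr, ContinuousLinearEquiv.apply_symm_apply]
        exact Prod.ext (sub_sub_cancel _ _) rfl)
      rw [norm_smul, norm_inv, Real.norm_of_nonneg e0.le, not_le, inv_mul_lt_iff₀ e0] at d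
      rw [this]; exact d.le
  have e' : ∀ i, ‖y i - ctr h (h.π x, b)‖ ≤ h.ε * h.A * 2 ^ 24 := fun i => by
    have := e i
    push_cast at this
    linarith
  have j : (h.j (Pm.av 21 _ y)).1 =
      b - h.S.H (h.π x, b) + (h.j (Pm.av 21 _ y - ctr h (h.π x, b))).1 := by
    rw [map_sub, j_ctr]; simp
  obtain ⟨a1, -, a3⟩ := h.S.tr _ hb (h.j (Pm.av 21 _ y - ctr h (h.π x, b))).1
    ((j1_le h _).trans_lt ((av_le e').trans_lt (by linarith)))
  have c : ctr h (h.π x, (h.j (Pm.av 21 _ y)).1) = ctr h (h.π x, b) := by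
    rw [j, ctr, a3, add_sub_cancel_right]; rfl
  exact ⟨he, j ▸ a1, c ▸ e'⟩

end Crest.Agent.N218.D3

end
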